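import Vale.Agent.P281Z.Ga.Sk

/-!
# P281Z, block III, part A: the forms given by semi-invariants are bounded by the determinants
-/

open scoped Manifold ContDiff Topology ENNReal Matrix
open Set Filter
open Vale.Agent.P272.K Vale.Agent.P285.H281.FD
open Vale.Agent.P277Z (Hol)

noncomputable section

namespace Vale.Agent.P281Z.Ga

open Gt

namespace Blk

variable {p a m ρ : ℕ} {M : Fb (p + a) p} {y : M.Y.X} {r : ℝ} {ψ : Cm a → M.X.X}

/-- the nice points are dense in a piece -/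
theorem freq (hM : M.Ok) (C : NS M) (hy : y ∉ C.Q) (hψ : Pc y r ψ) {u : Cm a}
    (hu : u ∈ Metric.ball (0 : Cm a) r) : ∃ᶠ u' in 𝓝 u, ψ u' ∉ C.S := by
  classical
  obtain ⟨F, i, hi, -⟩ := (C.reg y hy).fib rfl hM.fibn.hol hM.snc
  obtain ⟨x₀, -⟩ := hi.ex (y := ψ u) (hψ.fib u hu)
  have k0 : ∀ u', ∃ x, u' ∈ Metric.ball (0 : Cm a) r → i x = ψ u' := fun u' => by
    by_cases h : u' ∈ Metric.ball (0 : Cm a) r
    · obtain ⟨x, hx⟩ := hi.ex (y := ψ u') (hψ.fib u' h)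
      exact ⟨x, fun _ => hx⟩
    · exact ⟨x₀, fun h' => absurd h' h⟩
  choose g hg using k0
  have k1 : ∀ᶠ u' in 𝓝 u, ψ u' = i (g u') := by
    filter_upwards [Metric.isOpen_ball.mem_nhds hu] with u' h using (hg u' h).symm
  have k2 : HolA a a g u := hi.lift_at ((hψ.hol u hu).cng k1)
  have k3 : Sbm a a g u := imm_iff_sbm.1 (Imm.of_comp (hi.hol.at _) k2 ((hψ.imm u hu).cng k1))
  have k4 : ∃ᶠ z in 𝓝 (g u), i z ∉ C.S := by
    intro h
    have h1 := hi.ev.1 h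
    have h2 := mem_closure_iff_frequently.1 (C.fib (ψ u) (by rw [hψ.fib u hu]; exact hy))
    rw [hg u hu] at h1
    obtain ⟨x, ⟨hx, hx'⟩, h3⟩ := (h2.and_eventually h1).exists
    obtain ⟨z, rfl⟩ := hi.ex (y := x) (hx.trans (hψ.fib u hu))
    exact h3 z rfl hx'
  refine ((k3.freq k2 k4).and_eventually k1).mono fun u' h => ?_
  rw [h.2]
  exact h.1

theorem bP_sc (e : ℕ) (l : Fin (e * ρ) → ℂ) (j : Fin (e * ρ) → Jt ρ a) :
    bP e (fun k => sc m (l k) (j k)) = (∏ k, l k ^ m) * bP e j := by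
  have k0 : ∀ (l : Fin ρ → ℂ) (j : Fin ρ → Jt ρ a),
      b0 (fun k => sc m (l k) (j k)) = (∏ k, l k ^ m) * b0 j := fun l j =>
    Matrix.det_mul_row (fun k => l k ^ m) (Matrix.of fun α β => (j β).1 α)
  rw [bP, bP, ← finProdFinEquiv.prod_comp, Fintype.prod_prod_type, ← Finset.prod_mul_distrib]
  exact Finset.prod_congr rfl fun g _ => k0 _ _

variable {R : JS M m ρ} {J₀ : Fin (a + 1) → Fin ρ} {v : ℕ} {z : Fin v → M.Y.X → ℂ}

/-- the forms in the coordinates of a piece -/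
theorem key (S : R.GS J₀ z) (C : NS M) (hψ : Pc y r ψ) {w : Cm a → Cm ρ} {l : Cm a → ℂ}
    (h : ∀ u ∈ Metric.ball (0 : Cm a) r,
      sc m (l u) (R.j (R.fr y) (cx (ψ u)) (ψ u)) = jet w u ∧ ∀ w : Fin a → M.X.X → ℂ,
        (∀ k, Hol (p + a) (w k) (ψ u)) → jw w ψ u = l u * jdw w (cx (ψ u)) (R.ch (R.fr y)) (ψ u))
    {n κ : ℕ} (c : ℕ) {Φ : (Fin n → Jt ρ a) → ℂ}
    (hΦ : ∀ (l : Fin n → ℂ) j, Φ (fun k => sc m (l k) (j k)) = (∏ k, l k ^ κ) * Φ j)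
    {u : Fin n → Cm a} (hu : ∀ j, u j ∈ Metric.ball (0 : Cm a) r) (hS : ∀ j, ψ (u j) ∉ C.S) :
    ‖R.gl C.w κ (S.tf c Φ) (y, fun j => ψ (u j))‖ * ∏ j, ‖jw C.w ψ (u j)‖ ^ κ =
      ‖∏ k, (S.g (R.fr y) y k).det‖ ^ c * ‖Φ fun k => jet w (u k)‖ := by
  have k1 : ∀ j, jdw C.w (cx (ψ (u j))) (R.ch (R.fr y)) (ψ (u j)) ≠ 0 := fun j =>
    C.et _ (hS j) _ _ (P277Z.at_chart _) (by rw [hψ.fib _ (hu j)]; exact R.atc _ _ (R.fr_mem y))
  have k2 : (fun k => jet w (u k)) =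
      fun k => sc m (l (u k)) (R.j (R.fr y) (cx (ψ (u k))) (ψ (u k))) :=
    funext fun k => (h _ (hu k)).1.symm
  have k3 : ∏ j, ‖jw C.w ψ (u j)‖ ^ κ = ‖(∏ j, l (u j) ^ κ) *
      (∏ j, jdw C.w (cx (ψ (u j))) (R.ch (R.fr y)) (ψ (u j))) ^ κ‖ := by
    rw [← Finset.prod_pow, ← Finset.prod_mul_distrib, norm_prod]
    refine Finset.prod_congr rfl fun j _ => ?_
    rw [(h _ (hu j)).2 _ fun k => (C.mr k).hol _ (hS j), ← mul_pow, norm_pow]
  have k4 : (∏ j, jdw C.w (cx (ψ (u j))) (R.ch (R.fr y)) (ψ (u j))) ^ κ ≠ 0 :=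
    pow_ne_zero _ (Finset.prod_ne_zero_iff.2 fun j _ => k1 j)
  rw [k2, hΦ, k3, ← norm_mul, ← norm_pow, ← norm_mul]
  congr 1
  simp only [JS.gl, JS.GS.tf, JS.jq]
  field_simp

end Blk

open Blk in
theorem blk_of (hP : PJ) (hB : BLKA) : BLK := by
  intro p a m ρ M R hM J₀ v z S C n c κ Φ r r' hQ hΦ hc hr hr'
  obtain ⟨A, hA, hb⟩ := hB ρ a m n (S.e * c) _ Φ r r' hΦ (Nat.mul_pos S.pos hc) hr hr'
  refine ⟨A, hA, fun y hy ψ hψ K hK h u hu hS => ?_⟩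
  have hyS : y ∉ S.Q := fun k => hy (hQ k)
  obtain ⟨w, l, hw⟩ := hP p a m ρ M R hM _ y (R.fr_mem y) (fun k => hyS (S.sub k)) r ψ hψ
  have hw' := fun u hu => (hw u hu).2.2
  have hθ : 0 < ‖∏ k, (S.g (R.fr y) y k).det‖ := norm_pos_iff.2
    (Finset.prod_ne_zero_iff.2 fun k _ => S.det _ _ (R.fr_mem y) hyS k)
  generalize hθ' : ‖∏ k, (S.g (R.fr y) y k).det‖ = θ at hθ
  have hK0 : ((K / θ) ^ ((S.e : ℝ)⁻¹)) ^ S.e = K / θ :=
    Real.rpow_inv_natCast_pow (div_nonneg hK hθ.le) S.pos.ne'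
  have hK1 : 0 ≤ (K / θ) ^ ((S.e : ℝ)⁻¹) := Real.rpow_nonneg (div_nonneg hK hθ.le) _
  generalize (K / θ) ^ ((S.e : ℝ)⁻¹) = K₀ at hK0 hK1
  have k1 : ∀ u : Fin ρ → Cm a, (∀ β, u β ∈ Metric.ball (0 : Cm a) r ∧ ψ (u β) ∉ C.S) →
      ‖b0 fun β => jet w (u β)‖ ≤ K₀ := fun u hu => by
    have h1 := h (fun k => u (finProdFinEquiv.symm k).2) (fun k => (hu _).1) fun k => (hu _).2
    rw [key S C hψ hw' 1 (bP_sc S.e) (fun k => (hu _).1) fun k => (hu _).2, hθ', pow_one] at h1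
    simp only [bP, Equiv.symm_apply_apply, Finset.prod_const, Finset.card_univ, Fintype.card_fin,
      norm_pow] at h1
    rw [← pow_le_pow_iff_left₀ (norm_nonneg _) hK1 S.pos.ne', hK0, le_div_iff₀' hθ]
    exact h1
  have k2 : ∀ u : Fin ρ → Cm a, (∀ β, u β ∈ Metric.ball (0 : Cm a) r) →
      ‖b0 fun β => jet w (u β)‖ ≤ K₀ := fun u hu => by
    have h1 : u ∈ closure (univ.pi fun _ => {u' | u' ∈ Metric.ball (0 : Cm a) r ∧ ψ u' ∉ C.S}) :=
      mem_closure_pi.2 fun β _ => mem_closure_iff_frequently.2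
        (((freq hM.ok C hy hψ (hu β)).and_eventually (Metric.isOpen_ball.mem_nhds (hu β))).mono
          fun _ k => ⟨k.2, k.1⟩)
    have h2 : ContinuousAt (fun u : Fin ρ → Cm a => ‖b0 fun β => jet w (u β)‖) u := by
      refine ((continuous_id.matrix_det.continuousAt).comp (f := fun u : Fin ρ → Cm a =>
        Matrix.of fun α β => w (u β) α) ?_).norm
      refine continuousAt_pi.2 fun α => continuousAt_pi.2 fun β => ?_
      exact (continuous_apply α).continuousAt.comp (ContinuousAt.comp (f := fun u : Fin ρ → Cm a =>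
        u β) (hw _ (hu β)).1.continuousAt (continuous_apply β).continuousAt)
    exact isClosed_Iic.mem_of_frequently_of_tendsto
      ((mem_closure_iff_frequently.1 h1).mono fun u' k => k1 u' fun β => k β trivial) h2
  have hu' := fun j => Metric.ball_subset_ball hr'.le (hu j)
  rw [key S C hψ hw' c hΦ.sc hu' hS, hθ']
  calc θ ^ c * ‖Φ fun k => jet w (u k)‖ ≤ θ ^ c * (A * K₀ ^ (S.e * c)) :=
        mul_le_mul_of_nonneg_left (hb w K₀ hK1 (fun u hu => (hw u hu).1) k2 u hu) (by positivity)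
    _ = A * K ^ c := by rw [pow_mul, hK0, div_pow]; field_simp

end Vale.Agent.P281Z.Ga
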