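import Vale.Agent.P281Z.Ga.Sk

/-!
# P281Z, block III, part A: semi-invariants are bounded by the determinants
-/

open scoped Topology Matrix
open Set Filter Metric
open Vale.Agent.P272.K

noncomputable section

namespace Vale.Agent.P281Z.Ga

namespace BkH

variable {ρ a : ℕ}

theorem pl_mul (g : Mt ρ) (w : Fin (a + 1) → Cm ρ) (J : Fin (a + 1) → Fin ρ) :
    pl (fun l => g *ᵥ w l) J = ∑ J' : Fin (a + 1) → Fin ρ, (∏ k, g (J k) (J' k)) * pl w J' := by
  have e : (Matrix.of fun k l => (g *ᵥ w l) (J k)) =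
      fun k => ∑ α, g (J k) α • fun l => w l α := by
    funext k l
    simp [Matrix.mulVec, dotProduct]
  refine (congrArg Matrix.detRowAlternating e).trans
    (((Matrix.detRowAlternating (n := Fin (a + 1)) (R := ℂ)).toMultilinearMap.map_sum _).trans
      (Finset.sum_congr rfl fun J' _ => ?_))
  exact (Matrix.detRowAlternating (n := Fin (a + 1)) (R := ℂ)).toMultilinearMap.map_smul_univ _ _

theorem jet_act {v v' : Cm a → Cm ρ} {g : Mt ρ} {u : Cm a} (hd : DifferentiableAt ℂ v' u)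
    (h : v =ᶠ[𝓝 u] fun u => g *ᵥ v' u) : jet v u = act g (jet v' u) := by
  have k : fderiv ℂ v u = (LinearMap.toContinuousLinearMap g.mulVecLin).comp (fderiv ℂ v' u) :=
    h.fderiv_eq.trans
      ((LinearMap.toContinuousLinearMap g.mulVecLin).hasFDerivAt.comp u hd.hasFDerivAt).fderiv
  refine Prod.ext h.eq_of_nhds (funext fun J => Eq.trans ?_ (pl_mul g _ J))
  refine congrArg (pl · J) (funext fun l => ?_)
  refine Fin.cases h.eq_of_nhds (fun l => ?_) l
  exact DFunLike.congr_fun k _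

/-- the estimate of Cauchy -/
theorem cauchy {v : Cm a → Cm ρ} {r r' C : ℝ} (h : r' < r)
    (hv : ∀ u ∈ ball (0 : Cm a) r, AnalyticAt ℂ v u) (hC : ∀ u ∈ ball (0 : Cm a) r, ‖v u‖ ≤ C)
    {u : Cm a} (hu : u ∈ ball (0 : Cm a) r') (l : Fin a) :
    ‖fderiv ℂ v u (Pi.single l 1)‖ ≤ C / (r - r') := by
  have h1 : ∀ t ∈ closedBall (0 : ℂ) (r - r'), u + t • (Pi.single l 1 : Cm a) ∈ ball 0 r :=
    fun t ht => by
      rw [mem_ball_zero_iff] at hu ⊢
      refine (norm_add_le _ _).trans_lt ?_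
      rw [norm_smul, Pi.norm_single, norm_one, mul_one]
      linarith [mem_closedBall_zero_iff.1 ht]
  have h2 : ∀ t : ℂ, HasDerivAt (fun t : ℂ => u + t • (Pi.single l 1 : Cm a)) (Pi.single l 1) t :=
    fun t => by simpa using ((hasDerivAt_id t).smul_const (Pi.single l 1 : Cm a)).const_add u
  have h3 := Complex.norm_deriv_le_of_forall_mem_sphere_norm_le (sub_pos.2 h)
    (DifferentiableOn.diffContOnCl_ball (f := fun t : ℂ => v (u + t • (Pi.single l 1 : Cm a)))
      (fun t ht => ((hv _ (h1 t ht)).differentiableAt.comp t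
        (h2 t).differentiableAt).differentiableWithinAt) Subset.rfl)
    fun t ht => hC _ (h1 t (sphere_subset_closedBall ht))
  have h4 := ((hv u (ball_subset_ball h.le hu)).differentiableAt.hasFDerivAt.comp_hasDerivAt_of_eq
    (0 : ℂ) (h2 0) (by simp)).deriv
  exact h4 ▸ h3

/-- if all determinants vanish, the values are fixed by a singular matrix -/
theorem sing {T : Type} (v : T → Cm ρ)
    (h : ∀ u : Fin ρ → T, (Matrix.of fun α β => v (u β) α).det = 0) :
    ∃ g : Mt ρ, g.det = 0 ∧ ∀ t, v t = g *ᵥ v t := by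
  have h1 : Submodule.span ℂ (range v) < ⊤ := lt_top_iff_ne_top.2 fun c => by
    obtain ⟨κ, s, -, s2, s3⟩ := exists_linearIndependent' ℂ v
    let e := (Pi.basisFun ℂ (Fin ρ)).indexEquiv (Module.Basis.mk s3 (s2.trans c).ge)
    exact ((Matrix.isUnit_iff_isUnit_det _).1 (Matrix.linearIndependent_cols_iff_isUnit.1
      (s3.comp e e.injective))).ne_zero (h fun β => s (e β))
  obtain ⟨f, f1, f2⟩ := Submodule.exists_le_ker_of_lt_top _ h1
  obtain ⟨x, hx⟩ := DFunLike.ne_iff.1 f1
  refine ⟨LinearMap.toMatrix' (LinearMap.id - (f x)⁻¹ • f.smulRight x),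
    Matrix.exists_mulVec_eq_zero_iff.1 ⟨x, fun c => hx (by simp [c]), ?_⟩, fun t => ?_⟩
  · rw [LinearMap.toMatrix'_mulVec]
    simp [smul_smul, inv_mul_cancel₀ (show f x ≠ 0 from hx)]
  · rw [LinearMap.toMatrix'_mulVec]
    simp [show f (v t) = 0 from f2 (Submodule.subset_span (mem_range_self t))]

/-- a nearly maximal determinant -/
theorem big {T : Type} (v : T → Cm ρ) {K : ℝ}
    (hK : ∀ u : Fin ρ → T, ‖(Matrix.of fun α β => v (u β) α).det‖ ≤ K)
    (h : ∃ u : Fin ρ → T, (Matrix.of fun α β => v (u β) α).det ≠ 0) :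
    ∃ g : Mt ρ, g.det ≠ 0 ∧ ‖g.det‖ ≤ K ∧ ∀ t, ‖g⁻¹ *ᵥ v t‖ ≤ 2 := by
  obtain ⟨u₀, h0⟩ := h
  have : Nonempty (Fin ρ → T) := ⟨u₀⟩
  have hb : BddAbove (range fun u : Fin ρ → T => ‖(Matrix.of fun α β => v (u β) α).det‖) :=
    ⟨K, forall_mem_range.2 hK⟩
  have h1 := (norm_pos_iff.2 h0).trans_le (le_ciSup hb u₀)
  obtain ⟨u, hu⟩ := exists_lt_of_lt_ciSup (half_lt_self h1)
  have h2 := (half_pos h1).trans hu
  refine ⟨_, norm_pos_iff.1 h2, hK u, fun t => (pi_norm_le_iff_of_nonneg zero_le_two).2 fun i => ?_⟩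
  have h3 := congrFun (Matrix.det_smul_inv_mulVec_eq_cramer _ (v t) (norm_pos_iff.1 h2).isUnit) i
  have h4 := le_ciSup hb (Function.update u i t)
  rw [show (Matrix.of fun α β => v (Function.update u i t β) α) =
      (Matrix.of fun α β => v (u β) α).updateCol i (v t) from Matrix.ext fun α β => by
    rcases eq_or_ne β i with rfl | c
    · simp
    · simp [Matrix.updateCol_ne c, Function.update_of_ne c],
    ← Matrix.cramer_apply, ← h3, Pi.smul_apply, norm_smul] at h4
  exact le_of_mul_le_mul_left (by linarith) h2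

end BkH

open BkH

/-- **BLKA**: semi-invariants are bounded by the determinants -/
theorem blka : BLKA := by
  intro ρ a m n c d Φ r r' hΦ hc h0 hr
  have h1 : Continuous fun (w : Fin n → Fin (a + 1) → Cm ρ) => Φ fun k => (w k 0, pl (w k)) := by
    refine (continuous_iff_continuousAt.2 fun j => (hΦ.an j).continuousAt).comp
      (continuous_pi fun k => Continuous.prodMk (by fun_prop) (continuous_pi fun J => ?_))
    exact Continuous.matrix_det (continuous_pi fun _ => continuous_pi fun _ => by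
      simp only [Matrix.of_apply]
      fun_prop)
  obtain ⟨A, hA⟩ := (isCompact_closedBall 0 (max 2 (2 / (r - r')))).exists_bound_of_continuousOn
    h1.continuousOn
  have hA0 : 0 ≤ A := (norm_nonneg _).trans (hA 0 (mem_closedBall_self (by positivity)))
  refine ⟨A, hA0, fun v K hK hv hb u hu => ?_⟩
  have hu' := fun k => ball_subset_ball hr.le (hu k)
  by_cases hz : ∀ s : Fin ρ → ball (0 : Cm a) r, (Matrix.of fun α β => v (s β) α).det = 0
  · obtain ⟨g, g1, g2⟩ := sing (fun t : ball (0 : Cm a) r => v t) hz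
    rw [show (fun k => jet v (u k)) = fun k => act g (jet v (u k)) from funext fun k =>
      jet_act (hv _ (hu' k)).differentiableAt (mem_of_superset (isOpen_ball.mem_nhds (hu' k))
        fun t ht => g2 ⟨t, ht⟩), hΦ.act, g1, zero_pow hc.ne', zero_mul, norm_zero]
    positivity
  · obtain ⟨g, g1, g2, g3⟩ := big (fun t : ball (0 : Cm a) r => v t)
      (fun s => hb _ fun β => (s β).2) (not_forall.1 hz)
    have g4 : ∀ t ∈ ball (0 : Cm a) r, AnalyticAt ℂ (fun t => g⁻¹ *ᵥ v t) t := fun t ht =>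
      ((LinearMap.toContinuousLinearMap g⁻¹.mulVecLin).analyticAt _).comp (hv t ht)
    rw [show (fun k => jet v (u k)) = fun k => act g (jet (fun t => g⁻¹ *ᵥ v t) (u k)) from
      funext fun k => jet_act (g4 _ (hu' k)).differentiableAt (.of_forall fun t => by
        simp only [Matrix.mulVec_mulVec, Matrix.mul_nonsing_inv _ g1.isUnit, Matrix.one_mulVec]),
      hΦ.act, norm_mul, norm_pow, mul_comm]
    refine mul_le_mul (hA (fun k => Fin.cons (g⁻¹ *ᵥ v (u k))
      fun l => fderiv ℂ (fun t => g⁻¹ *ᵥ v t) (u k) (Pi.single l 1)) ?_)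
      (pow_le_pow_left₀ (norm_nonneg _) g2 c) (by positivity) hA0
    refine mem_closedBall_zero_iff.2 ((pi_norm_le_iff_of_nonneg (by positivity)).2 fun k =>
      (pi_norm_le_iff_of_nonneg (by positivity)).2 fun l => ?_)
    refine Fin.cases ((g3 ⟨_, hu' k⟩).trans (le_max_left _ _)) (fun l => ?_) l
    exact (cauchy hr g4 (fun t ht => g3 ⟨t, ht⟩) (hu k) l).trans (le_max_right _ _)

end Vale.Agent.P281Z.Ga
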