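import Vale.Agent.P281Z.Ga.Sk
import Vale.Agent.P281Z.U1.Dett

/-!
# P281Z, block III, part A: vertical derivatives
-/

open scoped Manifold ContDiff Topology Matrix
open Set Filter
open Vale.Agent.P272.K Vale.Agent.P285.H281.FD
open Vale.Agent.P277Z (Hol jd)
open Vale.Agent.P277Z.Slc (dd isLB_can)

noncomputable section

namespace Vale.Agent.P281Z.Ga

open Gt U1.Dt

theorem jdw_law : JDW := by
  intro p a M w x e e₁ e' e₁' hf hw he he₁ he' he₁'
  have k : ∀ {c : Chart p M.Y.X}, At c (M.f x) →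
      jdw w e₁ c x = detR finSumFinEquiv (dfM M.f e₁ c x) (U1.Dt.gm w e₁ x) := fun hc => by
    rw [jdw, jd_app (fun i => hf.hol (hol_chart hc i)) hw he₁, gm_chart (hf.at x) he₁ hc]
  have h1 : (jacM e' e₁' (M.f x)).det ≠ 0 := isLB_can.ne_zero _ _ _ he' he₁'
  refine ⟨div_ne_zero (isLB_can.ne_zero _ _ _ he he₁) h1, ?_⟩
  have h2 : jdw w e e' x = jdw w e₁ e' x * (jacM e e₁ x).det :=
    jd_chg (Fin.addCases (by simpa using fun i => hf.hol (hol_chart he' i)) (by simpa using hw))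
      he he₁
  rw [h2, k he₁', dfM_chg' (hf.at x) he₁ he' he₁', detR_left, ← k he', rj, ← mul_assoc,
    div_mul_cancel₀ _ h1, mul_comm]

namespace Dr

variable {ρ a : ℕ}

theorem act_pl (g : Mt ρ) (v : Fin (a + 1) → Cm ρ) (J : Fin (a + 1) → Fin ρ) :
    ∑ J' : Fin (a + 1) → Fin ρ, (∏ k, g (J k) (J' k)) * pl v J' = pl (fun l => g *ᵥ v l) J := by
  have h := (Matrix.detRowAlternating (n := Fin (a + 1)) (R := ℂ)).toMultilinearMap.map_sum
    fun k β => g (J k) β • fun l => v l β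
  simp only [MultilinearMap.map_smul_univ, smul_eq_mul] at h
  refine h.symm.trans (congrArg Matrix.det (funext fun k => funext fun l => ?_))
  simp [Matrix.mulVec, dotProduct]

theorem det_red (A : Matrix (Fin (a + 1)) (Fin (a + 1)) ℂ) (h : A 0 0 ≠ 0) :
    A.det / A 0 0 ^ (a + 1) = (Matrix.of fun k l : Fin a =>
      (A 0 0 ^ 2)⁻¹ * (A 0 0 * A k.succ l.succ - A k.succ 0 * A 0 l.succ)).det := by
  rw [Matrix.det_eq_of_forall_row_eq_smul_add_const (A := A)
    (B := Matrix.of (Fin.cons (A 0) fun k l => A k.succ l - A k.succ 0 / A 0 0 * A 0 l))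
    (Fin.cons 0 fun k => A k.succ 0 / A 0 0) 0 rfl (Fin.cases (by simp) (by simp)),
    Matrix.det_succ_column_zero, Fin.sum_univ_succ, Finset.sum_eq_zero fun k _ => by
      simp [div_mul_cancel₀ _ h], div_eq_iff (pow_ne_zero _ h), pow_succ _ a, ← mul_assoc]
  simp only [Fin.val_zero, pow_zero, one_mul, add_zero, Fin.succAbove_zero, Matrix.of_apply,
    Fin.cons_zero]
  rw [mul_comm (Matrix.det _) (_ ^ a), mul_comm, show A 0 0 ^ a = A 0 0 ^ Fintype.card (Fin a) by
    rw [Fintype.card_fin], ← Matrix.det_smul]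
  refine congrArg (Matrix.det · * _) (Matrix.ext fun k l => ?_)
  simp only [Matrix.submatrix_apply, Matrix.of_apply, Fin.cons_succ, Matrix.smul_apply,
    smul_eq_mul]
  field_simp

variable {n : ℕ} {X : Type} [TopologicalSpace X] [ChartedSpace (Cm n) X] {x : X} {e : Chart n X}

theorem has {u : X → ℂ} (h : Hol n u x) (he : At e x) :
    HasFDerivAt (fun z => u (e.symm z)) (dd u e x) (e x) := (h e he).differentiableAt.hasFDerivAt

end Dr

open Dr in
theorem der : DER := by
  intro p a m ρ M R hM i e x hi hQ he hx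
  have hf := hM.ok.fibn.hol
  have he' := R.atc i _ hi
  obtain ⟨ξ, c, c0, li, hk, hj, hp⟩ := R.der i e x hi hQ he hx
  have k1 : ∀ v, df M.f e (R.ch i) x v = 0 ↔ ∃ b : Fin a → ℂ, ∑ l, b l • ξ l = v := fun v =>
    (hk v).trans (Submodule.mem_span_range_iff_exists_fun ℂ)
  have k2 : ∀ {z : M.Y.X → ℂ}, Hol p z (M.f x) → ∀ l, dd (fun y => z (M.f y)) e x (ξ l) = 0 :=
    fun hz l => by rw [dd_comp hz (hf.at x) he he', ContinuousLinearMap.comp_apply,
      (hk _).2 (Submodule.subset_span ⟨l, rfl⟩), map_zero]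
  refine ⟨fun v κ h1 h2 h3 => ?_, fun J₀ h h1 h2 => ?_, fun w hw => ?_,
    fun v z w w' F h1 h2 h3 h4 => ?_⟩
  · obtain ⟨b, rfl⟩ := (k1 v).1 h2
    by_contra h4
    refine h1 (hp.trans (smul_eq_zero_of_right c (funext fun J =>
      Matrix.exists_mulVec_eq_zero_iff.1 ⟨Fin.cons (-κ) b, fun h5 => h4 ?_, funext fun k => ?_⟩)))
    · exact Finset.sum_eq_zero fun l _ => smul_eq_zero_of_left (congrFun h5 l.succ) _
    · have := congrFun h3 (J k)
      simp only [JS.Dj, map_sum, map_smul, Prod.fst_sum, Finset.sum_apply, Prod.smul_fst,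
        Pi.smul_apply, smul_eq_mul] at this
      simp only [Matrix.mulVec, dotProduct, Fin.sum_univ_succ, Matrix.of_apply, Fin.cons_zero,
        Fin.cons_succ, Pi.zero_apply, mul_comm _ (b _), this]
      ring
  · have a1 := R.hol i e x hi he hx
    have a2 : ∀ β, Hol (p + a) (fun y => (R.j i e y).1 β) x := (a1.cmp analyticAt_fst).hol
    have a3 : ∀ α, Hol (p + a) (fun y => (act (h (M.f y)) (R.j i e y)).1 α) x := fun α =>
      Hol.sum Finset.univ fun β _ => (hf.hol (h1 α β)).mul (a2 β)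
    have a4 : ∀ α l, dd (fun y => (act (h (M.f y)) (R.j i e y)).1 α) e x (ξ l) =
        (h (M.f x) *ᵥ (R.Dj i e x (ξ l)).1) α := fun α l => by
      have b1 := HasFDerivAt.fun_sum (u := Finset.univ) fun β _ =>
        (has (hf.hol (h1 α β)) he).fun_mul
          (hasFDerivAt_pi'.1 (a1 e he).differentiableAt.hasFDerivAt.fst β)
      rw [(has (a3 α) he).unique b1]
      simp [k2 (h1 α _), he.left_inv, Matrix.mulVec, dotProduct, JS.Dj]
    rw [hj (fun l x' => wc J₀ (act (h (M.f x')) (R.j i e x')) l) fun l => (a3 _).div (a3 _) h2,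
      kap, act, hp]
    simp only [Pi.smul_apply, smul_eq_mul, mul_left_comm _ c, ← Finset.mul_sum, act_pl, mul_div_assoc]
    refine congrArg (c * ·) (Eq.trans (congrArg Matrix.det (Matrix.ext fun k l => ?_))
      (det_red _ h2).symm)
    exact (dd_div (a3 _) (a3 _) h2 he _).trans (by rw [a4, a4]; rfl)
  · have a1 : ∀ b k, ((Matrix.of fun k l => dd (w k) e x (ξ l)) *ᵥ b) k =
        dd (w k) e x (∑ l, b l • ξ l) := fun b k => by
      simp [Matrix.mulVec, dotProduct, mul_comm]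
    rw [hj w hw, mul_ne_zero_iff_left c0, Ne, ← Matrix.exists_mulVec_eq_zero_iff]
    refine ⟨fun h v h1 h2 => ?_, fun h ⟨b, h1, h2⟩ => h1 (funext
      (Fintype.linearIndependent_iff.1 li b (h _ ((k1 _).2 ⟨b, rfl⟩) fun k =>
        (a1 b k).symm.trans (congrFun h2 k))))⟩
    obtain ⟨b, rfl⟩ := (k1 v).1 h1
    rw [show b = 0 from by_contra fun k => h ⟨b, k, funext fun k => (a1 b k).trans (h2 k)⟩]
    simp
  · have a1 : AnV (p + a) (fun y => (fun k => z k (M.f y), fun k => w k y)) x :=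
      (AnV.pi fun k => hf.hol (h1 k)).prod (AnV.pi h2)
    have a2 : ∀ k, Hol (p + a) (w' k) x := fun k =>
      ((a1.cmp h3).hol k).congr (h4.mono fun _ h => (h k).symm)
    have a3 := h3.differentiableAt.hasFDerivAt
    have a4 := HasFDerivAt.comp (g := F) (e x) (by rw [he.left_inv]; exact a3)
      ((hasFDerivAt_pi.2 fun k => has (hf.hol (h1 k)) he).prodMk
        (hasFDerivAt_pi.2 fun k => has (h2 k) he))
    rw [hj w' a2, hj w h2, mul_left_comm, ← LinearMap.det_toMatrix', ← Matrix.det_mul,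
      show fderiv ℂ (fun o => F (_, o)) _ = _ from
        (a3.comp (f := fun o => (_, o)) _ (hasFDerivAt_prodMk_right _ _)).fderiv]
    refine congrArg (c * Matrix.det ·) (Matrix.ext fun k l => ?_)
    rw [Matrix.of_apply, (has (a2 k) he).unique ((hasFDerivAt_pi'.1 a4 k).congr_of_eventuallyEq
      ((at_ev he h4).mono fun _ h => h k))]
    refine Eq.trans ?_ (congrFun (LinearMap.toMatrix'_mulVec _ fun j => dd (w j) e x (ξ l)) k).symm
    simp [fun j => k2 (h1 j) l, Pi.zero_def]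

end Vale.Agent.P281Z.Ga
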