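import Vale.Agent.P281Z.Ga.Sk
import Vale.Agent.P281Z.Gl.Thn

/-!
# P281Z, block III, part A: immersions along the fibres, on a model
-/

open scoped Manifold ContDiff Topology
open Set Filter Function
open Vale.Agent.P272.K
open Vale.Agent.P277Z (Hol at_chart)
open Vale.Agent.P277Z.Slc (Ind dd)

noncomputable section

namespace Vale.Agent.P281Z.Ga

open Gt

namespace EtiAux

section gen

variable {n p : ℕ} {X Y : Type} [TopologicalSpace X] [ChartedSpace (Cm n) X]
  [TopologicalSpace Y] [ChartedSpace (Cm p) Y] [IsManifold 𝓘(ℂ, Cm n) ω X]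
  [IsManifold 𝓘(ℂ, Cm p) ω Y] {E : Type} [NormedAddCommGroup E] [NormedSpace ℂ E] {f : X → Y}
  {x : X} {e : Chart n X} {e' : Chart p Y}

/-- the chain rule for vector valued functions -/
theorem chain {F : Y → E} (hF : AnV p F (f x)) (hf : HolA n p f x) (he : At e x)
    (he' : At e' (f x)) : AnalyticAt ℂ (fun z => F (f (e.symm z))) (e x) ∧
    fderiv ℂ (fun z => F (f (e.symm z))) (e x) =
      (fderiv ℂ (fun z => F (e'.symm z)) (e' (f x))).comp (df f e e' x) := by
  have h0 : (fun z => F (e'.symm (e' (f (e.symm z))))) =ᶠ[𝓝 (e x)] fun z => F (f (e.symm z)) := by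
    filter_upwards [at_map hf.cont he he'] with z hz
    rw [hz.left_inv]
  have h1 : AnalyticAt ℂ (fun z => F (e'.symm z)) (e' (f (e.symm (e x)))) := by
    rw [he.left_inv]
    exact hF e' he'
  refine ⟨(h1.fun_comp (f := fun z => e' (f (e.symm z))) (hf.an he he')).congr h0, ?_⟩
  unfold df
  rw [← h0.fderiv_eq, fderiv_fun_comp (e x) h1.differentiableAt (hf.an he he').differentiableAt,
    he.left_inv]

omit [IsManifold 𝓘(ℂ, Cm n) ω X] in
/-- coordinates have an injective differential -/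
theorem co_inj {Θ : OpenPartialHomeomorph X E} (h : Co n Θ) (hx : x ∈ Θ.source) (he : At e x) :
    Injective (fderiv ℂ (fun z => Θ (e.symm z)) (e x)) := by
  have h1 : AnalyticAt ℂ (fun u => e (Θ.symm u)) (Θ (e.symm (e x))) := by
    rw [he.left_inv]
    exact h.inv _ (Θ.map_source hx) e ((Θ.left_inv hx).symm ▸ he)
  have h2 := fderiv_fun_comp (e x) h1.differentiableAt (h.an x hx e he).differentiableAt
  have h3 : (fun z => e (Θ.symm (Θ (e.symm z)))) =ᶠ[𝓝 (e x)] id := by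
    filter_upwards [at_ev he (Θ.open_source.mem_nhds hx), P277Z.At.right he] with z k1 k2
    rw [Θ.left_inv k1]
    exact k2
  rw [h3.fderiv_eq, fderiv_id] at h2
  exact fun u w k => (DFunLike.congr_fun h2 u).trans
    ((congrArg (fderiv ℂ (fun u => e (Θ.symm u)) (Θ (e.symm (e x)))) k).trans
      (DFunLike.congr_fun h2 w).symm)

/-- independence of as many functionals as the dimension -/
theorem ind_iff {α : Type} [Fintype α] (hc : Fintype.card α = n) (L : α → Cm n →L[ℂ] ℂ) :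
    LinearIndependent ℂ L ↔ ∀ ζ, (∀ b, L b ζ = 0) → ζ = 0 := by
  rw [P277Z.Slc.ind_iff_surj]
  refine Iff.trans (LinearMap.injective_iff_surjective_of_finrank_eq_finrank
    (f := (ContinuousLinearMap.pi L : Cm n →ₗ[ℂ] α → ℂ)) (by simp [hc])).symm ?_
  rw [injective_iff_map_eq_zero]
  exact forall_congr' fun ζ => imp_congr_left funext_iff

end gen

section tan

variable {p a n : ℕ} {M : Fb (p + a) p} {Q : Set M.Y.X} (W : Pw M n (p + n * a) Q)

/-- coordinates on the fibre power -/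
def co (e' : Chart p M.Y.X) (w : Fin n → M.X.X → Cm a) (q : Pt M n) : Cm (p + n * a) :=
  Fin.append (e' q.1) fun c =>
    w (finProdFinEquiv.symm c).1 (q.2 (finProdFinEquiv.symm c).1) (finProdFinEquiv.symm c).2

theorem co_l (e' : Chart p M.Y.X) (w : Fin n → M.X.X → Cm a) (q : Pt M n) (c : Fin p) :
    co e' w q (Fin.castAdd _ c) = e' q.1 c := Fin.append_left _ _ c

theorem co_r (e' : Chart p M.Y.X) (w : Fin n → M.X.X → Cm a) (q : Pt M n) (k : Fin n) (l : Fin a) :
    co e' w q (Fin.natAdd p (finProdFinEquiv (k, l))) = w k (q.2 k) l := by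
  simp only [co, Fin.append_right, Equiv.symm_apply_apply]

theorem fin_ext {β : Type} {u w : Fin (p + n * a) → β}
    (h1 : ∀ c, u (Fin.castAdd _ c) = w (Fin.castAdd _ c))
    (h2 : ∀ k l, u (Fin.natAdd p (finProdFinEquiv (k, l))) =
      w (Fin.natAdd p (finProdFinEquiv (k, l)))) : u = w :=
  funext fun i => i.addCases h1 fun c => by
    obtain ⟨⟨k, l⟩, rfl⟩ := finProdFinEquiv.surjective c
    exact h2 k l

/-- the tangent space of the model -/
theorem tan (hf : HolM (p + a) p M.f) {v : W.V.X} (h : (W.γ v).1 ∉ Q)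
    (hs : ∀ x, M.f x = (W.γ v).1 → Sbm (p + a) p M.f x) {c : Chart (p + n * a) W.V.X}
    {e' : Chart p M.Y.X} {e : Fin n → Chart (p + a) M.X.X} (hc : At c v) (he' : At e' (W.γ v).1)
    (he : ∀ k, At (e k) ((W.γ v).2 k)) :
    (∀ ζ, df (fun s => (W.γ s).1) c e' v ζ = 0 →
      (∀ k, df (fun s => (W.γ s).2 k) c (e k) v ζ = 0) → ζ = 0) ∧
    (∀ ζ k, df M.f (e k) e' ((W.γ v).2 k) (df (fun s => (W.γ s).2 k) c (e k) v ζ) =
      df (fun s => (W.γ s).1) c e' v ζ) ∧
    ∀ ξ : Fin n → Cm (p + a), (∀ k, df M.f (e k) e' ((W.γ v).2 k) (ξ k) = 0) →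
      ∃ ζ, df (fun s => (W.γ s).1) c e' v ζ = 0 ∧
        ∀ k, df (fun s => (W.γ s).2 k) c (e k) v ζ = ξ k := by
  have fp := Thn.fp W v
  have hk : ∀ k, At e' (M.f ((W.γ v).2 k)) := fun k => (fp k).symm ▸ he'
  choose Θ a1 a2 a3 a4 using fun k => exists_co ((sbm_iff_ind (hf.at _) (hk k)).1 (hs _ (fp k)))
    (d := a) (by simp) (hf.cont.continuousAt.eventually (at_near (hk k)))
  let w : Fin n → M.X.X → Cm a := fun k x => (Θ k x).2
  have hw : ∀ k l, Hol (p + a) (fun x => w k x l) ((W.γ v).2 k) := fun k l =>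
    (((a1 k).an _ (a2 k)).cmp (G := Prod.snd) analyticAt_snd).hol l
  let A : Cm (p + n * a) → Cm p := fun t c => t (Fin.castAdd _ c)
  let B : Fin n → Cm (p + n * a) → Cm p × Cm a := fun k t =>
    (A t, fun l => t (Fin.natAdd p (finProdFinEquiv (k, l))))
  have hA : A (co e' w (W.γ v)) = e' (W.γ v).1 := funext fun c => co_l _ _ _ c
  have hB : ∀ k, B k (co e' w (W.γ v)) = Θ k ((W.γ v).2 k) := fun k =>
    Prod.ext (hA.trans ((a4 k _ (a2 k)).trans (congrArg e' (fp k))).symm) (funext (co_r e' w _ k))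
  have b0 : AnV (p + n * a) A (co e' w (W.γ v)) := AnV.pi fun c => Thn.hol_crd _ _
  have b1 : ∀ k, AnV (p + n * a) (B k) (co e' w (W.γ v)) := fun k =>
    b0.prod (AnV.pi fun l => Thn.hol_crd _ _)
  have b2 : ∀ k, B k (co e' w (W.γ v)) ∈ (Θ k).target := fun k => hB k ▸ (Θ k).map_source (a2 k)
  have b3 : A (co e' w (W.γ v)) ∈ e'.target := hA ▸ he'.mem_target
  have b4 : ∀ᶠ t in 𝓝 (co e' w (W.γ v)), ∀ k, B k t ∈ (Θ k).target :=
    eventually_all.2 fun k => (b1 k).cont.eventually ((Θ k).open_target.mem_nhds (b2 k))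
  obtain ⟨l, c1, c2, c3⟩ := Thn.lift W (g := fun t => (e'.symm (A t), fun k => (Θ k).symm (B k t)))
    (t := co e' w (W.γ v)) ⟨holA_symm b0.hol he'.1 b3, fun k => (a1 k).holA (b1 k) (b2 k), by
      filter_upwards [b4] with t k1 k
      have k2 := (Θ k).map_target (k1 k)
      exact (At.left_inv (a3 k k2)).symm.trans (congrArg e'.symm ((a4 k _ k2).symm.trans
        (congrArg Prod.fst ((Θ k).right_inv (k1 k)))))⟩ h
    (Prod.ext (by simp only [hA, he'.left_inv])
      (funext fun k => by simp only [hB, (Θ k).left_inv (a2 k)]))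
  have d1 : HolA _ (p + n * a) (fun s => co e' w (W.γ s)) v := Thn.holA_cm fun i => by
    refine i.addCases (fun c => ?_) fun c => ?_
    · simpa only [co_l] using (W.tm v).b.hol (hol_chart he' c)
    · simpa only [co, Fin.append_right] using ((W.tm v).x _).hol (hw _ _)
  have d2 := Sbm.of_comp (g := fun s => co e' w (W.γ s)) (c1.symm ▸ d1) c2 ((sbm_id _).cng (by
    filter_upwards [c3, b4, b0.cont.eventually (e'.open_target.mem_nhds b3)] with t k1 k2 k3
    rw [k1]
    refine fin_ext (fun c => ?_) fun k l => ?_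
    · rw [co_l, e'.right_inv k3]
    · rw [co_r]
      exact (congrFun (congrArg Prod.snd ((Θ k).right_inv (k2 k))) l).symm))
  rw [c1] at d2
  have e1 : ∀ ζ j, df (fun s => co e' w (W.γ s)) c (chartAt _ (co e' w (W.γ v))) v ζ
      (Fin.castAdd _ j) = df (fun s => (W.γ s).1) c e' v ζ j := fun ζ j => by
    rw [df_apply d1 hc (at_chart _), df_apply (W.tm v).b hc he']
    exact congrArg (fun F => dd F c v ζ) (funext fun s => co_l e' w _ j)
  have e2 : ∀ ζ k l, df (fun s => co e' w (W.γ s)) c (chartAt _ (co e' w (W.γ v))) v ζ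
      (Fin.natAdd p (finProdFinEquiv (k, l))) = dd (fun x => w k x l) (e k) ((W.γ v).2 k)
        (df (fun s => (W.γ s).2 k) c (e k) v ζ) := fun ζ k l => by
    rw [df_apply d1 hc (at_chart _)]
    exact (congrArg (fun F => dd F c v ζ) (funext fun s => co_r e' w (W.γ s) k l)).trans
      (DFunLike.congr_fun (dd_comp (f := fun s => (W.γ s).2 k) (hw k l) ((W.tm v).x k) hc (he k)) ζ)
  have e3 : ∀ ζ k, df M.f (e k) e' ((W.γ v).2 k) (df (fun s => (W.γ s).2 k) c (e k) v ζ) =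
      df (fun s => (W.γ s).1) c e' v ζ := fun ζ k => DFunLike.congr_fun
    ((df_comp (f := fun s => (W.γ s).2 k) (hf.at _) ((W.tm v).x k) hc (he k) (hk k)).symm.trans
      (df_congr ((W.tm v).fp.mono fun s hs => hs k) hc)) ζ
  have e4 : ∀ k ξ, fderiv ℂ (fun z => Θ k ((e k).symm z)) (e k ((W.γ v).2 k)) ξ =
      (df M.f (e k) e' ((W.γ v).2 k) ξ,
        fun l => dd (fun x => w k x l) (e k) ((W.γ v).2 k) ξ) := fun k ξ => by
    have k1 := ((hf.at _).an (he k) (hk k)).differentiableAt.hasFDerivAt.prodMk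
      (hasFDerivAt_pi.2 fun l => (hw k l _ (he k)).differentiableAt.hasFDerivAt)
    have k2 : (fun z => Θ k ((e k).symm z)) =ᶠ[𝓝 (e k ((W.γ v).2 k))]
        fun z => (e' (M.f ((e k).symm z)), fun l => w k ((e k).symm z) l) :=
      (at_ev (he k) ((Θ k).open_source.mem_nhds (a2 k))).mono fun z hz => Prod.ext (a4 k _ hz) rfl
    exact DFunLike.congr_fun (k2.fderiv_eq.trans k1.fderiv) ξ
  refine ⟨fun ζ k1 k2 => imm_iff_sbm.2 d2 c _ hc (at_chart _) ?_, e3, fun ξ hξ => ?_⟩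
  · rw [map_zero]
    refine fin_ext (fun j => ?_) fun k l => ?_
    · rw [e1, k1]
      rfl
    · rw [e2, k2, map_zero]
      rfl
  · obtain ⟨ζ, hζ⟩ := d2 c _ hc (at_chart _) (Fin.append 0 fun c =>
      dd (fun x => w (finProdFinEquiv.symm c).1 x (finProdFinEquiv.symm c).2)
        (e (finProdFinEquiv.symm c).1) ((W.γ v).2 (finProdFinEquiv.symm c).1)
        (ξ (finProdFinEquiv.symm c).1))
    have k1 : df (fun s => (W.γ s).1) c e' v ζ = 0 := funext fun j => by
      rw [← e1, hζ, Fin.append_left]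
    refine ⟨ζ, k1, fun k => co_inj (a1 k) (a2 k) (he k) ?_⟩
    rw [e4, e4, e3, k1, hξ]
    refine Prod.ext rfl (funext fun l => ?_)
    have k2 := e2 ζ k l
    rw [hζ, Fin.append_right, Equiv.symm_apply_apply] at k2
    exact k2.symm

end tan

section alg

variable {ρ a n m : ℕ} {O : Set (Fin n → Jt ρ a)} {U : (Fin n → Jt ρ a) → ℂ}

theorem op_open (hO : Op m O) : IsOpen O := by
  obtain ⟨c, d, D, h1, h2⟩ := hO
  rw [show O = {j | D j ≠ 0} from Set.ext h2]
  exact isOpen_ne_fun (continuous_iff_continuousAt.2 fun j => (h1.an j).continuousAt)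
    continuous_const

theorem iv_an (hO : Op m O) (hU : IV m O U) {j : Fin n → Jt ρ a} (hj : j ∈ O) :
    AnalyticAt ℂ U j := by
  obtain ⟨c, d, N, E, h1, h2, h3⟩ := hU
  refine ((h1.an j).fun_div (h2.an j) (h3 j hj).1).congr ?_
  filter_upwards [(op_open hO).mem_nhds hj] with j' k using (h3 j' k).2.symm

theorem iv_inv (hO : Op m O) (hU : IV m O U) {j : Fin n → Jt ρ a} {l : Fin n → ℂ} {T : Mt ρ}
    (hj : (fun k => sc m (l k) (act T (j k))) ∈ O) :
    U j = U fun k => sc m (l k) (act T (j k)) := by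
  obtain ⟨c', d', D, k1, k2⟩ := hO
  obtain ⟨c, d, N, E, h1, h2, h3⟩ := hU
  have k3 := (k2 _).1 hj
  rw [k1.sc l fun k => act T (j k), k1.act] at k3
  obtain ⟨k4, k5⟩ := h3 _ hj
  rw [h2.sc l fun k => act T (j k), h2.act] at k4
  rw [k5, (h3 j ((k2 j).2 (right_ne_zero_of_mul (right_ne_zero_of_mul k3)))).2,
    h1.sc l fun k => act T (j k), h1.act, h2.sc l fun k => act T (j k), h2.act,
    mul_div_mul_left _ _ (left_ne_zero_of_mul k4),
    mul_div_mul_left _ _ (left_ne_zero_of_mul (right_ne_zero_of_mul k4))]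

end alg

end EtiAux

open EtiAux in
/-- **ETI** -/
theorem eti : ETI := fun p a m ρ M R hM n ι _ O U W v hι hO hU hv hvO => by
  have hf := hM.ok.fibn.hol
  have fp := Thn.fp W v
  have hi := R.fr_mem (W.γ v).1
  have he' := R.atc _ _ hi
  have hc := at_chart (n := p + n * a) v
  have he : ∀ k, At (cx ((W.γ v).2 k)) ((W.γ v).2 k) := fun k => at_chart _
  obtain ⟨t1, t2, t3⟩ := tan W hf hv.2.1 (fun x => (R.reg _ hv.2.1).sbm hf hM.ok.snc) hc he' he
  let jj : W.V.X → Fin n → Jt ρ a := fun s k =>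
    R.j (R.fr (W.γ v).1) (cx ((W.γ v).2 k)) ((W.γ s).2 k)
  have h0 : ∀ k, AnV (p + a) (R.j (R.fr (W.γ v).1) (cx ((W.γ v).2 k))) ((W.γ v).2 k) := fun k =>
    R.hol _ _ _ ((fp k).symm ▸ hi) (he k) (hv.2.2 k)
  have h1 : AnV (p + n * a) jj v := fun c hc =>
    AnalyticAt.pi fun k => (chain (f := fun s => (W.γ s).2 k) (h0 k) ((W.tm v).x k) hc (he k)).1
  have h2 : ∀ b, ∀ᶠ s in 𝓝 v, U b (jj s) = U b (R.Jq (W.γ s)) := fun b => by
    filter_upwards [h1.cont.eventually ((op_open hO).mem_nhds hvO),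
      (W.tm v).b.cont.eventually ((R.opn _).mem_nhds hi),
      eventually_all.2 fun k => ((W.tm v).x k).cont.eventually (at_near (he k)),
      eventually_all.2 fun k => ((W.tm v).x k).cont.eventually
        ((snc_open_off hM.ok.snc).mem_nhds (hv.2.2 k))] with s k1 k2 k3 k4
    have k5 : jj s = fun k => sc m (rj (cx ((W.γ v).2 k)) (cx ((W.γ s).2 k)) (R.ch (R.fr (W.γ v).1))
        (R.ch (R.fr (W.γ s).1)) ((W.γ s).2 k))
        (act (R.T (R.fr (W.γ v).1) (R.fr (W.γ s).1) (W.γ s).1) (R.Jq (W.γ s) k)) := funext fun k => by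
      have k6 := Thn.fp W s k
      have k7 := R.law _ (R.fr (W.γ s).1) _ _ _ (k6.symm ▸ k2) (k6.symm ▸ R.fr_mem _) (k3 k)
        (at_chart _) (k4 k)
      rw [k6] at k7
      exact k7
    rw [k5] at k1 ⊢
    exact (iv_inv hO (hU b) k1).symm
  have h3 : ∀ b, Hol (p + n * a) (fun s => U b (jj s)) v := fun b =>
    h1.cmp (G := U b) (iv_an hO (hU b) hvO)
  have h4 : ∀ b ζ, dd (fun s => U b (R.Jq (W.γ s))) (chartAt _ v) v ζ =
      fderiv ℂ (U b) (R.Jq (W.γ v)) fun k => R.Dj (R.fr (W.γ v).1) (cx ((W.γ v).2 k)) ((W.γ v).2 k)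
        (df (fun s => (W.γ s).2 k) (chartAt _ v) (cx ((W.γ v).2 k)) v ζ) := fun b ζ => by
    rw [← P277Z.Slc.dd_congr (h2 b) hc]
    have k1 : DifferentiableAt ℂ (U b) (jj ((chartAt (Cm (p + n * a)) v).symm
        (chartAt (Cm (p + n * a)) v v))) := by
      rw [hc.left_inv]
      exact (iv_an hO (hU b) hvO).differentiableAt
    have k2 := fderiv_fun_comp (f := fun z => jj ((chartAt (Cm (p + n * a)) v).symm z)) _ k1
      (h1 _ hc).differentiableAt
    rw [hc.left_inv] at k2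
    refine (DFunLike.congr_fun k2 ζ).trans (congrArg (fderiv ℂ (U b) (R.Jq (W.γ v))) ?_)
    rw [fderiv_pi fun k => (chain (f := fun s => (W.γ s).2 k) (h0 k) ((W.tm v).x k) hc (he k)).1.differentiableAt]
    exact funext fun k => DFunLike.congr_fun (chain (f := fun s => (W.γ s).2 k) (h0 k) ((W.tm v).x k) hc (he k)).2 ζ
  have h5 : ∀ k ξ, R.Vt ((W.γ v).2 k) ξ ↔
      df M.f (cx ((W.γ v).2 k)) (R.ch (R.fr (W.γ v).1)) ((W.γ v).2 k) ξ = 0 := fun k ξ => by
    rw [JS.Vt, fp k]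
  have h6 : Fintype.card (Fin p ⊕ ι) = p + n * a := by simp [hι]
  refine ⟨fun h => Ind.of_chart (Sum.rec (fun c => (W.tm v).b.hol (hol_chart he' c))
    fun b => (h3 b).congr (h2 b)) hc ((ind_iff h6 _).2 fun ζ hζ => ?_), fun h ξ k1 k2 => ?_⟩
  · have k1 : df (fun s => (W.γ s).1) (chartAt _ v) (R.ch (R.fr (W.γ v).1)) v ζ = 0 :=
      funext fun c => (df_apply (W.tm v).b hc he' ζ c).trans (hζ (.inl c))
    exact t1 ζ k1 (congrFun (h _ (fun k => (h5 k _).2 ((t2 ζ k).trans k1))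
      fun b => (h4 b ζ).symm.trans (hζ (.inr b))))
  · obtain ⟨ζ, l1, l2⟩ := t3 ξ fun k => (h5 k _).1 (k1 k)
    have l3 : ζ = 0 := (ind_iff h6 _).1 (h.2 _ hc) ζ (Sum.rec
      (fun c => (df_apply (W.tm v).b hc he' ζ c).symm.trans (congrFun l1 c))
      fun b => (h4 b ζ).trans (by simpa only [l2] using k2 b))
    exact funext fun k => by rw [← l2 k, l3, map_zero]; rfl

end Vale.Agent.P281Z.Ga
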