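import Vale.Agent.P281Z.Ga.Sk

/-!
# P281Z, block III, part A: good points are dense in a fibre; the values span
-/

open scoped Manifold ContDiff Topology Matrix
open Set Filter Function
open Vale.Agent.P272.K
open Vale.Agent.P277Z (Hol Mer at_chart)

noncomputable section

namespace Vale.Agent.P281Z.Ga

open Gt

namespace FgenH

theorem dense_upd {ι X : Type} [Fintype ι] [DecidableEq ι] [TopologicalSpace X] {A : Set (ι → X)}
    (hne : A.Nonempty) (h : ∀ x ∈ A, ∀ k, Dense {z | update x k z ∈ A}) : Dense A := by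
  refine dense_iff_inter_open.2 fun U hU ⟨x₀, hx₀⟩ => ?_
  obtain ⟨u, h1, h2⟩ := isOpen_pi_iff'.1 hU x₀ hx₀
  have key : ∀ s : Finset ι, ∃ x ∈ A, ∀ k ∈ s, x k ∈ u k := by
    intro s
    induction s using Finset.induction_on with
    | empty => exact hne.imp fun x hx => ⟨hx, by simp⟩
    | insert k s hk ih =>
      obtain ⟨x, hx, h3⟩ := ih
      obtain ⟨z, hz1, hz2⟩ := (h x hx k).inter_open_nonempty _ (h1 k).1 ⟨_, (h1 k).2⟩
      refine ⟨update x k z, hz2, fun l hl => ?_⟩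
      by_cases c : l = k
      · rw [c, update_self]; exact hz1
      · rw [update_of_ne c]
        exact h3 l ((Finset.mem_insert.1 hl).resolve_left c)
  obtain ⟨x, hx, h3⟩ := key Finset.univ
  exact ⟨x, h2 fun k _ => h3 k (Finset.mem_univ k), hx⟩

theorem act_one {ρ a : ℕ} (j : Jt ρ a) : act 1 j = j := by
  refine Prod.ext (Matrix.one_mulVec _) (funext fun J => ?_)
  change ∑ J' : Fin (a + 1) → Fin ρ, (∏ k, (1 : Mt ρ) (J k) (J' k)) * j.2 J' = j.2 J
  rw [Finset.sum_eq_single J]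
  · simp
  · intro J' _ h
    obtain ⟨k, hk⟩ := Function.ne_iff.1 h
    rw [Finset.prod_eq_zero (f := fun k => (1 : Mt ρ) (J k) (J' k)) (Finset.mem_univ k)
      (Matrix.one_apply_ne hk.symm), zero_mul]
  · exact fun h => (h (Finset.mem_univ J)).elim

variable {p a m ρ n : ℕ} {M : Fb (p + a) p} {R : JS M m ρ} {i : R.ι} {y : M.Y.X}

theorem loc {e e₁ : Chart (p + a) M.X.X} {x : M.X.X} (hi : M.f x ∈ R.U i) (he : At e x)
    (he₁ : At e₁ x) (hx : x ∈ off M.G) : ∃ l : ℂ, l ≠ 0 ∧ R.j i e x = sc m l (R.j i e₁ x) := by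
  have h := R.law i i e e₁ x hi hi he he₁ hx
  rw [R.self i _ hi, act_one] at h
  exact ⟨_, div_ne_zero (jacM_det_ne_zero he he₁)
    (jacM_det_ne_zero (R.atc i _ hi) (R.atc i _ hi)), h⟩

theorem ne_iff {d : Fin n → ℕ} {Φ : (Fin n → Jt ρ a) → ℂ} (hΦ : SH m d Φ) {x : Fin n → M.X.X}
    {e : Fin n → Chart (p + a) M.X.X} (hi : ∀ k, M.f (x k) ∈ R.U i) (he : ∀ k, At (e k) (x k))
    (hx : ∀ k, x k ∈ off M.G) :
    Φ (R.Ji i (y, x)) = 0 ↔ Φ (fun k => R.j i (e k) (x k)) = 0 := by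
  choose l h1 h2 using fun k => loc (R := R) (hi k) (at_chart (x k)) (he k) (hx k)
  have h3 : R.Ji i (y, x) = fun k => sc m (l k) (R.j i (e k) (x k)) := funext h2
  rw [h3, hΦ.sc, mul_eq_zero]
  exact or_iff_right (Finset.prod_ne_zero_iff.2 fun k _ => pow_ne_zero _ (h1 k))

variable {F : Mf a} {u : F.X → M.X.X}

/-- the good points -/
def Gs (R : JS M m ρ) (i : R.ι) (y : M.Y.X) (u : F.X → M.X.X) (Φ : (Fin n → Jt ρ a) → ℂ) :
    Set (Fin n → F.X) :=
  {v | (∀ k, u (v k) ∈ off M.G) ∧ Φ (R.Ji i (y, fun k => u (v k))) ≠ 0}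

theorem gs_open (hM : Std M m) (hy : y ∈ R.U i) (hu : Emb a (p + a) u (M.f ⁻¹' {y}))
    {d : Fin n → ℕ} {Φ : (Fin n → Jt ρ a) → ℂ} (hΦ : SH m d Φ) : IsOpen (Gs R i y u Φ) := by
  refine isOpen_iff_mem_nhds.2 fun v hv => ?_
  have hi : ∀ z, M.f (u z) ∈ R.U i := fun z => (hu.fib z).symm ▸ hy
  have hc : ∀ k, ContinuousAt (fun w : Fin n → F.X => u (w k)) v := fun k =>
    (hu.hol.cont.comp (continuous_apply k)).continuousAt
  have h1 : ContinuousAt (fun w : Fin n → F.X => Φ fun k => R.j i (cx (u (v k))) (u (w k))) v :=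
    ContinuousAt.comp (g := Φ) (hΦ.an _).continuousAt (continuousAt_pi.2 fun k =>
      ContinuousAt.comp (g := R.j i (cx (u (v k))))
        (R.hol i _ _ (hi _) (at_chart _) (hv.1 k)).cont (hc k))
  filter_upwards [h1.eventually_ne hv.2,
    eventually_all.2 fun k => (hc k).eventually (at_near (at_chart (n := p + a) (u (v k)))),
    eventually_all.2 fun k => (hc k).eventually ((snc_open_off hM.ok.snc).mem_nhds (hv.1 k))]
    with w k1 k2 k3
  exact ⟨k3, mt (ne_iff hΦ (fun k => hi _) k2 k3).1 k1⟩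

theorem gs_upd (hZ : ZERO) (hT : TST) (hM : Std M m) (hy : y ∈ R.U i) (hQ : y ∉ R.Q)
    (hu : Emb a (p + a) u (M.f ⁻¹' {y})) {d : Fin n → ℕ} {Φ : (Fin n → Jt ρ a) → ℂ}
    (hΦ : SH m d Φ) {v : Fin n → F.X} (hv : v ∈ Gs R i y u Φ) (k : Fin n) :
    Dense {z | update v k z ∈ Gs R i y u Φ} := by
  have hi : ∀ z, M.f (u z) ∈ R.U i := fun z => (hu.fib z).symm ▸ hy
  have hS : Thin a (off fun l => u ⁻¹' M.G l)ᶜ :=
    snc_thin_off ((R.reg y hQ).snc hM.ok.fibn.hol hM.ok.snc hu)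
  set γ : F.X → Pt M n := fun z => (y, fun l => u (update v k z l)) with hγ
  have hx : ∀ l z, HolA a (p + a) (fun s => u (update v k s l)) z := by
    intro l z
    by_cases c : l = k
    · simp only [c, update_self]
      exact hu.hol.at z
    · simp only [update_of_ne c]
      exact (holM_const _).at z
  have htm : ∀ z, Tm a γ z := fun z =>
    ⟨(holM_const y).at z, fun l => hx l z, .of_forall fun s l => hu.fib _⟩
  have hoff : ∀ z, z ∉ (off fun l => u ⁻¹' M.G l)ᶜ → ∀ l, u (update v k z l) ∈ off M.G := by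
    intro z hz l
    by_cases c : l = k
    · rw [c, update_self]; exact not_not.1 hz
    · rw [update_of_ne c]; exact hv.1 l
  have h1 := hZ a F _ {z | Φ (R.Ji i (γ z)) = 0} (hu.conn.2 (R.conn y hQ)) hS (fun z => by
    have k1 := fun s => (hT p a m ρ M R hM n a F.X γ s (htm s)).1 i (fun l => cx ((γ z).2 l)) d Φ
      hΦ hy
    refine ⟨_, (k1 z fun l => at_chart _).2 ((hS.freq z).mono hoff), ?_⟩
    filter_upwards [eventually_all.2 fun l => (hx l z).cont.eventually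
      (at_near (at_chart (n := p + a) (u (update v k z l))))] with s k2 hs
    exact ⟨(k1 s k2).1 (hoff s hs), ne_iff hΦ (fun l => hi _) k2 (hoff s hs)⟩)
    ⟨v k, not_not.2 (hv.1 k), by
      change ¬ Φ (R.Ji i (y, fun l => u (update v k (v k) l))) = 0
      rw [update_eq_self]
      exact hv.2⟩
  refine h1.dense.mono fun z hz => ?_
  exact ⟨hoff z fun h => hz (Or.inl h), fun h => hz (Or.inr h)⟩

end FgenH

open FgenH

/-- **FGEN** -/
theorem fgen_of (hZ : ZERO) (hT : TST) : FGEN := by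
  intro p a m ρ M R hM n i y S L _ d Φ hy hQ hS hS' hΦ hex x₀ hx₀
  obtain ⟨F, u, hu, hG⟩ := (R.reg y hQ).fib (d := a) rfl hM.ok.fibn.hol hM.ok.snc
  have h1 : ∀ l, Dense (Gs R i y u (Φ l)) := fun l => by
    obtain ⟨x, hx1, hx2⟩ := hex l
    choose v hv using fun k => hu.ex (y := x k) (hx1.1 k)
    have h2 : (fun k => u (v k)) = x := funext hv
    refine dense_upd ⟨v, fun k => (hv k).symm ▸ hx1.2.2 k, ?_⟩
      fun w hw k => gs_upd hZ hT hM hy hQ hu (hΦ l) hw k
    rw [h2]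
    exact hx2
  have h2 : Dense (⋂ l, Gs R i y u (Φ l)) :=
    dense_iInter_of_isOpen (fun l => gs_open hM hy hu (hΦ l)) h1
  have h3 : Dense {z | u z ∉ S} := hu.cemb.isInducing.dense_iff.2 fun z =>
    closure_mono (fun x hx => (hu.ex (y := x) hx.1).imp fun w hw => ⟨fun h => hx.2 (hw ▸ h), hw⟩)
      (hS' _ (hu.fib z))
  have h4 : Dense ({z | u z ∉ S} ∩ off fun l => u ⁻¹' M.G l) :=
    h3.inter_of_isOpen_right (snc_dense_off hG) (snc_open_off hG)
  have h5 := (dense_pi univ fun (_ : Fin n) _ => h4).inter_of_isOpen_right h2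
    (isOpen_iInter_of_finite fun l => gs_open hM hy hu (hΦ l))
  choose v hv using fun k => hu.ex (y := x₀ k) (hx₀ k)
  have h6 : Tendsto (fun (w : Fin n → F.X) k => u (w k)) (𝓝 v) (𝓝 x₀) := by
    rw [← show (fun k => u (v k)) = x₀ from funext hv]
    exact (continuous_pi fun k => hu.hol.cont.comp (continuous_apply k)).tendsto v
  refine h6.frequently ((mem_closure_iff_frequently.1 (h5 v)).mono fun w hw => ?_)
  exact ⟨⟨fun k => hu.fib _, hQ, fun k => (hw.1 k trivial).2⟩, fun k => (hw.1 k trivial).1,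
    fun l => (mem_iInter.1 hw.2 l).2⟩

/-- **SPB** -/
theorem spb : SPB := by
  intro p a m ρ M R _ i y hy hQ
  set v : {x // M.f x = y ∧ x ∈ off M.G} → Cm ρ := fun x => (R.j i (cx x.1) x.1).1 with hv
  have h1 : Submodule.span ℂ (range v) = ⊤ := by
    by_contra h
    obtain ⟨φ, h2, h3⟩ := Submodule.exists_le_ker_of_lt_top _ (lt_top_iff_ne_top.2 h)
    have h4 : ∀ w : Cm ρ, (fun b => φ (Pi.single b 1)) ⬝ᵥ w = φ w := fun w => by
      conv_rhs => rw [pi_eq_sum_univ' w]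
      simp only [dotProduct, map_sum, map_smul, smul_eq_mul, mul_comm]
    have h5 := R.ind i y hy hQ (fun b => φ (Pi.single b 1)) fun e x k1 k2 k3 => by
      obtain ⟨l, -, k4⟩ := loc (R := R) (i := i) (k1.symm ▸ hy) k2 (at_chart x) k3
      have k5 : φ (v ⟨x, k1, k3⟩) = 0 := h3 (Submodule.subset_span ⟨_, rfl⟩)
      rw [h4, k4]
      change φ (l ^ m • v ⟨x, k1, k3⟩) = 0
      rw [map_smul, k5, smul_zero]
    refine h2 (LinearMap.ext fun w => ?_)
    rw [← h4, h5, zero_dotProduct, LinearMap.zero_apply]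
  obtain ⟨κ, b, -, h2, h3⟩ := exists_linearIndependent' ℂ v
  have ε := (Pi.basisFun ℂ (Fin ρ)).indexEquiv (Module.Basis.mk h3 (h2.trans h1).ge)
  refine ⟨fun β => (b (ε β)).1, ⟨fun β => (b (ε β)).2.1, hQ, fun β => (b (ε β)).2.2⟩, ?_⟩
  exact ((Matrix.isUnit_iff_isUnit_det _).1
    (Matrix.linearIndependent_cols_iff_isUnit.1 (h3.comp ε ε.injective))).ne_zero

end Vale.Agent.P281Z.Ga
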