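import Vale.Agent.P281Z.Ga.Sk
import Vale.Agent.P281Z.Sc.Sy

/-!
# P281Z, block III, part A: functional dependence
-/

open scoped Manifold ContDiff Topology
open Set Filter Metric
open Vale.Agent.P272.K
open Vale.Agent.P277Z (Hol at_chart)
open Vale.Agent.P277Z.Slc (Ind dd dd_congr)

noncomputable section

namespace Vale.Agent.P281Z.Ga

namespace Flat

variable {n : ℕ} {W : Type} [TopologicalSpace W] [ChartedSpace (Cm n) W]
  [IsManifold 𝓘(ℂ, Cm n) ω W] {α : Type} [Fintype α]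

theorem nowhere {O : Set W} {H : α → W → ℂ} (hc : IsPreconnected O) (hO : IsOpen O)
    (hH : ∀ x ∈ O, ∀ b, Hol n (H b) x) {x₀ : W} (h0 : x₀ ∈ O) (h : ∀ᶠ y in 𝓝 x₀, ¬ Ind n H y) :
    ∀ x ∈ O, ¬ Ind n H x := fun x hx hi => by
  classical
  refine mem_closure_iff_frequently.1 (dense_of_loc hc (fun z hz k => ?_) ⟨x, hx, hi⟩ h0) h
  have he := at_chart (n := n) z
  have h1 : ∀ᶠ y in 𝓝 z, (Ind n H y ↔ ∃ τ : α → Fin n,
      (Matrix.of fun k b => dd (H b) (chartAt (Cm n) z) y (Pi.single (τ k) 1)).det ≠ 0) := by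
    filter_upwards [hO.mem_nhds hz, at_near he] with y k1 k2 using ind_iff_minor (hH y k1) k2
  have h2 : ∀ τ : α → Fin n, ∀ᶠ y in 𝓝 z,
      (Matrix.of fun k b => dd (H b) (chartAt (Cm n) z) y (Pi.single (τ k) 1)).det = 0 := fun τ =>
    hol_id (hol_det' fun _ b => hol_dd (hH z hz b) he _) ((k.and_eventually h1.eventually_nhds).mono
      fun y k1 => (k1.1.and k1.2).mono fun w k2 => not_not.1 fun k3 => k2.1 (k2.2.2 ⟨τ, k3⟩))
  filter_upwards [h1, eventually_all.2 h2] with y k1 k2 k3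
  exact (k1.1 k3).elim fun τ k4 => k4 (k2 τ)

omit [IsManifold 𝓘(ℂ, Cm n) ω W] in
theorem chain {E : Type} [NormedAddCommGroup E] [NormedSpace ℂ E] {Θ : OpenPartialHomeomorph W E}
    (hΘ : Co n Θ) {v : E} (hv : v ∈ Θ.target) {e : Chart n W} (he : At e (Θ.symm v)) {a : W → ℂ}
    (ha : Hol n a (Θ.symm v)) (ξ : E) : fderiv ℂ (fun v => a (Θ.symm v)) v ξ =
      dd a e (Θ.symm v) (fderiv ℂ (fun v => e (Θ.symm v)) v ξ) := by
  have h1 : (fun v => a (Θ.symm v)) =ᶠ[𝓝 v] (fun z => a (e.symm z)) ∘ fun v => e (Θ.symm v) :=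
    ((Θ.continuousAt_symm hv).eventually (e.eventually_left_inverse he.2)).mono fun w k =>
      congrArg a k.symm
  rw [h1.fderiv_eq, fderiv_comp v (ha e he).differentiableAt (hΘ.inv v hv e he).differentiableAt]
  rfl

theorem span {h : α → W → ℂ} {F : W → ℂ} {y : W} (hi : Ind n h y) (hF : Hol n F y)
    (hn : ¬ Ind n (fun o : Option α => o.elim F h) y) {e : Chart n W} (he : At e y) {ξ : Cm n}
    (h0 : ∀ b, dd (h b) e y ξ = 0) : dd F e y ξ = 0 := by
  have h1 : dd F e y ∈ Submodule.span ℂ (range fun b => dd (h b) e y) := by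
    by_contra k
    exact hn (Ind.of_chart (by rintro (_ | b); exacts [hF, hi.1 b]) he
      (linearIndependent_option.2 ⟨hi.2 e he, k⟩))
  obtain ⟨c, hc⟩ := (Submodule.mem_span_range_iff_exists_fun ℂ).1 h1
  simp [← hc, h0]

end Flat

theorem flat : FLAT := by
  intro n W _ _ _ _ _ α _ O h F hO hc hH ⟨x₀, h0, h1⟩ x hx hi
  have h2 := Flat.nowhere hc hO (fun y hy => by
    rintro (_ | b); exacts [(hH y hy).2, (hH y hy).1 b]) h0 h1
  obtain ⟨Θ, hΘ, k1, k2, k3⟩ := exists_co hi (Nat.add_sub_cancel' (ind_le hi))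
    (hi.near.and (hO.mem_nhds hx))
  have an : ∀ v ∈ Θ.target, AnalyticAt ℂ (fun v => F (Θ.symm v)) v := fun v hv =>
    hΘ.an_hol hv (hH _ (k2 (Θ.map_target hv)).2).2
  have der : ∀ v ∈ Θ.target, ∀ w, fderiv ℂ (fun v => F (Θ.symm v)) v (0, w) = 0 := fun v hv w => by
    have k4 := k2 (Θ.map_target hv)
    rw [Flat.chain hΘ hv (at_chart _) (hH _ k4.2).2]
    refine Flat.span k4.1 (hH _ k4.2).2 (h2 _ k4.2) (at_chart _) fun b => ?_
    have k5 : (fun v => h b (Θ.symm v)) =ᶠ[𝓝 v] fun v => v.1 b :=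
      (Θ.open_target.eventually_mem hv).mono fun u hu => by
        simpa only [Θ.right_inv hu] using (congrFun (k3 _ (Θ.map_target hu)) b).symm
    have k6 : HasFDerivAt (fun v : (α → ℂ) × Cm (n - Fintype.card α) => v.1 b) _ v :=
      (hasFDerivAt_apply (𝕜 := ℂ) b v.1).comp v hasFDerivAt_fst
    rw [← Flat.chain hΘ hv (at_chart _) (k4.1.1 b), k5.fderiv_eq, k6.fderiv]
    rfl
  obtain ⟨r, hr, hb⟩ := Metric.isOpen_iff.1 Θ.open_target _ (Θ.map_source k1)
  refine ⟨fun a => F (Θ.symm (a, (Θ x).2)), ?_, ?_⟩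
  · rw [← k3 x k1]
    exact (an _ (Θ.map_source k1)).comp_of_eq (analyticAt_id.prod analyticAt_const) rfl
  · have hb' := ball_mem_nhds (Θ x) hr
    rw [← ball_prod_same] at hb hb'
    filter_upwards [(Θ.continuousAt k1).eventually hb', Θ.open_source.mem_nhds k1] with y k4 k5
    have k6 : ∀ w ∈ ball (Θ x).2 r, HasFDerivAt (fun w => F (Θ.symm ((Θ y).1, w)))
        ((fderiv ℂ (fun v => F (Θ.symm v)) ((Θ y).1, w)).comp (.inr ℂ _ _)) w := fun w hw =>
      (an ((Θ y).1, w) (hb ⟨k4.1, hw⟩)).differentiableAt.hasFDerivAt.comp w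
        (hasFDerivAt_prodMk_right _ _)
    rw [← k3 y k5, ← isOpen_ball.is_const_of_fderiv_eq_zero (𝕜 := ℂ)
      (convex_ball _ _).isPreconnected
      (fun w hw => (k6 w hw).differentiableAt.differentiableWithinAt)
      (fun w hw => (k6 w hw).fderiv.trans (ContinuousLinearMap.ext (der _ (hb ⟨k4.1, hw⟩)))) k4.2
      (mem_ball_self hr), Θ.left_inv k5]

theorem dep : DEP := by
  intro n W _ _ _ _ _ α _ h F x F' h1 h2 h3
  classical
  have h4 : ContinuousAt (fun y b => h b y) x := continuousAt_pi.2 fun b => (h1 b).cont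
  filter_upwards [h4.eventually h2.eventually_analyticAt, h3.eventually_nhds] with y k1 k2 k3
  have he := at_chart (n := n) y
  set e := chartAt (Cm n) y
  refine (linearIndependent_option.1 (k3.2 e he)).2 ((Submodule.mem_span_range_iff_exists_fun ℂ).2
    ⟨fun b => fderiv ℂ F' (fun b => h b y) (Pi.single b 1), ?_⟩)
  have k4 : HasFDerivAt (fun z b => h b (e.symm z)) (ContinuousLinearMap.pi fun b => dd (h b) e y)
      (e y) := hasFDerivAt_pi.2 fun b => (k3.1 (some b) e he).differentiableAt.hasFDerivAt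
  have k5 : HasFDerivAt F' (fderiv ℂ F' fun b => h b y) fun b => h b (e.symm (e y)) := by
    rw [e.left_inv he.2]
    exact k1.differentiableAt.hasFDerivAt
  refine Eq.trans ?_ ((dd_congr k2 he).trans (k5.comp _ k4).fderiv).symm
  ext1 ξ
  rw [ContinuousLinearMap.comp_apply, pi_eq_sum_univ' (ContinuousLinearMap.pi _ ξ), map_sum]
  simp [mul_comm]

end Vale.Agent.P281Z.Ga
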