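import Vale.Agent.P281Z.Ga.Sk

/-!
# P281Z, block III, part A: the jets are flat near some point
-/

open scoped Manifold ContDiff Topology Matrix
open Set Filter
open Vale.Agent.P272.K Vale.Agent.P285.H281.FD
open Vale.Agent.P277Z (Hol)

noncomputable section

namespace Vale.Agent.P281Z.Ga

open Gt

namespace Flj

section alg

variable {ρ a m : ℕ} {E : Type} [NormedAddCommGroup E] [NormedSpace ℂ E] {q : E}

theorem an_act {g : E → Mt ρ} {j : E → Jt ρ a} (hg : ∀ α β, AnalyticAt ℂ (fun q => g q α β) q)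
    (hj : AnalyticAt ℂ j q) : AnalyticAt ℂ (fun q => act (g q) (j q)) q := by
  refine AnalyticAt.prod (AnalyticAt.pi fun α => ?_) (AnalyticAt.pi fun J => ?_)
  · simp only [Matrix.mulVec, dotProduct]
    exact Finset.analyticAt_fun_sum _ fun β _ =>
      (hg α β).fun_mul (analyticAt_pi_iff.1 (analyticAt_fst.fun_comp hj) β)
  · exact Finset.analyticAt_fun_sum _ fun J' _ => (Finset.analyticAt_fun_prod _ fun k _ =>
      hg _ _).fun_mul (analyticAt_pi_iff.1 (analyticAt_snd.fun_comp hj) J')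

theorem an_sc {l : E → ℂ} {j : E → Jt ρ a} (hl : AnalyticAt ℂ l q) (hj : AnalyticAt ℂ j q) :
    AnalyticAt ℂ (fun q => sc m (l q) (j q)) q :=
  ((hl.fun_pow _).fun_smul (analyticAt_fst.fun_comp hj)).prod
    ((hl.fun_pow _).fun_smul (analyticAt_snd.fun_comp hj))

theorem an_wc (J₀ : Fin (a + 1) → Fin ρ) {j : E → Jt ρ a} (hj : AnalyticAt ℂ j q)
    (h0 : (j q).1 (J₀ 0) ≠ 0) : AnalyticAt ℂ (fun q => wc J₀ (j q)) q :=
  AnalyticAt.pi fun _ => (analyticAt_pi_iff.1 (analyticAt_fst.fun_comp hj) _).fun_div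
    (analyticAt_pi_iff.1 (analyticAt_fst.fun_comp hj) _) h0

theorem an_dot (c : Cm ρ) {j : E → Jt ρ a} (hj : AnalyticAt ℂ j q) :
    AnalyticAt ℂ (fun q => c ⬝ᵥ (j q).1) q :=
  Finset.analyticAt_fun_sum _ fun β _ =>
    analyticAt_const.fun_mul (analyticAt_pi_iff.1 (analyticAt_fst.fun_comp hj) β)

theorem act_sc (g : Mt ρ) (l : ℂ) (j : Jt ρ a) : act g (sc m l j) = sc m l (act g j) := by
  refine Prod.ext (Matrix.mulVec_smul g (l ^ m) j.1) (funext fun J => ?_)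
  simp only [act, sc, Pi.smul_apply, smul_eq_mul, Finset.mul_sum]
  exact Finset.sum_congr rfl fun _ _ => by ring

theorem sc_mul (l l' : ℂ) (j : Jt ρ a) : sc m (l * l') j = sc m l (sc m l' j) := by
  simp only [sc, mul_pow, mul_smul]

theorem wc_sc (J₀ : Fin (a + 1) → Fin ρ) {l : ℂ} (hl : l ≠ 0) (j : Jt ρ a) :
    wc J₀ (sc m l j) = wc J₀ j :=
  funext fun _ => mul_div_mul_left _ _ (pow_ne_zero _ hl)

theorem kap_ne {J₀ : Fin (a + 1) → Fin ρ} {j : Jt ρ a} (h : gd J₀ j) : kap J₀ j ≠ 0 :=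
  div_ne_zero h.2 (pow_ne_zero _ h.1)

theorem gd_near {X : Type} [TopologicalSpace X] {x : X} {J₀ : Fin (a + 1) → Fin ρ}
    {j : X → Jt ρ a} (hj : ContinuousAt j x) (h : gd J₀ (j x)) : ∀ᶠ y in 𝓝 x, gd J₀ (j y) :=
  (((continuous_apply _).continuousAt.comp hj.fst).eventually_ne h.1).and
    (((continuous_apply _).continuousAt.comp hj.snd).eventually_ne h.2)

/-- the two functions which define `gd` -/
def Φ (J₀ : Fin (a + 1) → Fin ρ) (g : Mt ρ) (b : Bool) (j : Fin 1 → Jt ρ a) : ℂ :=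
  bif b then (act g (j 0)).1 (J₀ 0) else (act g (j 0)).2 J₀

theorem sh_Φ (J₀ : Fin (a + 1) → Fin ρ) (g : Mt ρ) (b : Bool) :
    SH m (fun _ => bif b then m else (a + 1) * m + 1) (Φ J₀ g b) := by
  have h : ∀ j : Fin 1 → Jt ρ a, AnalyticAt ℂ (fun j : Fin 1 → Jt ρ a => act g (j 0)) j := fun j =>
    an_act (fun _ _ => analyticAt_const) (analyticAt_pi_iff.1 analyticAt_id 0)
  cases b
  · exact ⟨fun j => analyticAt_pi_iff.1 (analyticAt_snd.fun_comp (h j)) _, fun l j => by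
      simp only [Φ, act_sc]
      simp [sc]⟩
  · exact ⟨fun j => analyticAt_pi_iff.1 (analyticAt_fst.fun_comp (h j)) _, fun l j => by
      simp only [Φ, act_sc]
      simp [sc]⟩

end alg

section an

variable {v a : ℕ} {G : Cm v × Cm a → Cm a} {q : Cm v × Cm a}

/-- the partial Jacobian determinant -/
def d2 (G : Cm v × Cm a → Cm a) (q : Cm v × Cm a) : ℂ :=
  LinearMap.det (fderiv ℂ (fun o => G (q.1, o)) q.2 : Cm a →ₗ[ℂ] Cm a)

theorem fd2 (h : AnalyticAt ℂ G q) : fderiv ℂ (fun o => G (q.1, o)) q.2 =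
    (fderiv ℂ G q).comp (ContinuousLinearMap.inr ℂ _ _) :=
  (h.differentiableAt.hasFDerivAt.comp q.2 (hasFDerivAt_prodMk_right q.1 q.2)).fderiv

theorem an_d2 (h : AnalyticAt ℂ G q) : AnalyticAt ℂ (d2 G) q := by
  have k : AnalyticAt ℂ (fun q => (Matrix.of fun i j : Fin a =>
      fderiv ℂ G q (0, Pi.single j 1) i).det) q := by
    simp only [Matrix.det_apply]
    refine Finset.analyticAt_fun_sum _ fun σ _ =>
      (Finset.analyticAt_fun_prod _ fun i _ => ?_).const_smul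
    exact analyticAt_pi_iff.1 (((ContinuousLinearMap.apply ℂ (Cm a)
      ((0, Pi.single i 1) : Cm v × Cm a)).analyticAt _).fun_comp h.fderiv) _
  refine k.congr (h.eventually_analyticAt.mono fun q' h' => ?_)
  simp only [d2, fd2 h', ← LinearMap.det_toMatrix']
  exact congrArg Matrix.det (Matrix.ext fun i j => by simp [LinearMap.toMatrix'_apply])

theorem inv2 (hG : AnalyticAt ℂ G q) (h : d2 G q ≠ 0) : ∃ Ξ : Cm v × Cm a → Cm v × Cm a,
    AnalyticAt ℂ Ξ (q.1, G q) ∧ ∀ᶠ q' in 𝓝 q, Ξ (q'.1, G q') = q' := by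
  have h1 : AnalyticAt ℂ (fun q' : Cm v × Cm a => (q'.1, G q')) q := analyticAt_fst.prod hG
  have h2 := (hasFDerivAt_fst (𝕜 := ℂ) (p := q)).prodMk hG.differentiableAt.hasFDerivAt
  have h3 : ((ContinuousLinearMap.fst ℂ (Cm v) (Cm a)).prod (fderiv ℂ G q)).toLinearMap.ker = ⊥ :=
      LinearMap.ker_eq_bot'.2 fun u hu => by
    obtain ⟨u₁, u₂⟩ := u
    obtain rfl : u₁ = 0 := congrArg Prod.fst hu
    exact Prod.ext rfl ((LinearMap.equivOfDetNeZero _ h).map_eq_zero_iff.1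
      ((congrArg (fun A : Cm a →L[ℂ] Cm a => A u₂) (fd2 hG)).trans (congrArg Prod.snd hu)))
  let A := ContinuousLinearEquiv.ofBijective _ h3 (LinearMap.ker_eq_bot_iff_range_eq_top.1 h3)
  have h4 : HasFDerivAt (fun q' : Cm v × Cm a => (q'.1, G q')) (A : _ →L[ℂ] _) q := h2
  have h5 := h1.contDiffAt (n := ω)
  exact ⟨h5.localInverse h4 (by simp), (h5.to_localInverse h4 (by simp)).analyticAt,
    (h5.hasStrictFDerivAt' h4 (by simp)).eventually_left_inverse⟩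

end an

end Flj

open Flj in
/-- **FLJ** -/
theorem flj_of (hF : FGEN) (hD : DER) : FLJ := by
  intro p a m ρ M R hM J₀ v z S cc C hW hz
  have hf := hM.ok.fibn.hol
  obtain ⟨x₀⟩ := hM.ok.conn.toNonempty
  obtain ⟨y, hy⟩ := (C.thinQ.freq (M.f x₀)).exists
  have hy1 : y ∉ S.Q := fun h => hy (hW.sub h)
  obtain ⟨i, hi⟩ : ∃ i, y ∈ R.U i := ⟨_, R.fr_mem y⟩
  obtain ⟨h, h1, h2, h3⟩ := S.loc i y hi hy1
  obtain ⟨x₁, e1, -⟩ := S.ex i y hi hy1 ⟨0, S.pos⟩
  obtain ⟨xx, k1, hS, k3⟩ := (hF p a m ρ M R hM 1 i y C.S (Fin S.e × Bool) _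
    (fun l => Φ J₀ (h l.1 y) l.2) hi (fun h => hy1 (S.sub h)) C.thinS.closed
    (fun x hx => hx ▸ C.fib x (hx ▸ hy)) (fun l => sh_Φ _ _ _) (fun l => by
      obtain ⟨π, hπ⟩ := h2.self_of_nhds
      obtain ⟨x, a1, a2, a3⟩ := S.ex i y hi hy1 (π.symm l.1)
      rw [hπ, π.apply_symm_apply] at a3
      refine ⟨fun _ => x, ⟨fun _ => a1, fun h => hy1 (S.sub h), fun _ => a2⟩, ?_⟩
      obtain ⟨k, _ | _⟩ := l
      exacts [a3.2, a3.1]) (fun _ => x₁) fun _ => e1).exists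
  have hg : ∀ k, gd J₀ (act (h k y) (R.j i (cx (xx 0)) (xx 0))) := fun k =>
    ⟨k3 (k, true), k3 (k, false)⟩
  have hx : M.f (xx 0) = y := k1.1 0
  replace hS := hS 0
  clear k1 k3 e1
  generalize xx 0 = x at hS hg hx
  subst hx
  have hc : At (cx x) x := P277Z.at_chart x
  choose F F1 F2 using h3 x (cx x) rfl (C.offG x hS) hc hg ⟨0, S.pos⟩
  refine ⟨x, i, h, hS, hi, h2, ?_⟩
  generalize cx x = c at hc hg F1 F2 ⊢
  set J : Fin S.e → M.X.X → Jt ρ a := fun k x' => act (h k (M.f x')) (R.j i c x') with hJ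
  set Z : M.X.X → Cm v := fun x' j => z j (M.f x') with hZ
  set W : M.X.X → Cm a := fun x' => wc J₀ (J ⟨0, S.pos⟩ x') with hWW
  have E0 : ∀ᶠ x' in 𝓝 x, x' ∉ C.S ∧ M.f x' ∈ R.U i ∧ At c x' ∧
      ∀ k α β, Hol p (fun y' => h k y' α β) (M.f x') :=
    Eventually.and (C.thinS.closed.isOpen_compl.mem_nhds hS) <|
      Eventually.and (hf.cont.continuousAt ((R.opn i).mem_nhds hi)) <| (at_near hc).and <|
      hf.cont.continuousAt.eventually (eventually_all.2 fun k => eventually_all.2 fun α =>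
        eventually_all.2 fun β => (h1 k α β).near)
  have hQ : ∀ x' ∉ C.S, M.f x' ∉ S.Q := fun x' a b => a (C.sub x' (hW.sub b))
  have hJa : ∀ k, AnV (p + a) (J k) x := fun k e he =>
    an_act (fun α β => hf.hol (h1 k α β) e he) (R.hol i c x hi hc (C.offG x hS) e he)
  have E1 : ∀ᶠ x' in 𝓝 x, ∀ k, gd J₀ (J k x') ∧ nrm J₀ m (J k x') = F k (Z x', W x') :=
    eventually_all.2 fun k => (gd_near (hJa k).cont (hg k)).and (F2 k)
  let P : Cm ρ → Cm v × Cm a → ℂ := fun c' q => ∏ k, c' ⬝ᵥ (F k q).1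
  have E2 : ∀ᶠ x' in 𝓝 x, P (cc 0) (Z x', W x') ≠ 0 ∧
      ∀ l, C.w l x' = P (cc l.succ) (Z x', W x') / P (cc 0) (Z x', W x') := by
    filter_upwards [E0, E1, hf.cont.continuousAt.eventually h2] with x' ⟨a1, a2, a3, _⟩ a4 ⟨π, hπ⟩
    have key : ∀ c', S.N c' x' = (∏ k, (rj (cx x') c (R.ch (R.fr (M.f x'))) (R.ch i) x' *
        kap J₀ (J (π k) x')) ^ m) * P c' (Z x', W x') := fun c' => by
      simp only [P]
      rw [← Equiv.prod_comp π fun k => c' ⬝ᵥ (F k (Z x', W x')).1, ← Finset.prod_mul_distrib,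
        JS.GS.N, JS.GS.nn]
      refine Finset.prod_congr rfl fun k _ => ?_
      change c' ⬝ᵥ (S.g _ (M.f x') k *ᵥ (R.j (R.fr (M.f x')) (cx x') x').1) = _
      rw [R.law _ i _ c x' (R.fr_mem _) a2 (P277Z.at_chart x') a3 (C.offG x' a1), ← (a4 _).2, nrm]
      have k0 := kap_ne (a4 (π k)).1
      generalize kap J₀ (J (π k) x') = κ at k0 ⊢
      simp only [sc, act, J, Matrix.mulVec_smul, Matrix.mulVec_mulVec,
        S.law _ i _ (R.fr_mem _) a2 (hQ x' a1), hπ, dotProduct_smul, smul_eq_mul]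
      rw [mul_pow, mul_assoc, ← mul_assoc (_ ^ m) (_⁻¹ ^ m), ← mul_pow,
        mul_inv_cancel₀ k0, one_pow, one_mul]
    have h0 := hW.ne x' a1
    rw [key] at h0
    exact ⟨right_ne_zero_of_mul h0, fun l => by
      rw [hW.eq x' a1, key, key, mul_div_mul_left _ _ (left_ne_zero_of_mul h0)]⟩
  have hP : ∀ c', AnalyticAt ℂ (P c') (Z x, W x) := fun c' =>
    Finset.analyticAt_fun_prod _ fun k _ => an_dot c' (F1 k)
  let w : Cm v × Cm a → Cm a := fun q l => P (cc l.succ) q / P (cc 0) q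
  have hw : AnalyticAt ℂ w (Z x, W x) :=
    AnalyticAt.pi fun l => (hP _).fun_div (hP _) E2.self_of_nhds.1
  have hWa : AnV (p + a) W x := (hJa _).cmp (an_wc J₀ analyticAt_id (hg _).1)
  have hZa : AnV (p + a) Z x := AnV.pi fun j => hf.hol (hz _ hy1 j)
  have d1 := (hD p a m ρ M R hM i c x hi (fun h => hy1 (S.sub h)) hc (C.offG x hS)).2.2.2 v z
    (fun l x' => W x' l) C.w w (hz _ hy1) hWa.hol hw (E2.mono fun _ a => a.2)
  obtain ⟨Ξ, x1, x2⟩ := inv2 hw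
    (left_ne_zero_of_mul (d1 ▸ C.et x hS c _ hc (R.atc i _ hi)) : d2 w (Z x, W x) ≠ 0)
  have E3 : ∀ᶠ x' in 𝓝 x, Ξ (Z x', fun l => C.w l x') = (Z x', W x') := by
    filter_upwards [E2, (hZa.prod hWa).cont.eventually x2] with x' a1 a2
    rw [funext a1.2]
    exact a2
  have x3 : AnalyticAt ℂ Ξ (Z x, fun l => C.w l x) := by
    rw [funext E2.self_of_nhds.2]
    exact x1
  intro k
  have x4 : AnalyticAt ℂ (fun q => F k (Ξ q)) (Z x, fun l => C.w l x) :=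
    (F1 k).fun_comp_of_eq x3 E3.self_of_nhds
  have x5 : AnalyticAt ℂ (fun q => wc J₀ (F k (Ξ q))) (Z x, fun l => C.w l x) :=
    an_wc J₀ x4 (by
      rw [E3.self_of_nhds, ← (E1.self_of_nhds k).2]
      exact mul_ne_zero (pow_ne_zero _ (inv_ne_zero (kap_ne (hg k)))) (hg k).1)
  refine ⟨fun q => sc m (d2 (fun q => wc J₀ (F k (Ξ q))) q) (F k (Ξ q)), an_sc (an_d2 x5) x4, ?_⟩
  filter_upwards [E0, (E1.and E3).eventually_nhds, (hZa.prod (AnV.pi fun l =>
    (C.mr l).hol x hS)).cont.eventually x5.eventually_analyticAt] with x' ⟨a1, a2, a3, a4⟩ a5 a6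
  obtain ⟨-, b1, -, b2⟩ := hD p a m ρ M R hM i c x' a2 (fun h => hQ x' a1 (S.sub h)) a3
    (C.offG x' a1)
  obtain ⟨a7, a8⟩ := a5.self_of_nhds
  have b3 := (b1 J₀ (h k) (a4 k) (a7 k).1.1).symm.trans (b2 v z C.w _ _ (hz _ (hQ x' a1))
    (fun l => (C.mr l).hol x' a1) a6 (a5.mono fun x'' b l => by
      rw [b.2, ← (b.1 k).2, nrm, wc_sc _ (inv_ne_zero (kap_ne (b.1 k).1))]))
  have b4 := kap_ne (a7 k).1
  change kap J₀ (J k x') = d2 (fun q => wc J₀ (F k (Ξ q))) (Z x', fun l => C.w l x') * _ at b3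
  change sc m _ (J k x') = sc m (d2 (fun q => wc J₀ (F k (Ξ q))) (Z x', fun l => C.w l x'))
    (F k (Ξ (Z x', fun l => C.w l x')))
  rw [a8, ← (a7 k).2, nrm, ← sc_mul, b3, mul_inv, ← mul_assoc,
    mul_inv_cancel₀ (left_ne_zero_of_mul (b3 ▸ b4)), one_mul]

end Vale.Agent.P281Z.Ga
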