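import Vale.Agent.P281Z.Ga.Sk
import Vale.Agent.P281Z.Gl.Thn

/-!
# P281Z, block III, part A: flatness of the forms
-/

open scoped Manifold ContDiff Topology Matrix
open Set Filter
open Vale.Agent.P272.K
open Vale.Agent.P277Z (Hol at_chart)
open Vale.Agent.P277Z.Slc (Ind dd ind_iff_surj)

noncomputable section

namespace Vale.Agent.P281Z.Ga

open Gt

namespace Flp

/-- independent functions on the base can replace the coordinates of the base -/
theorem ind_base {K p : ℕ} {V Y α β : Type} [TopologicalSpace V] [ChartedSpace (Cm K) V]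
    [IsManifold 𝓘(ℂ, Cm K) ω V] [TopologicalSpace Y] [ChartedSpace (Cm p) Y]
    [IsManifold 𝓘(ℂ, Cm p) ω Y] [Fintype α] [Fintype β] {π : V → Y} {v : V} {e' : Chart p Y}
    {w : β → V → ℂ} {z : α → Y → ℂ} (hπ : HolA K p π v) (he' : At e' (π v))
    (h : Ind K (Sum.elim (fun c s => e' (π s) c) w) v) (hz : Ind p z (π v)) :
    Ind K (Sum.elim (fun j s => z j (π s)) w) v := by
  refine ⟨Sum.rec (fun j => hπ.hol (hz.1 j)) fun b => h.1 (.inr b), fun e he =>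
    (ind_iff_surj _).2 fun u => ?_⟩
  obtain ⟨η, h1⟩ := (ind_iff_surj _).1 (hz.2 e' he') fun j => u (.inl j)
  obtain ⟨ξ, h2⟩ := (ind_iff_surj _).1 (h.2 e he) (Sum.elim η fun b => u (.inr b))
  have h3 : df π e e' v ξ = η := funext fun c =>
    (df_apply hπ he he' ξ c).trans (congrFun h2 (.inl c))
  refine ⟨ξ, funext (Sum.rec (fun j => ?_) fun b => congrFun h2 (.inr b))⟩
  exact (DFunLike.congr_fun (dd_comp (hz.1 j) hπ he he') ξ).trans
    ((congrArg (dd (z j) e' (π v)) h3).trans (congrFun h1 j))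

theorem crd_an {α E : Type} [Fintype α] [NormedAddCommGroup E] [NormedSpace ℂ E] (b : α)
    (u : α → E) : AnalyticAt ℂ (fun u : α → E => u b) u := analyticAt_pi_iff.1 analyticAt_id b

variable {ρ a m n c κ e : ℕ} {g H : Fin e → Mt ρ} {π : Equiv.Perm (Fin e)} {T : Mt ρ}

theorem alg1 {d : Fin e → Fin n → ℕ} {Φ : Fin e → (Fin n → Jt ρ a) → ℂ}
    (hΦ : ∀ k, SI m c (d k) (Φ k)) (hd : ∀ l, ∑ k, d k l = κ) (hg : ∀ k, g k * T = H (π k))
    {r : Fin n → ℂ} (hr : ∀ l, r l ≠ 0) (D : Fin n → ℂ) (J : Fin n → Jt ρ a) :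
    (∏ k, (g k).det) ^ c * (∏ k, Φ k fun l => sc m (r l) (act T (J l))) / (∏ l, r l * D l) ^ κ =
      ∏ k, Φ k fun l => sc m (D l)⁻¹ (act (H k) (J l)) := by
  have e1 : ∀ s : Fin n → ℂ, ∏ k, ∏ l, s l ^ d k l = (∏ l, s l) ^ κ := fun s => by
    rw [Finset.prod_comm, ← Finset.prod_pow]
    simp only [Finset.prod_pow_eq_pow_sum, hd]
  have e2 : ∏ k, (H k).det = (∏ k, (g k).det) * ∏ _k : Fin e, T.det := by
    rw [← Equiv.prod_comp π, ← Finset.prod_mul_distrib]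
    simp only [← hg, Matrix.det_mul]
  have e3 := pow_ne_zero κ (Finset.prod_ne_zero_iff.2 fun l (_ : l ∈ Finset.univ) => hr l)
  simp only [(hΦ _).sc, (hΦ _).act, Finset.prod_mul_distrib, e1, Finset.prod_pow, e2,
    Finset.prod_inv_distrib, mul_pow, inv_pow]
  rw [mul_left_comm, mul_div_mul_left _ _ e3, div_eq_inv_mul, mul_assoc]

theorem alg2 (hg : ∀ k, g k * T = H (π k)) {r : ℂ} (hr : r ≠ 0) (D : ℂ) (J : Jt ρ a) (u : Cm ρ) :
    (∏ k, u ⬝ᵥ (g k *ᵥ (sc m r (act T J)).1)) / (r * D) ^ (m * e) =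
      ∏ k, u ⬝ᵥ (sc m D⁻¹ (act (H k) J)).1 := by
  rw [← Equiv.prod_comp π fun k => u ⬝ᵥ (sc m D⁻¹ (act (H k) J)).1]
  simp only [sc, act, Matrix.mulVec_smul, Matrix.mulVec_mulVec, hg, dotProduct_smul, smul_eq_mul,
    Finset.prod_mul_distrib, Finset.prod_const, Finset.card_univ, Fintype.card_fin, ← pow_mul,
    mul_pow, inv_pow]
  rw [mul_div_mul_left _ _ (pow_ne_zero _ hr), div_eq_inv_mul]

end Flp

open Flp in
theorem flp_of (h1 : PW) (h2 : THN) (h3 : FLAT) (h4 : DEP) : FLP := by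
  rintro p a m n M D F hM hz hF ⟨q, hq, F', a1, a2⟩ k T _ _ _ _ _ g t hg ht b1 b2
  obtain ⟨W⟩ := h1 p a n M D.Q hM.ok hM.kahX hM.kahY D.thinQ fun y hy => ⟨D.reg y hy, D.conn y hy⟩
  obtain ⟨t1, -, -, t4, -⟩ := h2 p a n M D.toNS W hM.ok
  have := W.conn
  let h : Fin D.v ⊕ Fin n × Fin a → W.V.X → ℂ :=
    Sum.elim (fun j s => D.z j (W.γ s).1) fun b s => D.w b.2 ((W.γ s).2 b.1)
  have c1 : ∀ v, W.γ v ∈ D.N n → Ind (p + n * a) h v := fun v hv => by
    have he' := at_chart (n := p) (W.γ v).1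
    have d1 : HolA _ (p + n * a) (fun s => D.co (chartAt (Cm p) (W.γ v).1) (W.γ s)) v :=
      Thn.holA_cm fun i => by
        refine i.addCases (fun c => ?_) fun c => ?_
        · simpa only [NS.co, Fin.append_left] using (W.tm v).b.hol (hol_chart he' c)
        · simpa only [NS.co, Fin.append_right] using
            ((W.tm v).x _).hol ((D.mr _).hol _ (hv.2.2 _))
    have d2 := ((sbm_iff_ind d1 (at_chart _)).1 (imm_iff_sbm.1 ((Thn.jd_ne d1 (at_chart v)).1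
      (t4 v hv _ _ (at_chart v) he')))).comp _
      (((Equiv.refl _).sumCongr finProdFinEquiv).trans finSumFinEquiv).injective
    refine ind_base (W.tm v).b he' (ind_congr d2 ?_) (hz _ hv.2.1)
    rintro (c | b) <;> exact .of_forall fun s => by
      simp [NS.co, chartAt_self_eq, -finProdFinEquiv_symm_apply]
  obtain ⟨v₀, rfl, -⟩ := W.bij q hq.1 hq.2.1
  obtain ⟨l, l1, l2⟩ := W.lift k T g t hg ht.2.1
  have l3 : W.γ (l t) ∈ D.N n := l2.self_of_nhds.symm ▸ ht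
  obtain ⟨G, -, g2⟩ := h3 _ W.V.X _ _ h (fun s => F (W.γ s)) t1.closed.isOpen_compl t1.preconn
    (fun v hv => ⟨(c1 v (not_not.1 hv)).1, hF _ (not_not.1 hv) _ _ W.γ v (W.tm v) rfl⟩)
    ⟨v₀, not_not_intro hq, h4 _ W.V.X _ h _ v₀
      (fun u => F' (fun j => u (.inl j), fun k l => u (.inr (k, l)))) (c1 v₀ hq).1
      (a1.fun_comp (f := fun u : Fin D.v ⊕ Fin n × Fin a → ℂ =>
        (fun j => u (.inl j), fun k l => u (.inr (k, l))))
        ((AnalyticAt.pi fun _ => crd_an _ _).prod (.pi fun _ => .pi fun _ => crd_an _ _)))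
      ((tendsto_nhdsWithin_iff.2 ⟨(Thn.cont W).continuousAt, (W.tm v₀).fp⟩).eventually a2)⟩
    (l t) (not_not_intro l3) (c1 _ l3)
  filter_upwards [l2, l1.cont.eventually g2, eventually_all.2 b1,
    eventually_all.2 fun j => eventually_all.2 (b2 j)] with s k1 k2 k3 k4
  rw [← k1, ← l2.self_of_nhds, k2, g2.self_of_nhds]
  refine congrArg G (funext ?_)
  rintro (j | b) <;> simp only [h, Sum.elim_inl, Sum.elim_inr, k1, l2.self_of_nhds, k3, k4]

open Flp in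
theorem fl3_of (h1 : FLJ) (h2 : JDW) : FL3 := by
  intro p a m ρ M R hM J₀ v z S cc C hW hz
  obtain ⟨x, i, h, a1, a2, a3, a4⟩ := h1 p a m ρ M R hM J₀ v z S cc C hW hz
  choose F b1 b2 using a4
  have key : ∀ n, ∀ᶠ q : Pt M n in 𝓝[{q | Fp q}] (dg n x), ∃ (π : Equiv.Perm (Fin S.e))
      (r D : Fin n → ℂ) (J : Fin n → Jt ρ a) (T : Mt ρ),
      (∀ k, S.g (R.fr q.1) q.1 k * T = h (π k) q.1) ∧ (∀ l, r l ≠ 0) ∧
      R.jq C.w q = ∏ l, r l * D l ∧
      (∀ l, R.j (R.fr q.1) (cx (q.2 l)) (q.2 l) = sc m (r l) (act T (J l))) ∧ ∀ k l,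
      F k (fun j => z j q.1, fun b => C.w b (q.2 l)) = sc m (D l)⁻¹ (act (h k q.1) (J l)) := by
    intro n
    have c1 : Tendsto (fun q : Pt M n => q.1) (𝓝 (dg n x)) (𝓝 (M.f x)) := continuousAt_fst
    have c2 : ∀ l, Tendsto (fun q : Pt M n => q.2 l) (𝓝 (dg n x)) (𝓝 x) := fun l =>
      ((continuous_apply l).comp continuous_snd).continuousAt
    filter_upwards [self_mem_nhdsWithin, nhdsWithin_le_nhds (c1.eventually (a3.and
      (((R.opn i).eventually_mem a2).and (S.thin.closed.isOpen_compl.eventually_mem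
        fun k => a1 (C.sub x (hW.sub k)))))), nhdsWithin_le_nhds (eventually_all.2 fun l =>
      (c2 l).eventually ((C.thinS.closed.isOpen_compl.eventually_mem a1).and
        ((at_near (at_chart (n := p + a) x)).and (eventually_all.2 b2))))]
      with q k0 ⟨⟨π, k1⟩, k2, k3⟩ k4
    have k5 : ∀ l, M.f (q.2 l) = q.1 := k0
    have k6 := R.fr_mem q.1
    have k7 := fun l => h2 p a M C.w (q.2 l) _ _ (R.ch (R.fr q.1)) _ hM.ok.fibn.hol
      (fun b => (C.mr b).hol _ (k4 l).1) (at_chart _) (k4 l).2.1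
      (R.atc _ _ ((k5 l).symm ▸ k6)) (R.atc _ _ ((k5 l).symm ▸ k2))
    refine ⟨π, _, _, fun l => R.j i (cx x) (q.2 l), R.T (R.fr q.1) i q.1,
      fun k => (S.law _ i _ k6 k2 k3 k).trans (k1 k), fun l => (k7 l).1,
      Finset.prod_congr rfl fun l _ => (k7 l).2, fun l => ?_, fun k l => ?_⟩
    · rw [R.law _ i _ _ _ ((k5 l).symm ▸ k6) ((k5 l).symm ▸ k2) (at_chart _) (k4 l).2.1
        (C.offG _ (k4 l).1), k5]
    · rw [← k5 l, (k4 l).2.2 k]
  have an : ∀ n k (l : Fin n), AnalyticAt ℂ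
      (fun u : Cm v × (Fin n → Cm a) => F k (u.1, u.2 l))
      (fun j => z j (M.f x), fun _ b => C.w b x) := fun n k l =>
    AnalyticAt.fun_comp (f := fun u : Cm v × (Fin n → Cm a) => (u.1, u.2 l)) (b1 k)
      (analyticAt_fst.prod ((crd_an l _).fun_comp analyticAt_snd))
  refine ⟨x, a1, fun n c κ d Φ hΦ hd => ⟨fun u => ∏ k, Φ k fun l => F k (u.1, u.2 l),
    Finset.analyticAt_fun_prod _ fun k _ => ((hΦ k).an _).fun_comp (.pi (an n k)),
    (key n).mono fun q ⟨π, r, D, J, T, k1, k2, k3, k4, k5⟩ => ?_⟩,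
    fun c => ⟨fun u => ∏ k, c ⬝ᵥ (F k (u.1, u.2 0)).1, Finset.analyticAt_fun_prod _ fun k _ =>
      Finset.analyticAt_fun_sum _ fun α _ => analyticAt_const.mul
        (analyticAt_pi_iff.1 (analyticAt_fst.fun_comp (an 1 k 0)) α),
    (key 1).mono fun q ⟨π, r, D, J, T, k1, k2, k3, k4, k5⟩ => ?_⟩⟩
  · simp only [JS.gl, JS.GS.tf, k3, k4, k5]
    exact alg1 hΦ hd k1 k2 D J
  · simp only [JS.gl, JS.GS.nn, k3, k4, k5, Fin.prod_univ_one]
    exact alg2 k1 (k2 0) _ _ c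

end Vale.Agent.P281Z.Ga
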