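import Vale.Agent.P281Z.Ga.Sk

/-!
# P281Z, block III, part A: the frame defined by `ρ + 1` jets
-/

open Matrix

noncomputable section

namespace Vale.Agent.P281Z.Ga

namespace FrmH

variable {ρ a n m : ℕ} {J₀ : Fin (a + 1) → Fin ρ}

theorem act_mul (g h : Mt ρ) (j : Jt ρ a) : act (g * h) j = act g (act h j) := by
  refine Prod.ext (mulVec_mulVec j.1 g h).symm (funext fun J => ?_)
  simp only [act, Matrix.mul_apply, Finset.prod_univ_sum, Fintype.piFinset_univ, Finset.sum_mul,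
    Finset.mul_sum, Finset.prod_mul_distrib, mul_assoc]
  exact Finset.sum_comm

theorem act_diag (d : Fin ρ → ℂ) (j : Jt ρ a) :
    act (diagonal d) j = (fun α => d α * j.1 α, fun J => (∏ k, d (J k)) * j.2 J) := by
  refine Prod.ext (funext fun α => mulVec_diagonal d j.1 α) (funext fun J => ?_)
  refine (Finset.sum_eq_single J (fun J' _ h => ?_) (by simp)).trans (by simp)
  obtain ⟨k, hk⟩ := Function.ne_iff.1 h
  rw [Finset.prod_eq_zero (Finset.mem_univ k) (diagonal_apply_ne' d hk), zero_mul]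

theorem act_one (j : Jt ρ a) : act 1 j = j := by
  rw [← diagonal_one, act_diag]
  simp

theorem act_smul (t : ℂ) (g : Mt ρ) (j : Jt ρ a) :
    act (t • g) j = (t • (act g j).1, t ^ (a + 1) • (act g j).2) := by
  rw [smul_eq_diagonal_mul, act_mul, act_diag]
  simp [Pi.smul_def]

theorem act_sc (g : Mt ρ) (l : ℂ) (j : Jt ρ a) : act g (sc m l j) = sc m l (act g j) := by
  refine Prod.ext (mulVec_smul g (l ^ m) j.1) (funext fun J => ?_)
  simp only [act, sc, Pi.smul_apply, smul_eq_mul, Finset.mul_sum, mul_left_comm]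

theorem sc_one (j : Jt ρ a) : sc m 1 j = j := by simp [sc]

theorem kap_sc {l : ℂ} (h : l ≠ 0) (j : Jt ρ a) : kap J₀ (sc m l j) = l * kap J₀ j := by
  simp only [kap, sc, Pi.smul_apply, smul_eq_mul, mul_pow, ← pow_mul, mul_comm m, pow_succ l]
  rw [mul_assoc, mul_div_mul_left _ _ (pow_ne_zero _ h), mul_div_assoc]

theorem kap_smul {t : ℂ} (h : t ≠ 0) (g : Mt ρ) (j : Jt ρ a) :
    kap J₀ (act (t • g) j) = kap J₀ (act g j) := by
  simp only [kap, act_smul, Pi.smul_apply, smul_eq_mul, mul_pow]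
  exact mul_div_mul_left _ _ (pow_ne_zero _ h)

theorem wc_sc {l : ℂ} (h : l ≠ 0) (j : Jt ρ a) : wc J₀ (sc m l j) = wc J₀ j :=
  funext fun _ => mul_div_mul_left _ _ (pow_ne_zero _ h)

theorem nrm_sc {l : ℂ} (h : l ≠ 0) (j : Jt ρ a) : nrm J₀ m (sc m l j) = nrm J₀ m j := by
  rw [nrm, kap_sc h]
  simp only [nrm, sc, smul_smul, ← mul_pow, _root_.mul_inv_rev, inv_mul_cancel_right₀ h]

theorem bm_act (g : Mt ρ) (b : Fin (ρ + 1) → Jt ρ a) : bm (fun k => act g (b k)) = g * bm b := rfl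

theorem bm_sc (l : Fin (ρ + 1) → ℂ) (b : Fin (ρ + 1) → Jt ρ a) :
    bm (fun k => sc m (l k) (b k)) = bm b * diagonal fun k => l k.castSucc ^ m := by
  ext α k
  simp [bm, sc, mul_comm]

theorem adj_sc (l : Fin (ρ + 1) → ℂ) (b : Fin (ρ + 1) → Jt ρ a) :
    (bm fun k => sc m (l k) (b k)).adjugate =
      (diagonal fun α => ∏ k ∈ Finset.univ.erase α, l k.castSucc ^ m) * (bm b).adjugate := by
  rw [bm_sc, adjugate_mul_distrib, adjugate_diagonal]

theorem adj_act (g : Mt ρ) (b : Fin (ρ + 1) → Jt ρ a) (j : Jt ρ a) :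
    act (bm fun k => act g (b k)).adjugate (act g j) = act (g.det • (bm b).adjugate) j := by
  rw [bm_act, adjugate_mul_distrib, ← act_mul, mul_assoc, adjugate_mul, mul_smul_comm, mul_one]

theorem eqv (b : Fin (ρ + 1) → Jt ρ a) {T : Mt ρ} {l : Fin (ρ + 1) → ℂ} (hT : T.det ≠ 0)
    (hl : ∀ k, l k ≠ 0) : gm J₀ m (fun k => sc m (l k) (act T (b k))) * T = gm J₀ m b := by
  have h0 := pow_ne_zero m (hl (Fin.last ρ))
  have h1 : g1 (fun k => sc m (l k) (act T (b k))) * T = (l (Fin.last ρ) ^ m)⁻¹ • g1 b := by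
    have h2 := congrArg Prod.fst (adj_act T b (b (Fin.last ρ)))
    rw [act_smul] at h2
    simp only [g1, adj_sc]
    rw [← mul_assoc, diagonal_mul_diagonal, mul_assoc, bm_act, adjugate_mul_distrib, mul_assoc,
      adjugate_mul, mul_smul_comm, mul_smul_comm, mul_one, ← smul_mul_assoc, ← smul_mul_assoc,
      ← diagonal_smul, ← diagonal_smul]
    refine congrArg (fun d => diagonal d * _) (funext fun α => ?_)
    rw [← adjugate_mul_distrib, ← bm_act, ← mulVec_mulVec]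
    simp only [Pi.smul_apply, mulVec_diagonal]
    have h3 : ∏ k ∈ Finset.univ.erase α, l k.castSucc ^ m ≠ 0 :=
      Finset.prod_ne_zero_iff.2 fun k _ => pow_ne_zero _ (hl _)
    change T.det * ((_ * (_ *ᵥ (_ • (act T _).1)) α)⁻¹ * _) = _ * _
    rw [mulVec_smul, show _ *ᵥ (act T _).1 = _ from h2]
    change T.det * ((_ * (_ * (T.det * (_ *ᵥ _) α)))⁻¹ * _) = _
    field_simp
  rw [gm, smul_mul_assoc, act_sc, ← act_mul, h1, kap_sc (hl _), kap_smul (inv_ne_zero h0),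
    smul_smul, mul_pow, mul_right_comm, mul_inv_cancel₀ h0, one_mul, gm]

/-- the jet `j` in the frame of the adjugate matrix -/
def u (b : Fin (ρ + 1) → Jt ρ a) (j : Jt ρ a) : Jt ρ a := act (bm b).adjugate j

theorem g1_act (b : Fin (ρ + 1) → Jt ρ a) (j : Jt ρ a) : act (g1 b) j =
    (fun α => ((u b (b (Fin.last ρ))).1 α)⁻¹ * (u b j).1 α,
      fun J => (∏ k, ((u b (b (Fin.last ρ))).1 (J k))⁻¹) * (u b j).2 J) := by
  rw [g1, act_mul, act_diag]
  rfl

theorem kap_g1 {b : Fin (ρ + 1) → Jt ρ a} (h : b ∈ O1 J₀) :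
    kap J₀ (act (g1 b) (b (Fin.last ρ))) =
      (∏ k, ((u b (b (Fin.last ρ))).1 (J₀ k))⁻¹) * (u b (b (Fin.last ρ))).2 J₀ := by
  rw [g1_act, kap]
  simp only [inv_mul_cancel₀ (show (u b (b (Fin.last ρ))).1 _ ≠ 0 from h.2.1 _), one_pow, div_one]

theorem kap_ne {b : Fin (ρ + 1) → Jt ρ a} (h : b ∈ O1 J₀) :
    kap J₀ (act (g1 b) (b (Fin.last ρ))) ≠ 0 :=
  kap_g1 h ▸ mul_ne_zero (Finset.prod_ne_zero_iff.2 fun _ _ => inv_ne_zero (h.2.1 _)) h.2.2

theorem gd_iff {b : Fin (ρ + 1) → Jt ρ a} (h : b ∈ O1 J₀) (j : Jt ρ a) :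
    gd J₀ (act (gm J₀ m b) j) ↔ gd J₀ (u b j) := by
  have h1 : ∀ α, (u b (b (Fin.last ρ))).1 α ≠ 0 := h.2.1
  rw [gm, act_smul, g1_act b j]
  simp [gd, kap_ne h, h1, Finset.prod_eq_zero_iff]

/-- monomials -/
def Mon (χ : (Fin n → ℂ) → ℂ) : Prop := ∃ d : Fin n → ℕ, ∀ l, χ l = ∏ k, l k ^ d k

theorem Mon.mul {χ χ' : (Fin n → ℂ) → ℂ} : Mon χ → Mon χ' → Mon fun l => χ l * χ' l :=
  fun ⟨d, h⟩ ⟨d', h'⟩ => ⟨d + d', fun l => by simp [h, h', pow_add, Finset.prod_mul_distrib]⟩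

theorem mon (k : Fin n) (e : ℕ) : Mon fun l => l k ^ e :=
  ⟨Pi.single k e, fun l => by rw [Finset.prod_eq_single k] <;> simp +contextual⟩

theorem Mon.prod {ι : Type} (s : Finset ι) {χ : ι → (Fin n → ℂ) → ℂ} (h : ∀ i, Mon (χ i)) :
    Mon fun l => ∏ i ∈ s, χ i l := by
  choose d hd using h
  exact ⟨∑ i ∈ s, d i, fun l => by
    simp only [hd, Finset.sum_apply, ← Finset.prod_pow_eq_pow_sum]
    exact Finset.prod_comm⟩

variable {f : Prop} {O : Set (Fin n → Jt ρ a)} {Φ Ψ U V : (Fin n → Jt ρ a) → ℂ}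

/-- semi-invariants (for `f`), homogeneous functions -/
def SF (f : Prop) (m c : ℕ) (d : Fin n → ℕ) (Φ : (Fin n → Jt ρ a) → ℂ) : Prop :=
  SH m d Φ ∧ (f → ∀ (g : Mt ρ) j, Φ (fun k => act g (j k)) = g.det ^ c * Φ j)

/-- the same, for some weight -/
def P (f : Prop) (m : ℕ) (Φ : (Fin n → Jt ρ a) → ℂ) : Prop := ∃ c d, SF f m c d Φ

theorem P.of (h : ∀ j, AnalyticAt ℂ Φ j) {χ} (hχ : Mon χ)
    (h1 : ∀ (l : Fin n → ℂ) j, Φ (fun k => sc m (l k) (j k)) = χ l * Φ j) (c : ℕ)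
    (h2 : f → ∀ (g : Mt ρ) j, Φ (fun k => act g (j k)) = g.det ^ c * Φ j) : P f m Φ :=
  let ⟨d, hd⟩ := hχ
  ⟨c, d, ⟨h, fun l j => hd l ▸ h1 l j⟩, h2⟩

theorem P.mul : P f m Φ → P f m Ψ → P f m fun j => Φ j * Ψ j := fun ⟨c, d, h⟩ ⟨c', d', h'⟩ =>
  .of (fun j => (h.1.an j).mul (h'.1.an j)) (Mon.mul ⟨d, fun _ => rfl⟩ ⟨d', fun _ => rfl⟩)
    (fun l j => by rw [h.1.sc, h'.1.sc]; ring) (c + c') fun k g j => by rw [h.2 k, h'.2 k]; ring

theorem p_one : P (n := n) (ρ := ρ) (a := a) f m fun _ => 1 :=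
  ⟨0, 0, ⟨fun _ => analyticAt_const, by simp⟩, by simp⟩

theorem P.prod {ι : Type} (s : Finset ι) {Φ : ι → (Fin n → Jt ρ a) → ℂ} (h : ∀ i, P f m (Φ i)) :
    P f m fun j => ∏ i ∈ s, Φ i j := by
  classical
  induction s using Finset.induction_on with
  | empty => simpa using p_one
  | insert i s hi ih => simpa only [Finset.prod_insert hi] using (h i).mul ih

theorem P.op (h : P True m Φ) (e : ∀ j, j ∈ O ↔ Φ j ≠ 0) : Op m O :=
  let ⟨c, d, h⟩ := h
  ⟨c, d, Φ, ⟨h.1, h.2 trivial⟩, e⟩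

theorem SF.tr {c d} (h : SF f m c d Φ) {T : Mt ρ} (hT : f ∨ T = 1) (l : Fin n → ℂ) (j) :
    Φ (fun k => sc m (l k) (act T (j k))) = (∏ k, l k ^ d k) * T.det ^ c * Φ j := by
  rw [h.1.sc, mul_assoc]
  rcases hT with k | rfl
  · rw [h.2 k]
  · simp [act_one]

/-- quotients -/
def Q (f : Prop) (m : ℕ) (O : Set (Fin n → Jt ρ a)) (U : (Fin n → Jt ρ a) → ℂ) : Prop :=
  ∃ N E, P f m N ∧ P f m E ∧ ∀ j ∈ O, E j ≠ 0 ∧ U j = N j / E j

theorem P.q (h : P f m Φ) : Q f m O Φ := ⟨Φ, _, h, p_one, by simp⟩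

theorem Q.congr (h : Q f m O U) (e : ∀ j ∈ O, V j = U j) : Q f m O V :=
  let ⟨N, E, a, b, c⟩ := h
  ⟨N, E, a, b, fun j k => ⟨(c j k).1, (e j k).trans (c j k).2⟩⟩

theorem Q.mul : Q f m O U → Q f m O V → Q f m O fun j => U j * V j :=
  fun ⟨_, _, a, b, c⟩ ⟨_, _, a', b', c'⟩ => ⟨_, _, a.mul a', b.mul b', fun j k =>
    ⟨mul_ne_zero (c j k).1 (c' j k).1, by simp only [(c j k).2, (c' j k).2, div_mul_div_comm]⟩⟩

theorem Q.inv (h : Q f m O U) (h0 : ∀ j ∈ O, U j ≠ 0) : Q f m O fun j => (U j)⁻¹ :=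
  let ⟨N, E, a, b, c⟩ := h
  ⟨E, N, b, a, fun j k => ⟨fun e => h0 j k (by rw [(c j k).2, e, zero_div]),
    by simp only [(c j k).2, inv_div]⟩⟩

theorem Q.prod {ι : Type} (s : Finset ι) {U : ι → (Fin n → Jt ρ a) → ℂ} (h : ∀ i, Q f m O (U i)) :
    Q f m O fun j => ∏ i ∈ s, U i j := by
  classical
  induction s using Finset.induction_on with
  | empty => simpa using p_one.q
  | insert i s hi ih => simpa only [Finset.prod_insert hi] using (h i).mul ih

theorem Q.pow (h : Q f m O U) (e : ℕ) : Q f m O fun j => U j ^ e := by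
  simpa using Q.prod (Finset.range e) fun _ => h

theorem Q.fin (hρ : 0 < ρ) (hO : Op m O) (h : Q f m O U) (hU : ∀ j ∈ O, ∀ (T : Mt ρ) (l : Fin n → ℂ),
    T.det ≠ 0 → (∀ k, l k ≠ 0) → f ∨ T = 1 → U (fun k => sc m (l k) (act T (j k))) = U j) :
    ∃ c d N E, SF f m c d N ∧ SF f m c d E ∧ ∀ j ∈ O, E j ≠ 0 ∧ U j = N j / E j := by
  obtain ⟨N, E, ⟨c', d', h1⟩, ⟨c, d, h2⟩, h3⟩ := h
  by_cases h0 : ∀ j ∈ O, N j = 0
  · exact ⟨c, d, fun _ => 0, E, ⟨⟨fun _ => analyticAt_const, by simp⟩, by simp⟩, h2,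
      fun j k => ⟨(h3 j k).1, by rw [(h3 j k).2, h0 j k]⟩⟩
  push Not at h0
  obtain ⟨j, k1, k2⟩ := h0
  obtain ⟨c₀, d₀, D, k3, k4⟩ := hO
  have h4 : ∀ (T : Mt ρ) (l : Fin n → ℂ), T.det ≠ 0 → (∀ k, l k ≠ 0) → f ∨ T = 1 →
      (∏ k, l k ^ d' k) * T.det ^ c' = (∏ k, l k ^ d k) * T.det ^ c := fun T l a b e => by
    have h5 : ∀ (d : Fin n → ℕ) c, (∏ k, l k ^ d k) * T.det ^ c ≠ 0 := fun d c => mul_ne_zero
      (Finset.prod_ne_zero_iff.2 fun k _ => pow_ne_zero _ (b k)) (pow_ne_zero _ a)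
    have h6 := (h3 _ ((k4 _).2 (SF.tr (f := True) ⟨k3.toSH, fun _ => k3.act⟩ (.inl trivial) l j ▸
      mul_ne_zero (h5 _ _) ((k4 j).1 k1)))).2
    rw [hU j k1 T l a b e, (h3 j k1).2, h1.tr e, h2.tr e, mul_div_mul_comm, eq_comm,
      mul_eq_right₀ (div_ne_zero k2 (h3 j k1).1), div_eq_one_iff_eq (h5 _ _)] at h6
    exact h6
  have h7 : ∀ x y : ℕ, (2 : ℂ) ^ x = 2 ^ y → x = y := fun x y e =>
    Nat.pow_right_injective le_rfl (by exact_mod_cast e)
  obtain rfl : d' = d := funext fun k => h7 _ _ (by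
    have := h4 1 (Pi.mulSingle k 2) (by simp) (fun k' => by
      by_cases e : k' = k <;> simp [e]) (.inr rfl)
    rwa [det_one, one_pow, one_pow, mul_one, mul_one, Finset.prod_eq_single k (by simp +contextual)
      (by simp), Finset.prod_eq_single k (by simp +contextual) (by simp), Pi.mulSingle_eq_same] at this)
  refine ⟨c, d', N, E, ⟨h1.1, fun e => ?_⟩, h2, h3⟩
  have := h4 ((2 : ℂ) • 1) 1 (by simp) (by simp) (.inl e)
  simp only [Pi.one_apply, one_pow, Finset.prod_const_one, one_mul, det_smul, det_one, mul_one,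
    Fintype.card_fin, ← pow_mul] at this
  exact Nat.eq_of_mul_eq_mul_left hρ (h7 _ _ this) ▸ h1.2 e

theorem an1 (k : Fin n) (α) (j) : AnalyticAt ℂ (fun j : Fin n → Jt ρ a => (j k).1 α) j :=
  ((ContinuousLinearMap.proj α).comp ((ContinuousLinearMap.fst ℂ _ _).comp
    (ContinuousLinearMap.proj (R := ℂ) (φ := fun _ : Fin n => Jt ρ a) k))).analyticAt j

theorem an2 (k : Fin n) (J) (j) : AnalyticAt ℂ (fun j : Fin n → Jt ρ a => (j k).2 J) j :=
  ((ContinuousLinearMap.proj J).comp ((ContinuousLinearMap.snd ℂ _ _).comp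
    (ContinuousLinearMap.proj (R := ℂ) (φ := fun _ : Fin n => Jt ρ a) k))).analyticAt j

theorem an_det {M : (Fin n → Jt ρ a) → Mt ρ} {j} (h : ∀ α β, AnalyticAt ℂ (fun j => M j α β) j) :
    AnalyticAt ℂ (fun j => (M j).det) j := by
  simp only [det_apply']
  exact Finset.analyticAt_fun_sum _ fun _ _ =>
    analyticAt_const.mul (Finset.analyticAt_fun_prod _ fun _ _ => h _ _)

variable (bs : Fin (ρ + 1) → Fin n) (k : Fin n)

theorem an_adj (α β) (j) :
    AnalyticAt ℂ (fun j : Fin n → Jt ρ a => (bm fun l => j (bs l)).adjugate α β) j := by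
  simp only [adjugate_apply]
  refine an_det fun α' β' => ?_
  simp only [updateRow_apply]
  split_ifs
  exacts [analyticAt_const, an1 _ _ _]

theorem mon_d (α : Fin ρ) :
    Mon fun l : Fin n → ℂ => ∏ k ∈ Finset.univ.erase α, l (bs k.castSucc) ^ m :=
  Mon.prod _ fun _ => mon _ _

theorem p_det : P True m fun j : Fin n → Jt ρ a => (bm fun l => j (bs l)).det :=
  .of (fun _ => an_det fun _ _ => an1 _ _ _) (Mon.prod Finset.univ fun k : Fin ρ => mon (bs k.castSucc) m)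
    (fun l j => by rw [bm_sc fun k => l (bs k), det_mul, det_diagonal, mul_comm]) 1
    fun _ g j => by rw [bm_act, det_mul, pow_one]

theorem p_adj (α β) : P False m fun j : Fin n → Jt ρ a => (bm fun l => j (bs l)).adjugate α β :=
  .of (an_adj bs α β) (mon_d bs α) (fun l j => by rw [adj_sc fun k => l (bs k), diagonal_mul]) 0
    False.elim

theorem p_u1 (α) : P f m fun j : Fin n → Jt ρ a => (u (fun l => j (bs l)) (j k)).1 α :=
  .of (fun j => Finset.analyticAt_fun_sum Finset.univ fun β _ => (an_adj bs α β j).mul (an1 k β j))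
    ((mon k m).mul (mon_d bs α)) (fun l j => by
      rw [u, adj_sc fun k => l (bs k), act_sc, act_mul, act_diag]
      exact (mul_assoc _ _ _).symm) 1 fun _ g j => by rw [u, adj_act, act_smul, pow_one]; rfl

theorem p_u2 (J) : P f m fun j : Fin n → Jt ρ a => (u (fun l => j (bs l)) (j k)).2 J :=
  .of (fun _ => Finset.analyticAt_fun_sum _ fun _ _ =>
      (Finset.analyticAt_fun_prod _ fun _ _ => an_adj bs _ _ _).mul (an2 _ _ _))
    ((mon k _).mul (Mon.prod Finset.univ fun i => mon_d bs (J i))) (fun l j => by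
      rw [u, adj_sc fun k => l (bs k), act_sc, act_mul, act_diag]
      exact (mul_assoc _ _ _).symm) (a + 1) fun _ g j => by rw [u, adj_act, act_smul]; rfl

theorem p_O1 : ∃ D, P True m D ∧ ∀ j : Fin n → Jt ρ a, (fun l => j (bs l)) ∈ O1 J₀ ↔ D j ≠ 0 :=
  ⟨_, (p_det bs).mul ((P.prod Finset.univ (p_u1 bs (bs (Fin.last ρ)))).mul
    (p_u2 bs (bs (Fin.last ρ)) J₀)), fun j => by
      simp only [mul_ne_zero_iff, Finset.prod_ne_zero_iff, Finset.mem_univ, forall_const]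
      rfl⟩

variable (hO : ∀ j ∈ O, (fun l => j (bs l)) ∈ O1 J₀)
include hO

theorem q_ls (α) : Q f m O fun j => ((u (fun l => j (bs l)) (j (bs (Fin.last ρ)))).1 α)⁻¹ :=
  (p_u1 bs _ α).q.inv fun j h => (hO j h).2.1 α

theorem q_kap : Q f m O fun j => kap J₀ (act (g1 fun l => j (bs l)) (j (bs (Fin.last ρ)))) :=
  ((Q.prod _ fun i => q_ls bs hO (J₀ i)).mul (p_u2 bs _ J₀).q).congr fun j h => kap_g1 (hO j h)

theorem q_f1 (α) : Q f m O fun j => (fj J₀ m bs k j).1 α :=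
  (((q_kap bs hO).pow m).mul ((q_ls bs hO α).mul (p_u1 bs k α).q)).congr fun j _ => by
    rw [fj, gm, act_smul, g1_act _ (j k)]; rfl

theorem q_f2 (J) : Q f m O fun j => (fj J₀ m bs k j).2 J :=
  ((((q_kap bs hO).pow m).pow (a + 1)).mul ((Q.prod _ fun i => q_ls bs hO (J i)).mul
    (p_u2 bs k J).q)).congr fun j _ => by rw [fj, gm, act_smul, g1_act _ (j k)]; rfl

end FrmH

open FrmH

theorem frm : FRM := by
  intro ρ a m J₀
  have hρ := (J₀ 0).pos
  have h1 : Op m (O1 J₀) := let ⟨_, h, e⟩ := p_O1 (J₀ := J₀) (m := m) id; h.op e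
  refine ⟨h1, fun α β => ?_, fun b _ T l => eqv b, fun b h => ?_, fun n bs k => ?_⟩
  · obtain ⟨c, d, N, E, a1, a2, a3⟩ := Q.fin (f := False) (U := fun b => gm J₀ m b α β) hρ h1
      ((((q_kap id fun _ => id).pow m).mul ((q_ls id (fun _ => id) α).mul (p_adj id α β).q)).congr
        fun j _ => by rw [gm, Matrix.smul_apply, g1, diagonal_mul]; rfl) fun j _ T l a b c => by
          obtain rfl := c.resolve_left id
          rw [← eqv j a b, mul_one]
    exact ⟨d, N, E, a1.1, a2.1, a3⟩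
  · have h2 : ∀ α, (gm J₀ m b *ᵥ (b (Fin.last ρ)).1) α = kap J₀ (act (g1 b) (b (Fin.last ρ))) ^ m :=
      fun α => by
        rw [gm, smul_mulVec, g1, ← mulVec_mulVec, Pi.smul_apply, mulVec_diagonal,
          inv_mul_cancel₀ (h.2.1 α), smul_eq_mul, mul_one]
    refine ⟨?_, (gd_iff h _).2 ⟨h.2.1 _, h.2.2⟩, fun k α e => ?_, fun α β => (h2 α).trans (h2 β).symm⟩
    · rw [gm, det_smul, g1, det_mul, det_diagonal, det_adjugate]
      exact mul_ne_zero (pow_ne_zero _ (pow_ne_zero _ (kap_ne h))) (mul_ne_zero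
        (Finset.prod_ne_zero_iff.2 fun k _ => inv_ne_zero (h.2.1 k)) (pow_ne_zero _ h.1))
    · change (gm J₀ m b * bm b) α k = 0
      rw [gm, smul_mul_assoc, g1, mul_assoc, adjugate_mul]
      simp [e]
  obtain ⟨D, d1, d2⟩ := p_O1 (J₀ := J₀) (m := m) bs
  have h2 : Op m {j | (fun l => j (bs l)) ∈ O1 J₀ ∧ gd J₀ (fj J₀ m bs k j)} :=
    (d1.mul ((p_u1 bs k (J₀ 0)).mul (p_u2 bs k J₀))).op fun j => by
      rw [mul_ne_zero_iff, mul_ne_zero_iff, ← d2]
      exact and_congr_right fun h => gd_iff h _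
  have h3 : ∀ (j : Fin n → Jt ρ a) (T : Mt ρ) (l : Fin n → ℂ), T.det ≠ 0 → (∀ k, l k ≠ 0) →
      fj J₀ m bs k (fun k => sc m (l k) (act T (j k))) = sc m (l k) (fj J₀ m bs k j) :=
    fun j T l a b => by
      rw [fj, act_sc, ← act_mul, eqv (fun l => j (bs l)) a fun k => b (bs k), fj]
  have h4 : ∀ U, Q True m _ U → _ → IV m _ U := fun U a b =>
    let ⟨c, d, N, E, a1, a2, a3⟩ := Q.fin hρ h2 a b
    ⟨c, d, N, E, ⟨a1.1, a1.2 trivial⟩, ⟨a2.1, a2.2 trivial⟩, a3⟩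
  have h5 := (q_f1 (f := True) (m := m) bs k
    (O := {j | _ ∧ gd J₀ (fj J₀ m bs k j)}) (fun _ h => h.1) (J₀ 0)).inv fun _ h => h.2.1
  have h6 := ((q_f2 bs k (fun _ h => h.1) J₀).mul (h5.pow (a + 1))).inv fun _ h =>
    mul_ne_zero h.2.2 (pow_ne_zero _ (inv_ne_zero h.2.1))
  refine ⟨h2, fun b => h4 _ ?_ fun j _ T l a b _ => by rw [h3 j T l a b, nrm_sc (b k)],
    fun i => h4 _ (((q_f1 bs k (fun _ h => h.1) (J₀ i.succ)).mul h5).congr fun j _ => div_eq_mul_inv _ _)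
      fun j _ T l a b _ => by rw [h3 j T l a b, wc_sc (b k)]⟩
  rcases b with α | J
  · exact ((h6.pow m).mul (q_f1 bs k (fun _ h => h.1) α)).congr fun j _ => by
      simp [crd, nrm, sc, kap, div_eq_mul_inv]
  · exact ((h6.pow ((a + 1) * m + 1)).mul (q_f2 bs k (fun _ h => h.1) J)).congr fun j _ => by
      simp [crd, nrm, sc, kap, div_eq_mul_inv]

end Vale.Agent.P281Z.Ga
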