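import Vale.Agent.P281Z.Ga.Sk
import Vale.Agent.P281Z.Mf.Adj
import Vale.Agent.P281Z.Sc.Sy

/-!
# P281Z, block III, part A: there is an immersive point (row IMM0)
-/

open scoped Manifold ContDiff Topology Matrix
open Set Filter
open Vale.Agent.P272.K Vale.Agent.P285.H281.FD
open Vale.Agent.P277Z (Hol at_chart)
open Vale.Agent.P277Z.Slc (Ind dd isLB_can dd_congr ind_iff_surj)
open Vale.Agent.P277.HD (pull)

noncomputable section

namespace Vale.Agent.P281Z.Ga

namespace Im0

variable {ρ a : ℕ}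

theorem det_exp (c v : Fin (a + 1) → Cm ρ) : (Matrix.of fun b l => c b ⬝ᵥ v l).det =
    ∑ J : Fin (a + 1) → Fin ρ, (∏ b, c b (J b)) * pl v J := by
  have h : (Matrix.of fun b l => c b ⬝ᵥ v l) = fun b => ∑ α, c b α • fun l => v l α := by
    funext b l
    simp only [Matrix.of_apply, dotProduct, Finset.sum_apply, Pi.smul_apply, smul_eq_mul]
  rw [h]
  refine (Matrix.detRowAlternating.toMultilinearMap.map_sum _).trans
    (Finset.sum_congr rfl fun J _ => ?_)
  exact Matrix.detRowAlternating.toMultilinearMap.map_smul_univ _ _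

/-- a linear form in the values -/
def lf (c : Cm ρ) : Jt ρ a →L[ℂ] ℂ := LinearMap.toContinuousLinearMap
  { toFun := fun j => c ⬝ᵥ j.1
    map_add' := fun _ _ => dotProduct_add _ _ _
    map_smul' := fun _ _ => dotProduct_smul _ _ _ }

end Im0

open Im0

/-- **IMM0** -/
theorem imm0 : IMM0 := by
  intro p a m ρ M R hM hF
  obtain ⟨y, hy, F, u, hu, hK⟩ := Oft.ex hF R.thin.neg
  have hf := hM.ok.fibn.hol
  have hs : ∀ x, M.f x = y → Sbm (p + a) p M.f x := fun _ => (R.reg y hy).sbm hf hM.ok.snc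
  have hG := Hyp.of_snc hM.ok.snc
  have hL := hu.hol.lb (isLB_can (n := p + a) (W := M.X.X))
  obtain ⟨t, ht, z, hz, hR⟩ := Sy.of_cls hG hu.hol.cont (lb_pow hL m) (lb_pow isLB_can m)
    (kapM_iff.1 hK) (by rw [cls_pow hL, cls_pow isLB_can,
      (cls_eq isLB_can hL).2 (adj_iso hu hf hs)]) fun _ => le_rfl
  have he : At (cx (u z)) (u z) := at_chart _
  obtain ⟨h0, hI⟩ := RkAt.frame hG hu.hol.cont (lb_pow hL m) ht hz hR (a := cx (u z)) he
  have hyz : M.f (u z) = y := hu.fib z
  refine ⟨u z, hyz ▸ hy, hz, fun hJ => ?_⟩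
  have hi := R.fr_mem (M.f (u z))
  choose c hc using fun b => R.span (R.fr (M.f (u z))) y (by rw [← hyz]; exact hi) hy a F u hu
    (t b) (ht b)
  obtain ⟨ξ, κ, k1, k2, k3, -, k4⟩ := R.der _ _ _ hi (hyz ▸ hy) he hz
  have hA := R.hol _ _ _ hi he hz
  rw [JS.J] at hJ
  generalize R.j (R.fr (M.f (u z))) = j at hc k4 hA hJ
  have hD := (hA _ he).differentiableAt.hasFDerivAt
  obtain ⟨w, w0, hw⟩ := Matrix.exists_mulVec_eq_zero_iff.2 ((det_exp c _).trans
    (Finset.sum_eq_zero fun J _ => mul_eq_zero_of_right _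
      (congrFun ((smul_eq_zero.1 (k4.symm.trans hJ)).resolve_left k1) J)))
  have hT : ∀ b, Hol (p + a) (fun x => lf (c b) (j (cx (u z)) x)) (u z) :=
    fun b => hA.cmp ((lf (c b)).analyticAt _)
  have hk : At (chartAt (Cm a) z) z := at_chart z
  obtain ⟨η, hη⟩ := (hu.fib_ker hf (hs _ hyz) hk he (R.atc _ _ hi) (∑ l, w l.succ • ξ l)).1
    ((k3 _).2 (Submodule.sum_mem _ fun l _ =>
      Submodule.smul_mem _ _ (Submodule.subset_span (mem_range_self l))))
  have h1 : ∀ b, dd (t b (cx (u z))) (chartAt (Cm a) z) z η = -(w 0 * t b (cx (u z)) z) := by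
    intro b
    have h2 : ∀ᶠ x in 𝓝 z, t b (cx (u z)) x = lf (c b) (j (cx (u z)) (u x)) := by
      filter_upwards [hu.hol.cont.continuousAt.eventually
        ((at_near he).and (hG.isOpen.mem_nhds hz))] with x hx using hc b x _ hx.2 hx.1
    have h3 := congrFun hw b
    rw [dd_congr h2 hk, dd_comp (hT b) (hu.hol.at z) hk he, ContinuousLinearMap.comp_apply, hη,
      hc b z _ hz he, show dd (fun x => lf (c b) (j (cx (u z)) x)) (cx (u z)) (u z) = _ from
        ((lf (c b)).hasFDerivAt.comp _ hD).fderiv, map_sum]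
    simp only [Matrix.mulVec, Matrix.of_apply, Pi.zero_apply] at h3
    rw [dotProduct, Fin.sum_univ_succ] at h3
    simp only [Fin.cons_zero, Fin.cons_succ] at h3
    rw [eq_neg_iff_add_eq_zero, add_comm, mul_comm, ← h3]
    exact congrArg _ (Finset.sum_congr rfl fun l _ => by rw [map_smul, smul_eq_mul, mul_comm]; rfl)
  have h4 : η = 0 := LinearMap.injective_iff_surjective.2 ((ind_iff_surj _).1 (hI.2 _ hk)) (by
    rw [map_zero]
    funext b
    have hh := fun b => (ht b).hol (cx (u z)) z (mem_univ z) he hz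
    refine (dd_div (hh _) (hh _) h0 hk η).trans ?_
    rw [h1, h1, Pi.zero_apply]
    ring)
  rw [h4, map_zero] at hη
  have h5 := Fintype.linearIndependent_iff.1 k2 _ hη.symm
  have h6 := h1 0
  rw [h4, map_zero, zero_eq_neg, mul_eq_zero, or_iff_left h0] at h6
  exact w0 (funext (Fin.cases h6 h5))

end Vale.Agent.P281Z.Ga
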