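import Vale.Agent.P281Z.Ga.Sk
import Vale.Agent.P281Z.U1.Detx
import Vale.Agent.P281Z.Sc.Riem

/-!
# P281Z, block III, part A: jet systems exist
-/

open scoped Manifold ContDiff Topology Matrix
open Set Filter Function
open Vale.Agent.P272.K Vale.Agent.P285.H281.FD
open Vale.Agent.P277Z (Hol jd at_chart hol_const)
open Vale.Agent.P277Z.Slc (LEq Snc dd dd_congr isLB_can)

set_option linter.unusedSectionVars false

noncomputable section

namespace Vale.Agent.P281Z.Ga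

open Gt

namespace Jsx

section alg

variable {ρ a p : ℕ}

theorem pl_mulVec (g : Mt ρ) (v : Fin (a + 1) → Cm ρ) (J : Fin (a + 1) → Fin ρ) :
    pl (fun l => g *ᵥ v l) J = ∑ J' : Fin (a + 1) → Fin ρ, (∏ k, g (J k) (J' k)) * pl v J' := by
  unfold pl
  rw [← Matrix.det_transpose, Matrix.det_apply']
  simp only [Matrix.transpose_apply, Matrix.of_apply, Matrix.mulVec, dotProduct,
    Finset.prod_univ_sum, Fintype.piFinset_univ, Finset.mul_sum]
  rw [Finset.sum_comm]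
  refine Finset.sum_congr rfl fun J' _ => ?_
  rw [← Matrix.det_transpose, Matrix.det_apply', Finset.mul_sum]
  refine Finset.sum_congr rfl fun τ _ => ?_
  simp only [Matrix.transpose_apply, Matrix.of_apply, Finset.prod_mul_distrib]
  ring

theorem pl_cons (u : ℂ) (b : Fin a → ℂ) (w₀ : Cm ρ) (w : Fin a → Cm ρ) (J : Fin (a + 1) → Fin ρ) :
    pl (Fin.cons (u • w₀) fun l => b l • w₀ + u • w l) J = u ^ (a + 1) * pl (Fin.cons w₀ w) J := by
  let C : Matrix (Fin (a + 1)) (Fin (a + 1)) ℂ := Matrix.of fun r l =>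
    (if r = l then u else 0) + if r = 0 then (Fin.cons 0 b : Fin (a + 1) → ℂ) l else 0
  have hC : C.det = u ^ (a + 1) := by
    rw [Matrix.det_of_upperTriangular (M := C) fun r l h => by
      have h1 : l < r := h
      simp [C, h1.ne', (lt_of_le_of_lt (Fin.zero_le l) h1).ne']]
    have h2 : ∀ r, C r r = u := fun r => by
      refine Fin.cases ?_ (fun r => ?_) r <;> simp [C]
    simp [h2]
  unfold pl
  rw [← hC, mul_comm, ← Matrix.det_mul]
  refine congrArg Matrix.det (Matrix.ext fun k l => ?_)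
  simp only [Matrix.mul_apply, Matrix.of_apply, C, mul_add, Finset.sum_add_distrib, mul_ite,
    mul_zero, Finset.sum_ite_eq', Finset.mem_univ, if_true]
  refine Fin.cases ?_ (fun l => ?_) l
  · simp [mul_comm]
  · simp [mul_comm, add_comm]

theorem ex_basis {V : Type} [AddCommGroup V] [Module ℂ V] [Module.Finite ℂ V] (K : Submodule ℂ V)
    (h : Module.finrank ℂ K = a) :
    ∃ ξ : Fin a → V, LinearIndependent ℂ ξ ∧ Submodule.span ℂ (range ξ) = K := by
  let b := Module.finBasisOfFinrankEq ℂ K h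
  refine ⟨K.subtype ∘ b, b.linearIndependent.map' _ (Submodule.ker_subtype _), ?_⟩
  rw [range_comp, Submodule.span_image, b.span_eq, Submodule.map_subtype_top]

theorem vb_alg (σ : Fin p ⊕ Fin a ≃ Fin (p + a)) (A : Matrix (Fin p) (Fin (p + a)) ℂ) :
    ∃ (ξ : Fin a → Cm (p + a)) (c : ℂ), (∀ l, A *ᵥ ξ l = 0) ∧
      (∀ R : Matrix (Fin a) (Fin (p + a)) ℂ,
        detR σ A R = c * (Matrix.of fun k l => (R *ᵥ ξ l) k).det) ∧
      (Surjective A.mulVec → c ≠ 0 ∧ LinearIndependent ℂ ξ ∧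
        ∀ v, A *ᵥ v = 0 ↔ v ∈ Submodule.span ℂ (range ξ)) := by
  by_cases hA : Surjective A.mulVec
  · have h1 : Module.finrank ℂ (LinearMap.ker A.mulVecLin) = a := by
      have h := LinearMap.finrank_range_add_finrank_ker A.mulVecLin
      rw [LinearMap.range_eq_top.2 hA, finrank_top, Module.finrank_fin_fun,
        Module.finrank_fin_fun] at h
      omega
    obtain ⟨ξ, hi, hs⟩ := ex_basis _ h1
    have h0 : ∀ l, A *ᵥ ξ l = 0 := fun l =>
      LinearMap.mem_ker.1 (hs ▸ Submodule.subset_span (mem_range_self l))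
    let B : Matrix (Fin (p + a)) (Fin a) ℂ := Matrix.of fun i l => ξ l i
    have hB : ∀ {q : ℕ} (R : Matrix (Fin q) (Fin (p + a)) ℂ),
        R * B = Matrix.of fun k l => (R *ᵥ ξ l) k := fun R => rfl
    have hAB : A * B = 0 := by
      rw [hB]
      ext k l
      rw [Matrix.of_apply, h0]
      rfl
    obtain ⟨N, hN⟩ := Matrix.mulVec_surjective_iff_exists_right_inverse.1 hA
    obtain ⟨L, hL⟩ := (Matrix.toLin' B).exists_leftInverse_of_injective
      (LinearMap.ker_eq_bot.2 (Matrix.mulVec_injective_iff.2 hi))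
    have hR : LinearMap.toMatrix' L * B = 1 := by
      rw [← LinearMap.toMatrix'_toLin' B, ← LinearMap.toMatrix'_comp, hL, LinearMap.toMatrix'_id]
    have hc : detC σ N B ≠ 0 := by
      have h := detR_mul_detC σ hN hAB (LinearMap.toMatrix' L)
      rw [hR, Matrix.det_one] at h
      exact right_ne_zero_of_mul_eq_one h
    refine ⟨ξ, (detC σ N B)⁻¹, h0, fun R => ?_, fun _ => ⟨inv_ne_zero hc, hi, fun v => ?_⟩⟩
    · rw [← hB, ← detR_mul_detC σ hN hAB R, mul_comm, mul_inv_cancel_right₀ hc]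
    · rw [hs]
      rfl
  · refine ⟨0, 0, fun l => Matrix.mulVec_zero _, fun R => ?_, fun h => (hA h).elim⟩
    rw [zero_mul]
    by_contra h
    refine hA fun y => ?_
    obtain ⟨v, hv⟩ := Matrix.mulVec_surjective_iff_isUnit.2
      ((Matrix.isUnit_iff_isUnit_det _).2 (isUnit_iff_ne_zero.2 h))
      fun i => Sum.elim y 0 (σ.symm i)
    refine ⟨v, funext fun c => ?_⟩
    have h1 := congrFun hv (σ (.inl c))
    simpa [Matrix.mulVec, dotProduct] using h1

theorem norm_pair_le {E F : Type} [SeminormedAddCommGroup E] [SeminormedAddCommGroup F] {x : E}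
    {y : F} {A B : ℝ} (h1 : ‖x‖ ≤ A) (h2 : ‖y‖ ≤ B) : ‖(x, y)‖ ≤ max A B :=
  max_le_max h1 h2

end alg

section dd

variable {n : ℕ} {X : Type} [TopologicalSpace X] [ChartedSpace (Cm n) X] {x : X} {e : Chart n X}

theorem dd_mul {u w : X → ℂ} (hu : Hol n u x) (hw : Hol n w x) (he : At e x) (v : Cm n) :
    dd (fun y => u y * w y) e x v = dd u e x v * w x + u x * dd w e x v := by
  unfold dd
  rw [fderiv_fun_mul (hu e he).differentiableAt (hw e he).differentiableAt, e.left_inv he.2]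
  simp only [add_apply, smul_apply, smul_eq_mul]
  ring

theorem dd_sum {ι : Type} [Fintype ι] {u : ι → X → ℂ} (hu : ∀ i, Hol n (u i) x) (he : At e x)
    (v : Cm n) : dd (fun y => ∑ i, u i y) e x v = ∑ i, dd (u i) e x v := by
  unfold dd
  rw [fderiv_fun_sum fun i _ => (hu i e he).differentiableAt, sum_apply]

end dd

section wr

variable {p a ρ : ℕ} {M : Fb (p + a) p}

/-- the relative Wronskians -/
def W (s : M.X.X → Cm ρ) (e : Chart (p + a) M.X.X) (e' : Chart p M.Y.X) (x : M.X.X)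
    (J : Fin (a + 1) → Fin ρ) : ℂ :=
  ∑ k : Fin (a + 1), (-1) ^ (k : ℕ) * s x (J k) * jdw (fun i y => s y (J (k.succAbove i))) e e' x

/-- the derivative of a vector of functions -/
def D (s : M.X.X → Cm ρ) (e : Chart (p + a) M.X.X) (x : M.X.X) (v : Cm (p + a)) : Cm ρ :=
  fun α => dd (fun y => s y α) e x v

/-- vertical vectors which compute the Jacobian determinants -/
structure VB (e : Chart (p + a) M.X.X) (e' : Chart p M.Y.X) (x : M.X.X) (ξ : Fin a → Cm (p + a))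
    (c : ℂ) : Prop where
  ker : ∀ l, df M.f e e' x (ξ l) = 0
  jd : ∀ w : Fin a → M.X.X → ℂ, (∀ k, Hol (p + a) (w k) x) →
    jdw w e e' x = c * (Matrix.of fun k l => dd (w k) e x (ξ l)).det

variable {s s' : M.X.X → Cm ρ} {e e₁ : Chart (p + a) M.X.X} {e' e₁' : Chart p M.Y.X} {x : M.X.X}
  {ξ : Fin a → Cm (p + a)} {c : ℂ}

theorem ex_vb (hf : HolA (p + a) p M.f x) (he : At e x) (he' : At e' (M.f x)) :
    ∃ ξ c, VB e e' x ξ c ∧ (Sbm (p + a) p M.f x → c ≠ 0 ∧ LinearIndependent ℂ ξ ∧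
      ∀ v, df M.f e e' x v = 0 ↔ v ∈ Submodule.span ℂ (range ξ)) := by
  obtain ⟨ξ, c, h1, h2, h3⟩ := vb_alg finSumFinEquiv (dfM M.f e e' x)
  simp only [dfM_mulVec] at h1 h3
  refine ⟨ξ, c, ⟨h1, fun w hw => ?_⟩, fun h => h3 ?_⟩
  · rw [U1.Detx.jdw_eq hf hw he he', h2]
    refine congrArg (c * ·) (congrArg Matrix.det (Matrix.ext fun k l => ?_))
    rw [Matrix.of_apply, Matrix.of_apply, U1.Detx.dW, dfM_mulVec]
    exact df_apply (Thn.holA_cm hw) he (U1.Detx.at_refl _) _ k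
  · rw [show (dfM M.f e e' x).mulVec = df M.f e e' x from funext dfM_mulVec]
    exact h e e' he he'

theorem VB.W_eq (h : VB e e' x ξ c) (hs : ∀ α, Hol (p + a) (fun y => s y α) x) :
    W s e e' x = c • pl (Fin.cons (s x) fun l => D s e x (ξ l)) := by
  funext J
  rw [Pi.smul_apply, smul_eq_mul, pl, Matrix.det_succ_column_zero, Finset.mul_sum, W]
  refine Finset.sum_congr rfl fun k _ => ?_
  rw [h.jd _ fun i => hs _, mul_left_comm]
  rfl

theorem W_congr (hf : HolA (p + a) p M.f x) (he : At e x) (he' : At e' (M.f x))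
    (hs : ∀ α, Hol (p + a) (fun y => s y α) x) (k : ∀ᶠ y in 𝓝 x, s y = s' y) :
    W s e e' x = W s' e e' x := by
  obtain ⟨ξ, c, h, -⟩ := ex_vb hf he he'
  have k' : ∀ α, ∀ᶠ y in 𝓝 x, s y α = s' y α := fun α => k.mono fun y hy => congrFun hy α
  have h1 : D s e x = D s' e x := funext fun v => funext fun α => by
    rw [D, D, dd_congr (k' α) he]
  rw [h.W_eq hs, h.W_eq fun α => (hs α).congr (k' α), h1, k.self_of_nhds]

theorem W_smul (hf : HolA (p + a) p M.f x) (he : At e x) (he' : At e' (M.f x))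
    (hs : ∀ α, Hol (p + a) (fun y => s y α) x) {u : M.X.X → ℂ} (hu : Hol (p + a) u x) :
    W (fun y => u y • s y) e e' x = u x ^ (a + 1) • W s e e' x := by
  obtain ⟨ξ, c, h, -⟩ := ex_vb hf he he'
  have h1 : ∀ v, D (fun y => u y • s y) e x v = dd u e x v • s x + u x • D s e x v := fun v =>
    funext fun α => dd_mul hu (hs α) he v
  rw [h.W_eq hs, h.W_eq (s := fun y => u y • s y) fun α => hu.mul (hs α)]
  funext J
  simp only [h1, Pi.smul_apply, smul_eq_mul]
  rw [pl_cons, mul_left_comm]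

theorem hol_mulVec (hf : HolA (p + a) p M.f x) (hs : ∀ α, Hol (p + a) (fun y => s y α) x)
    {g : M.Y.X → Mt ρ} (hg : ∀ α β, Hol p (fun y => g y α β) (M.f x)) (α : Fin ρ) :
    Hol (p + a) (fun y => (g (M.f y) *ᵥ s y) α) x :=
  Hol.sum Finset.univ (f := fun β y => g (M.f y) α β * s y β) fun β _ =>
    (hf.hol (hg α β)).mul (hs β)

theorem W_act (hf : HolA (p + a) p M.f x) (he : At e x) (he' : At e' (M.f x))
    (hs : ∀ α, Hol (p + a) (fun y => s y α) x) {g : M.Y.X → Mt ρ}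
    (hg : ∀ α β, Hol p (fun y => g y α β) (M.f x)) :
    W (fun y => g (M.f y) *ᵥ s y) e e' x = (act (g (M.f x)) (s x, W s e e' x)).2 := by
  obtain ⟨ξ, c, h, -⟩ := ex_vb hf he he'
  have h1 : ∀ l, D (fun y => g (M.f y) *ᵥ s y) e x (ξ l) = g (M.f x) *ᵥ D s e x (ξ l) := fun l =>
    funext fun α => by
      refine (dd_sum (u := fun β y => g (M.f y) α β * s y β)
        (fun β => (hf.hol (hg α β)).mul (hs β)) he _).trans (Finset.sum_congr rfl fun β _ => ?_)
      rw [dd_mul (hf.hol (hg α β)) (hs β) he, dd_comp (hg α β) hf he he',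
        ContinuousLinearMap.comp_apply, h.ker, map_zero, zero_mul, zero_add]
      rfl
  have h2 : (Fin.cons (g (M.f x) *ᵥ s x) fun l => g (M.f x) *ᵥ D s e x (ξ l) :
      Fin (a + 1) → Cm ρ) = fun l => g (M.f x) *ᵥ
        (Fin.cons (s x) fun l => D s e x (ξ l) : Fin (a + 1) → Cm ρ) l :=
    funext fun l => Fin.cases rfl (fun _ => rfl) l
  rw [h.W_eq hs, h.W_eq (hol_mulVec hf hs hg)]
  funext J
  simp only [h1, act, Pi.smul_apply, smul_eq_mul]
  rw [h2, pl_mulVec, Finset.mul_sum]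
  exact Finset.sum_congr rfl fun J' _ => mul_left_comm _ _ _

theorem W_chg (hf : HolA (p + a) p M.f x) (he : At e x) (he₁ : At e₁ x) (he' : At e' (M.f x))
    (he₁' : At e₁' (M.f x)) (hs : ∀ α, Hol (p + a) (fun y => s y α) x) :
    W s e e' x = rj e e₁ e' e₁' x • W s e₁ e₁' x := by
  funext J
  rw [Pi.smul_apply, smul_eq_mul, W, W, Finset.mul_sum]
  refine Finset.sum_congr rfl fun k _ => ?_
  have h := U1.Detx.chg hf (fun i => hs (J (k.succAbove i))) he he₁ he' he₁'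
  rw [← eq_div_iff (U1.Detx.jac_ne he' he₁')] at h
  rw [h, rj]
  ring

theorem W_hol (hf : HolA (p + a) p M.f x) (he : At e x) (he' : At e' (M.f x))
    (hs : ∀ α, Hol (p + a) (fun y => s y α) x) (J : Fin (a + 1) → Fin ρ) :
    Hol (p + a) (fun y => W s e e' y J) x :=
  Hol.sum _ fun _ _ => ((hol_const _ _).mul (hs _)).mul (U1.Detx.hol hf (fun _ => hs _) he he')

theorem anV_jet (hf : HolA (p + a) p M.f x) (he : At e x) (he' : At e' (M.f x))
    (hs : ∀ α, Hol (p + a) (fun y => s y α) x) :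
    AnV (p + a) (fun y => ((s y, W s e e' y) : Jt ρ a)) x :=
  (AnV.pi hs).prod (AnV.pi (W_hol hf he he' hs))

theorem fderiv_jet {F : M.X.X → Jt ρ a} (h : AnV (p + a) F x) (he : At e x) (v : Cm (p + a)) :
    (fderiv ℂ (fun z => F (e.symm z)) (e x) v).1 = D (fun y => (F y).1) e x v := by
  funext α
  have h1 := (h e he).differentiableAt.hasFDerivAt
  have h2 := ((ContinuousLinearMap.proj (R := ℂ) (φ := fun _ : Fin ρ => ℂ) α).hasFDerivAt.comp _
    h1.fst).fderiv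
  exact (congrArg (fun L : Cm (p + a) →L[ℂ] ℂ => L v) h2).symm

end wr

section main

variable {p a m ρ : ℕ} {M : Fb (p + a) p} (R : SFR M m ρ)

/-- the values of a frame -/
def sv (i : R.E.ι) (e : Chart (p + a) M.X.X) (y : M.X.X) : Cm ρ := fun α => R.s i α e y

/-- the transition matrices -/
def tr (i i' : R.E.ι) (e' e₁' : Chart p M.Y.X) (y : M.Y.X) : Mt ρ :=
  (jacM e' e₁' y).det ^ m • R.E.T i i' y

variable {R} {i i' : R.E.ι} {e e₁ : Chart (p + a) M.X.X} {e' e₁' : Chart p M.Y.X} {x : M.X.X}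

theorem sv_hol (hi : M.f x ∈ R.E.U i) (he : At e x) (hx : x ∈ off M.G) (α : Fin ρ) :
    Hol (p + a) (fun y => sv R i e y α) x := (R.sec i α).hol e x hi he hx

theorem sv_chg (hi : M.f x ∈ R.E.U i) (hi' : M.f x ∈ R.E.U i') (he : At e x) (he₁ : At e₁ x)
    (he' : At e' (M.f x)) (he₁' : At e₁' (M.f x)) (hx : x ∈ off M.G) :
    sv R i e x = rj e e₁ e' e₁' x ^ m • (tr R i i' e' e₁' (M.f x) *ᵥ sv R i' e₁ x) := by
  have h1 : sv R i e₁ x = R.E.T i i' (M.f x) *ᵥ sv R i' e₁ x := R.chg i i' e₁ x hi hi' he₁ hx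
  rw [tr, Matrix.smul_mulVec, ← h1, smul_smul, ← mul_pow, rj,
    div_mul_cancel₀ _ (U1.Detx.jac_ne he' he₁')]
  exact funext fun α => (R.sec i α).chg e e₁ x hi he he₁ hx

theorem law (hM : M.Ok) (hi : M.f x ∈ R.E.U i) (hi' : M.f x ∈ R.E.U i') (he : At e x)
    (he₁ : At e₁ x) (he' : At e' (M.f x)) (he₁' : At e₁' (M.f x)) (hx : x ∈ off M.G) :
    ((sv R i e x, W (sv R i e) e e' x) : Jt ρ a) = sc m (rj e e₁ e' e₁' x)
      (act (tr R i i' e' e₁' (M.f x)) (sv R i' e₁ x, W (sv R i' e₁) e₁ e₁' x)) := by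
  have hf := hM.fibn.hol.at x
  refine Prod.ext (sv_chg hi hi' he he₁ he' he₁' hx) ?_
  have h1 : Hol p (fun y => (jacM e' e₁' y).det) (M.f x) :=
    lb_hol (isLB_can (n := p) (W := M.Y.X)) (a := e') (b := e₁') he' he₁'
  have h2 : Hol (p + a) (fun y => (jacM e e₁ y).det) x :=
    lb_hol (isLB_can (n := p + a) (W := M.X.X)) (a := e) (b := e₁) he he₁
  have h3 : Hol (p + a) (fun y => rj e e₁ e' e₁' y ^ m) x :=
    (h2.div (hf.hol h1) (U1.Detx.jac_ne he' he₁')).pow m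
  have h4 : ∀ α β, Hol p (fun y => tr R i i' e' e₁' y α β) (M.f x) := fun α β =>
    (h1.pow m).mul (R.E.hol i i' _ hi hi' α β)
  have h5 : ∀ᶠ y in 𝓝 x, sv R i e y =
      rj e e₁ e' e₁' y ^ m • (tr R i i' e' e₁' (M.f y) *ᵥ sv R i' e₁ y) := by
    filter_upwards [hf.cont.eventually ((R.E.isOpen i).mem_nhds hi),
      hf.cont.eventually ((R.E.isOpen i').mem_nhds hi'), at_near he, at_near he₁,
      hf.cont.eventually (at_near he'), hf.cont.eventually (at_near he₁'),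
      (snc_open_off hM.snc).mem_nhds hx] with y k1 k2 k3 k4 k5 k6 k7
      using sv_chg k1 k2 k3 k4 k5 k6 k7
  change W (sv R i e) e e' x = rj e e₁ e' e₁' x ^ ((a + 1) * m + 1) • _
  rw [W_chg hf he he₁ he' he₁' (sv_hol hi he hx), W_congr hf he₁ he₁' (sv_hol hi he hx) h5,
    W_smul hf he₁ he₁' (hol_mulVec hf (sv_hol hi' he₁ hx) h4) h3,
    W_act hf he₁ he₁' (sv_hol hi' he₁ hx) h4, smul_smul, ← pow_mul, ← pow_succ', mul_comm m]

theorem ext (hM : M.Ok) {z : M.κ → ℕ} (hz : ∀ l, m * M.δ l = z l) {ζ : M.κ → M.X.X → ℂ}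
    (hi : M.f x ∈ R.E.U i) (he : At e x) (he' : At e' (M.f x))
    (hζ : ∀ l, LEq (p + a) (M.G l) x (ζ l)) :
    ∃ t : M.X.X → Cm ρ, (∀ α, Hol (p + a) (fun y => t y α) x) ∧ ∀ᶠ y in 𝓝 x, y ∈ off M.G →
      t y = (∏ l, ζ l y ^ z l) • sv R i e y ∧
        W t e e' y = (∏ l, ζ l y ^ z l) ^ (a + 1) • W (sv R i e) e e' y := by
  have hf := hM.fibn.hol
  have h0 : ∀ᶠ y in 𝓝 x, M.f y ∈ R.E.U i :=
    hf.cont.continuousAt.eventually ((R.E.isOpen i).mem_nhds hi)
  have h1 : ∀ α, ∃ b, Hol (p + a) b x ∧ ∀ᶠ y in 𝓝 x, y ∈ off M.G →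
      b y = R.s i α e y * ∏ l, ζ l y ^ (z l : ℤ) := fun α =>
    ((R.sec i α).bdP (a := e) hi he).ext hM.snc (k := fun l => z l) (fun l _ => by
      have h : (m : ℝ) * (M.δ l : ℝ) = z l := by exact_mod_cast hz l
      rw [h]
      simp) (by
      filter_upwards [h0, at_near he] with y k1 k2 k3 using sv_hol k1 k2 k3 α) hζ
  choose b b1 b2 using h1
  have h2 : ∀ᶠ y in 𝓝 x, y ∈ off M.G → (fun α => b α y) = (∏ l, ζ l y ^ z l) • sv R i e y := by
    filter_upwards [eventually_all.2 b2] with y k1 k2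
    funext α
    rw [k1 α k2, mul_comm]
    simp only [zpow_natCast]
    rfl
  refine ⟨fun y α => b α y, b1, ?_⟩
  filter_upwards [h2.eventually_nhds, h0, at_near he, hf.cont.continuousAt.eventually (at_near he'),
    eventually_all.2 fun l => (hζ l).near, eventually_all.2 fun α => (b1 α).near]
    with y k1 k2 k3 k4 k5 k6 k7
  refine ⟨k1.self_of_nhds k7, ?_⟩
  rw [← W_smul (hf.at y) k3 k4 (sv_hol k2 k3 k7) (Hol.prod _ fun l _ => (k5 l).hol.pow (z l))]
  refine W_congr (hf.at y) k3 k4 k6 ?_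
  filter_upwards [k1, (snc_open_off hM.snc).mem_nhds k7] with y' m1 m2 using m1 m2

theorem mer (hM : M.Ok) (hm : Itg M m) {ζ : M.κ → M.X.X → ℂ} (hi : M.f x ∈ R.E.U i) (he : At e x)
    (he' : At e' (M.f x)) (hζ : ∀ l, LEq (p + a) (M.G l) x (ζ l)) :
    ∃ j' : M.X.X → Jt ρ a, AnV (p + a) j' x ∧ ∀ᶠ y in 𝓝 x, y ∈ off M.G →
      j' y = sc m (∏ l, ζ l y) (sv R i e y, W (sv R i e) e e' y) := by
  choose z hz using hm
  have hle : ∀ l, z l ≤ m := fun l => by
    have h : (z l : ℚ) ≤ m := by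
      rw [← hz l]
      exact mul_le_of_le_one_right (Nat.cast_nonneg m) (hM.bdry l).2
    exact_mod_cast h
  obtain ⟨t, t1, t2⟩ := ext hM hz hi he he' hζ
  have hr : Hol (p + a) (fun y => ∏ l, ζ l y ^ (m - z l)) x :=
    Hol.prod _ fun l _ => (hζ l).hol.pow _
  have hZ : Hol (p + a) (fun y => ∏ l, ζ l y) x := Hol.prod _ fun l _ => (hζ l).hol
  refine ⟨fun y => (fun α => (∏ l, ζ l y ^ (m - z l)) * t y α,
    fun J => ((∏ l, ζ l y) * (∏ l, ζ l y ^ (m - z l)) ^ (a + 1)) * W t e e' y J),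
    (AnV.pi fun α => hr.mul (t1 α)).prod (AnV.pi fun J =>
      (hZ.mul (hr.pow _)).mul (W_hol (hM.fibn.hol.at x) he he' t1 J)), ?_⟩
  filter_upwards [t2] with y k1 k2
  have h : (∏ l, ζ l y) ^ m = (∏ l, ζ l y ^ (m - z l)) * ∏ l, ζ l y ^ z l := by
    rw [← Finset.prod_mul_distrib, ← Finset.prod_pow]
    exact Finset.prod_congr rfl fun l _ => by rw [← pow_add, Nat.sub_add_cancel (hle l)]
  refine Prod.ext (funext fun α => ?_) (funext fun J => ?_)
  · change _ * t y α = (∏ l, ζ l y) ^ m * sv R i e y α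
    rw [(k1 k2).1, h, Pi.smul_apply, smul_eq_mul, mul_assoc]
  · change _ * W t e e' y J = (∏ l, ζ l y) ^ ((a + 1) * m + 1) * W (sv R i e) e e' y J
    rw [(k1 k2).2, Pi.smul_apply, smul_eq_mul, pow_succ' _ ((a + 1) * m), mul_comm (a + 1),
      pow_mul, h, mul_pow]
    ring

theorem bd (hM : M.Ok) (hm : Itg M m) {ζ : M.κ → M.X.X → ℂ} (hi : M.f x ∈ R.E.U i) (he : At e x)
    (he' : At e' (M.f x)) (hζ : ∀ l, LEq (p + a) (M.G l) x (ζ l)) :
    ∃ K : ℝ, ∀ᶠ y in 𝓝 x, y ∈ off M.G → ‖sc m ((∏ l, ‖ζ l y‖ ^ (M.δ l : ℝ) : ℝ) : ℂ)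
      ((sv R i e y, W (sv R i e) e e' y) : Jt ρ a)‖ ≤ K := by
  choose z hz using hm
  obtain ⟨t, t1, t2⟩ := ext hM hz hi he he' hζ
  have c1 : ContinuousAt (fun y => ∏ l, ‖ζ l y‖ ^ (M.δ l : ℝ)) x :=
    tendsto_finsetProd _ fun l _ => (hζ l).hol.cont.norm.rpow_const
      (.inr (by exact_mod_cast (hM.bdry l).1))
  obtain ⟨K, -, hK⟩ := bdd_near ((AnV.pi t1).cont.norm.max
    (c1.mul (AnV.pi (W_hol (hM.fibn.hol.at x) he he' t1)).cont.norm))
  refine ⟨K, ?_⟩
  filter_upwards [t2, hK] with y k1 k2 k3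
  have h0 := wt_nonneg ζ (fun l => (M.δ l : ℝ)) y
  have h : (∏ l, ‖ζ l y‖ ^ (M.δ l : ℝ)) ^ m = ‖∏ l, ζ l y ^ z l‖ := by
    rw [norm_prod, ← Finset.prod_pow]
    refine Finset.prod_congr rfl fun l _ => ?_
    have h1 : (M.δ l : ℝ) * m = z l := by
      rw [mul_comm]
      exact_mod_cast hz l
    rw [← Real.rpow_mul_natCast (norm_nonneg _), h1, Real.rpow_natCast, norm_pow]
  refine (norm_pair_le (le_of_eq ?_) (le_of_eq ?_)).trans k2
  · change _ = ‖t y‖
    rw [(k1 k3).1, norm_smul, norm_smul, norm_pow, Complex.norm_real, Real.norm_of_nonneg h0, h]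
  · change _ = _ * ‖W t e e' y‖
    rw [(k1 k3).2, norm_smul, norm_smul, norm_pow, Complex.norm_real, Real.norm_of_nonneg h0,
      pow_succ', mul_comm (a + 1), pow_mul, h, norm_pow, mul_assoc]

end main

end Jsx

open Jsx

/-- **JSX** -/
theorem jsx : JSX := by
  intro p a m ρ M hM R
  have hf := hM.ok.fibn.hol
  choose S hS hS' using fun l : {l // M.δ l = 1} => hM.vert l.1 l.2
  exact ⟨{
    ι := R.E.ι × Chart p M.Y.X
    U := fun i => {y | y ∈ R.E.U i.1 ∧ At i.2 y}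
    ch := fun i => i.2
    T := fun i i' => tr R i.1 i'.1 i.2 i'.2
    j := fun i e x => (sv R i.1 e x, W (sv R i.1 e) e i.2 x)
    Q := R.S ∪ ⋃ l, S l
    opn := fun i => (R.E.isOpen i.1).inter (isOpen_iff_mem_nhds.2 fun _ h => at_near h)
    atc := fun _ _ h => h.2
    cov := fun y e' h => (R.E.cover y).elim fun i hi => ⟨(i, e'), ⟨hi, h⟩, rfl⟩
    thin := R.thin.union (Thin.iUnion hS)
    reg := fun y h => R.reg y fun k => h (.inl k)
    conn := fun y h => R.conn y fun k => h (.inl k)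
    klt := fun l h x hx => .inr (mem_iUnion.2 ⟨⟨l, h⟩, hS' ⟨l, h⟩ (mem_image_of_mem _ hx)⟩)
    detT := fun i i' y h h' => by
      have h1 := congrArg Matrix.det (R.E.cocycle i.1 i'.1 i.1 y h.1 h'.1 h.1)
      rw [R.E.self i.1 y h.1, Matrix.det_mul, Matrix.det_one] at h1
      rw [tr, Matrix.det_smul]
      exact mul_ne_zero (pow_ne_zero _ (pow_ne_zero _ (U1.Detx.jac_ne h.2 h'.2)))
        (left_ne_zero_of_mul_eq_one h1)
    law := fun i i' e e₁ x h h' he he₁ hx => law hM.ok h.1 h'.1 he he₁ h.2 h'.2 hx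
    self := fun i y h => by
      rw [tr, ← dfM_id h.2 h.2, dfM_id_self h.2, Matrix.det_one, one_pow, one_smul,
        R.E.self i.1 y h.1]
    hol := fun i e x h he hx => anV_jet (hf.at x) he h.2 (sv_hol h.1 he hx)
    mer := fun i e x ζ h he hζ => mer hM.ok hM.itg h.1 he h.2 hζ
    bd := fun i e x ζ h he hζ => bd hM.ok hM.itg h.1 he h.2 hζ
    der := fun i e x h hQ he hx => by
      obtain ⟨ξ, c, h1, h2⟩ := ex_vb (hf.at x) he h.2
      obtain ⟨h3, h4, h5⟩ := h2 ((R.reg _ fun k => hQ (.inl k)).sbm hf hM.ok.snc rfl)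
      refine ⟨ξ, c, h3, h4, h5, h1.jd, ?_⟩
      simp only [fderiv_jet (anV_jet (hf.at x) he h.2 (sv_hol h.1 he hx)) he]
      exact h1.W_eq (sv_hol h.1 he hx)
    ind := fun i y h hQ c hc => R.ind i.1 y h.1 (fun k => hQ (.inl k)) c hc
    span := fun i y h hQ => R.span i.1 y h.1 fun k => hQ (.inl k) }⟩

end Vale.Agent.P281Z.Ga
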