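import Vale.Agent.P281Z.Ga.Sk
import Vale.Agent.P281Z.Gl.Thn

/-!
# P281Z, block III, part A: the moduli
-/

open scoped Manifold ContDiff Topology
open Set Filter Function
open Vale.Agent.P272.K
open Vale.Agent.P277Z (Hol at_chart)
open Vale.Agent.P277Z.Slc (Ind dd ind_iff_surj)

noncomputable section

namespace Vale.Agent.P281Z.Ga

open Gt

namespace Lev

theorem ind_base {n p : ℕ} {X Y : Type} [TopologicalSpace X] [ChartedSpace (Cm n) X]
    [TopologicalSpace Y] [ChartedSpace (Cm p) Y] [IsManifold 𝓘(ℂ, Cm n) ω X]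
    [IsManifold 𝓘(ℂ, Cm p) ω Y] {f : X → Y} {x : X} {e' : Chart p Y} (hf : HolA n p f x)
    (he' : At e' (f x)) {α γ : Type} [Fintype α] [Fintype γ] {z : γ → Y → ℂ} (hz : Ind p z (f x))
    {ζ : α → X → ℂ} (h : Ind n (Sum.elim (fun (c : Fin p) y => e' (f y) c) ζ) x) :
    Ind n (Sum.elim (fun j y => z j (f y)) ζ) x := by
  have he := at_chart (n := n) x
  refine Ind.of_chart (Sum.rec (fun j => hf.hol (hz.1 j)) fun a => h.1 (.inr a)) he
    ((ind_iff_surj _).2 fun t => ?_)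
  obtain ⟨w, hw⟩ := (ind_iff_surj _).1 (hz.2 e' he') fun j => t (.inl j)
  obtain ⟨v, hv⟩ := (ind_iff_surj _).1 (h.2 _ he) (Sum.elim w fun a => t (.inr a))
  refine ⟨v, funext (Sum.rec (fun j => ?_) fun a => congrFun hv (.inr a))⟩
  have k : df f (chartAt (Cm n) x) e' x v = w :=
    funext fun c => (df_apply hf he he' v c).trans (congrFun hv (.inl c))
  refine (DFunLike.congr_fun (dd_comp (hz.1 j) hf he he') v).trans ?_
  rw [ContinuousLinearMap.comp_apply, k]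
  exact congrFun hw j

theorem ex_max {P : ℕ → Prop} {p : ℕ} (h0 : P 0) (h : ∀ v, P v → v ≤ p) : ∃ v, P v ∧ ¬ P (v + 1) := by
  by_contra! k
  exact Nat.not_succ_le_self p (h _ (Nat.rec (motive := P) h0 k (p + 1)))

theorem zq_mono {p a m ρ n v c : ℕ} {M : Fb (p + a) p} {R : JS M m ρ} {Q Q' : Set M.Y.X}
    {z : Fin v → M.Y.X → ℂ} {d : Fin n → ℕ} {B : Fin (v + 1) → (Fin n → Jt ρ a) → ℂ}
    (h : R.Zq Q z c d B) (k : Q ⊆ Q') : R.Zq Q' z c d B :=
  ⟨h.si, fun j => ⟨fun y hy => (h.mr j).hol y (mt (@k y) hy), (h.mr j).mer⟩,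
    fun j q h1 h2 => h.rel j q h1 (mt (@k _) h2), h.ne⟩

theorem an_crd {α : Type} [Fintype α] (a : α) (t : α → ℂ) : AnalyticAt ℂ (fun t : α → ℂ => t a) t :=
  (ContinuousLinearMap.proj (R := ℂ) (φ := fun _ : α => ℂ) a).analyticAt t

end Lev

open Lev

theorem lev_of (h1 : LEV1) (h2 : ZCB) (h3 : RKT) (h4 : FLAT) (h5 : DEP) (h6 : ETI) (h7 : THZ)
    (h8 : TST) (h9 : PW) : LEV := by
  intro p a m ρ M R hM n ι β _ _ O U F hI hF
  choose Q v z n₁ c d B t1 t2 t3 q q1 q2 q3 q4 using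
    fun b => h1 p a m ρ M R hM n ι O U (F b) hI (hF b)
  have hY := hM.ok.connY
  have s0 : Thin p (R.Q ∪ ⋃ b, Q b) := R.thin.union (.iUnion t1)
  have s1 := fun b => zq_mono (t3 b) ((subset_iUnion Q b).trans (subset_union_right (s := R.Q)))
  obtain ⟨v', ⟨s, hs⟩, hmax⟩ := ex_max (p := p) (P := fun v' => ∃ s : Fin v' → Σ b, Fin (v b),
      ∃ y ∉ R.Q ∪ ⋃ b, Q b, Ind p (fun j => z (s j).1 (s j).2) y)
    ⟨fun j => j.elim0, s0.dense.nonempty.imp fun y hy => ⟨hy, fun j => j.elim0,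
      fun _ _ => linearIndependent_empty_type⟩⟩
    fun v' ⟨_, _, _, k⟩ => by simpa using ind_le k
  obtain ⟨Q', u1, u2, u3⟩ := h3 p v' M.Y _ _ hY s0 (fun j => (s1 _).mr _) hs
  have u4 : R.Q ⊆ Q' := subset_union_left.trans u2
  have s2 := fun b => zq_mono (s1 b) u2
  obtain ⟨n', c', d', B', hB⟩ := h2 p a m ρ M R hM β Q' v n₁ c z d B v' s u1 u4 s2
  refine ⟨Q', v', _, n', c', d', B', u1, u4, hB, u3, ?_⟩
  obtain ⟨y₀, hy₀⟩ := u1.dense.nonempty
  have fl := fun b i => h4 p M.Y.X (Fin v') Q'ᶜ _ (z b i) u1.closed.isOpen_compl u1.preconn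
    (fun y hy => ⟨(u3 y hy).1, ((s2 b).mr i).hol y hy⟩) ⟨y₀, hy₀, by
      filter_upwards [u1.closed.isOpen_compl.mem_nhds hy₀] with y hy k
      refine hmax ⟨fun j => (finSuccEquiv v' j).elim ⟨b, i⟩ s, y, mt (@u2 y) hy,
        ind_congr (k.comp _ (finSuccEquiv v').injective) fun j => .of_forall fun _ => ?_⟩
      beta_reduce
      rcases finSuccEquiv v' j with _ | j <;> rfl⟩
  obtain ⟨W⟩ := h9 p a n M R.Q hM.ok hM.kahX hM.kahY R.thin fun y hy => ⟨R.reg y hy, R.conn y hy⟩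
  have := W.conn
  have hπ : HolM (p + n * a) p fun w => (W.γ w).1 := fun w => (W.tm w).b
  have T : Thin (p + n * a) ({w | ¬ (W.γ w ∈ R.Nc n ∧ R.Jq (W.γ w) ∈ O)} ∪
      (fun w => (W.γ w).1) ⁻¹' Q') := by
    obtain ⟨x, rfl⟩ := hM.ok.fibn.surj y₀
    obtain ⟨w, hw, -⟩ := W.bij (dg n x) (fun _ => rfl) (mt (@u4 _) hy₀)
    exact (h7 p a m ρ M R hM n O W hI.op (hI.ex.imp fun _ k => ⟨k.1, k.2.1⟩)).union
      (Thin.pre_of_ex u1.an hπ ⟨w, by rwa [hw]⟩)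
  have hol : ∀ V, IV m O V → ∀ w, W.γ w ∈ R.Nc n → R.Jq (W.γ w) ∈ O →
      Hol (p + n * a) (fun w => V (R.Jq (W.γ w))) w := fun V hV w k1 k2 =>
    ((h8 p a m ρ M R hM n _ W.V.X W.γ w (W.tm w)).2.2 O V hI.op hV).1 k1.2.2 k2
  let h : Fin v' ⊕ ι → W.V.X → ℂ :=
    Sum.elim (fun j w => z (s j).1 (s j).2 (W.γ w).1) fun b w => U b (R.Jq (W.γ w))
  have hh : ∀ w, W.γ w ∈ R.Nc n → R.Jq (W.γ w) ∈ O → (W.γ w).1 ∉ Q' → ∀ b,
      Hol (p + n * a) (h b) w := fun w k1 k2 k3 =>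
    Sum.rec (fun j => hπ.hol ((u3 _ k3).1 j)) fun b => hol _ (hI.iv b) w k1 k2
  intro q₀ k1 k2 k3 k4 b
  obtain ⟨w₀, rfl, -⟩ := W.bij q₀ k1.1 k1.2.1
  obtain ⟨F', l1, l2⟩ := h4 _ W.V.X _ _ h (fun w => F b (R.Jq (W.γ w))) T.closed.isOpen_compl
    T.preconn (fun w hw => by
      obtain ⟨⟨a1, a2⟩, a3⟩ := (not_or.1 hw).imp_left not_not.1
      exact ⟨hh w a1 a2 a3, hol _ (hF b) w a1 a2⟩) (by
      obtain ⟨w, hw, -⟩ := W.bij (q b) (q1 b).1 (q1 b).2.1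
      obtain ⟨G, g1, g2⟩ := q4 b
      have a1 := q1 b
      have a2 := q2 b
      have a3 := q3 b
      rw [← hw] at g1 g2 a1 a2 a3
      rw [← Thn.map_eq W R.thin.closed a1.2.1, eventually_map] at g2
      have g3 : ContinuousAt (fun w => ((fun j => z b j (W.γ w).1, fun b => U b (R.Jq (W.γ w))) :
          (Fin (v b) → ℂ) × (ι → ℂ))) w :=
        (continuousAt_pi.2 fun j => (hπ.hol (((t3 b).mr j).hol _ a2)).cont).prodMk
          (continuousAt_pi.2 fun b => (hol _ (hI.iv b) w a1 a3).cont)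
      obtain ⟨w', b1, b2, b3⟩ := ((T.freq w).and_eventually
        ((g3.eventually g1.eventually_analyticAt).and g2.eventually_nhds)).exists
      obtain ⟨⟨b4, b5⟩, b6⟩ := (not_or.1 b1).imp_left not_not.1
      choose G' c1 c2 using fun i => fl b i _ b6 (u3 _ b6)
      refine ⟨w', b1, h5 _ W.V.X _ h _ w'
        (fun t => G (fun i => G' i fun j => t (.inl j), fun b => t (.inr b))) (hh w' b4 b5 b6)
        (b2.comp_of_eq ((analyticAt_pi_iff.2 fun i => (c1 i).comp_of_eq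
          (analyticAt_pi_iff.2 fun j => an_crd _ _) rfl).prod
          (analyticAt_pi_iff.2 fun j => an_crd _ _))
          (Prod.ext (funext fun i => (c2 i).self_of_nhds.symm) rfl)) ?_⟩
      filter_upwards [b3, hπ.cont.continuousAt.eventually (eventually_all.2 c2)] with t d1 d2
      rw [d1, funext d2]
      rfl) w₀ (not_or.2 ⟨not_not.2 ⟨k1, k3⟩, k2⟩)
    (ind_base (hπ.at w₀) (R.atc _ _ (R.fr_mem _)) (u3 _ k2)
      ((h6 p a m ρ M R hM n ι O U W w₀ hI.card hI.op hI.iv k1 k3).1 k4))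
  have e : ∀ w, (fun b => h b w) = Sum.elim (fun j => z (s j).1 (s j).2 (W.γ w).1)
      fun b => U b (R.Jq (W.γ w)) := fun w => funext (Sum.rec (fun _ => rfl) fun _ => rfl)
  refine ⟨fun t => F' (Sum.elim t.1 t.2), l1.comp_of_eq (analyticAt_pi_iff.2 (Sum.rec
    (fun j => (an_crd j _).comp analyticAt_fst) fun j => (an_crd j _).comp analyticAt_snd))
    (e w₀).symm, ?_⟩
  rw [← Thn.map_eq W R.thin.closed k1.2.1, eventually_map]
  exact l2.mono fun w hw => hw.trans (congrArg F' (e w))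

end Vale.Agent.P281Z.Ga
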