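import Vale.Agent.P281Z.Ga.Defs

/-!
# P281Z, block III, part A: algebra of jets
-/

open scoped Topology Matrix
open Set Filter Function
open Vale.Agent.P272.K

noncomputable section

namespace Vale.Agent.P281Z.Ga

variable {ρ a n n' m c c' : ℕ} {g h : Mt ρ} {j : Jt ρ a} {l l' : ℂ}

theorem act_one (j : Jt ρ a) : act 1 j = j := by
  refine Prod.ext (Matrix.one_mulVec j.1) (funext fun J => ?_)
  simp only [act]
  rw [Finset.sum_eq_single J]
  · simp
  · intro J' _ hJ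
    obtain ⟨k, hk⟩ := Function.ne_iff.1 hJ
    exact mul_eq_zero_of_left
      (Finset.prod_eq_zero (Finset.mem_univ k) (by exact Matrix.one_apply_ne hk.symm)) _
  · simp

theorem act_mul (g h : Mt ρ) (j : Jt ρ a) : act (g * h) j = act g (act h j) := by
  refine Prod.ext (Matrix.mulVec_mulVec j.1 g h).symm (funext fun J => ?_)
  simp only [act, Matrix.mul_apply, Finset.prod_univ_sum, Fintype.piFinset_univ, Finset.sum_mul,
    Finset.mul_sum, Finset.prod_mul_distrib, mul_assoc]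
  exact Finset.sum_comm

theorem act_add (g : Mt ρ) (j j' : Jt ρ a) : act g (j + j') = act g j + act g j' :=
  Prod.ext (Matrix.mulVec_add g j.1 j'.1) (funext fun J => by
    simp [act, mul_add, Finset.sum_add_distrib])

theorem act_smul (g : Mt ρ) (t : ℂ) (j : Jt ρ a) : act g (t • j) = t • act g j :=
  Prod.ext (Matrix.mulVec_smul g t j.1) (funext fun J => by
    simp [act, Finset.mul_sum, mul_left_comm])

theorem act_two (g : Mt ρ) (s t : ℂ) (j : Jt ρ a) :
    act g (s • j.1, t • j.2) = (s • (act g j).1, t • (act g j).2) :=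
  Prod.ext (Matrix.mulVec_smul g s j.1) (funext fun J => by
    simp [act, Finset.mul_sum, mul_left_comm])

theorem act_sc (g : Mt ρ) (l : ℂ) (j : Jt ρ a) : act g (sc m l j) = sc m l (act g j) :=
  act_two _ _ _ _

theorem act_eu (g : Mt ρ) (j : Jt ρ a) : act g (eu m j) = eu m (act g j) := act_two _ _ _ _

theorem smul_act (t : ℂ) (g : Mt ρ) (j : Jt ρ a) :
    act (t • g) j = (t • (act g j).1, t ^ (a + 1) • (act g j).2) :=
  Prod.ext (Matrix.smul_mulVec t g j.1) (funext fun J => by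
    simp [act, Finset.mul_sum, Finset.prod_mul_distrib, mul_assoc])

theorem act_diag (d : Fin ρ → ℂ) (j : Jt ρ a) :
    act (Matrix.diagonal d) j = (fun α => d α * j.1 α, fun J => (∏ k, d (J k)) * j.2 J) := by
  refine Prod.ext (funext fun α => Matrix.mulVec_diagonal d j.1 α) (funext fun J => ?_)
  simp only [act]
  rw [Finset.sum_eq_single J]
  · simp
  · intro J' _ hJ
    obtain ⟨k, hk⟩ := Function.ne_iff.1 hJ
    exact mul_eq_zero_of_left
      (Finset.prod_eq_zero (Finset.mem_univ k) (by exact Matrix.diagonal_apply_ne _ hk.symm)) _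
  · simp

theorem act_inv (hg : g.det ≠ 0) (j : Jt ρ a) : act g⁻¹ (act g j) = j := by
  rw [← act_mul, Matrix.nonsing_inv_mul _ hg.isUnit, act_one]

theorem act_inj (hg : g.det ≠ 0) : Injective (act (a := a) g) :=
  LeftInverse.injective (act_inv hg)

theorem act_snd_ne (hg : g.det ≠ 0) (hj : j.2 ≠ 0) : (act g j).2 ≠ 0 := fun k => hj (by
  rw [← act_inv hg j]
  exact funext fun J => by simp only [act] at k ⊢; simp [fun J => congrFun k J])

/-- `act g` as a linear map -/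
def actL (g : Mt ρ) : Jt ρ a →L[ℂ] Jt ρ a :=
  LinearMap.toContinuousLinearMap ⟨⟨act g, act_add g⟩, act_smul g⟩

theorem actL_apply (g : Mt ρ) (j : Jt ρ a) : actL g j = act g j := rfl

theorem sc_one (j : Jt ρ a) : sc m 1 j = j := by simp [sc]

theorem sc_sc (l l' : ℂ) (j : Jt ρ a) : sc m l (sc m l' j) = sc m (l * l') j := by
  simp [sc, smul_smul, mul_pow]

theorem sc_fst (l : ℂ) (j : Jt ρ a) : (sc m l j).1 = l ^ m • j.1 := rfl

theorem sc_snd (l : ℂ) (j : Jt ρ a) : (sc m l j).2 = l ^ ((a + 1) * m + 1) • j.2 := rfl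

theorem act_fst (g : Mt ρ) (j : Jt ρ a) : (act g j).1 = g *ᵥ j.1 := rfl

section an

variable {E : Type} [NormedAddCommGroup E] [NormedSpace ℂ E] {x : E}

theorem an_fst {F : E → Jt ρ a} (hF : AnalyticAt ℂ F x) (α : Fin ρ) :
    AnalyticAt ℂ (fun y => (F y).1 α) x := analyticAt_pi_iff.1 (analyticAt_fst.fun_comp hF) α

theorem an_snd {F : E → Jt ρ a} (hF : AnalyticAt ℂ F x) (J : Fin (a + 1) → Fin ρ) :
    AnalyticAt ℂ (fun y => (F y).2 J) x := analyticAt_pi_iff.1 (analyticAt_snd.fun_comp hF) J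

theorem an_jt {F : E → Jt ρ a} (h1 : ∀ α, AnalyticAt ℂ (fun y => (F y).1 α) x)
    (h2 : ∀ J, AnalyticAt ℂ (fun y => (F y).2 J) x) : AnalyticAt ℂ F x :=
  (AnalyticAt.pi h1).prod (AnalyticAt.pi h2)

theorem an_crd {F : E → Jt ρ a} (hF : AnalyticAt ℂ F x) (b) :
    AnalyticAt ℂ (fun y => crd b (F y)) x := by
  cases b
  exacts [an_fst hF _, an_snd hF _]

theorem crd_ext {j j' : Jt ρ a} (h : ∀ b, crd b j = crd b j') : j = j' :=
  Prod.ext (funext fun α => h (.inl α)) (funext fun J => h (.inr J))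

theorem an_slot {F : E → Fin n → Jt ρ a} (hF : AnalyticAt ℂ F x) (k : Fin n) :
    AnalyticAt ℂ (fun y => F y k) x := analyticAt_pi_iff.1 hF k

theorem an_act {G : E → Mt ρ} {F : E → Jt ρ a} (hG : ∀ α β, AnalyticAt ℂ (fun y => G y α β) x)
    (hF : AnalyticAt ℂ F x) : AnalyticAt ℂ (fun y => act (G y) (F y)) x :=
  an_jt (fun α => Finset.analyticAt_fun_sum (f := fun β y => G y α β * (F y).1 β) Finset.univ
    fun β _ => (hG α β).mul (an_fst hF β)) fun _ =>
    Finset.analyticAt_fun_sum _ fun J' _ =>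
      (Finset.analyticAt_fun_prod _ fun _ _ => hG _ _).mul (an_snd hF J')

theorem an_sc {L : E → ℂ} {F : E → Jt ρ a} (hL : AnalyticAt ℂ L x) (hF : AnalyticAt ℂ F x) :
    AnalyticAt ℂ (fun y => sc m (L y) (F y)) x :=
  an_jt (fun α => (hL.pow _).mul (an_fst hF α)) fun J => (hL.pow _).mul (an_snd hF J)

theorem an_det {ι : Type} [Fintype ι] [DecidableEq ι] {G : E → Matrix ι ι ℂ}
    (hG : ∀ α β, AnalyticAt ℂ (fun y => G y α β) x) : AnalyticAt ℂ (fun y => (G y).det) x := by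
  simp only [Matrix.det_apply']
  exact Finset.analyticAt_fun_sum _ fun σ _ =>
    analyticAt_const.mul (Finset.analyticAt_fun_prod _ fun _ _ => hG _ _)

theorem an_pl {v : E → Fin (a + 1) → Cm ρ} (hv : ∀ l α, AnalyticAt ℂ (fun y => v y l α) x) (J) :
    AnalyticAt ℂ (fun y => pl (v y) J) x := an_det fun _ _ => hv _ _

variable (J₀ : Fin (a + 1) → Fin ρ) {F : E → Jt ρ a}

theorem an_wc (hF : AnalyticAt ℂ F x) (h : (F x).1 (J₀ 0) ≠ 0) :
    AnalyticAt ℂ (fun y => wc J₀ (F y)) x :=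
  AnalyticAt.pi fun _ => (an_fst hF _).div (an_fst hF _) h

theorem an_kap (hF : AnalyticAt ℂ F x) (h : (F x).1 (J₀ 0) ≠ 0) :
    AnalyticAt ℂ (fun y => kap J₀ (F y)) x :=
  (an_snd hF _).div ((an_fst hF _).pow _) (pow_ne_zero _ h)

theorem gd.kap {J₀ : Fin (a + 1) → Fin ρ} (h : gd J₀ j) : kap J₀ j ≠ 0 :=
  div_ne_zero h.2 (pow_ne_zero _ h.1)

theorem an_nrm (hF : AnalyticAt ℂ F x) (h : gd J₀ (F x)) :
    AnalyticAt ℂ (fun y => nrm J₀ m (F y)) x := an_sc ((an_kap J₀ hF h.1).inv h.kap) hF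

end an

variable {J₀ : Fin (a + 1) → Fin ρ}

theorem isOpen_gd (J₀ : Fin (a + 1) → Fin ρ) : IsOpen {j : Jt ρ a | gd J₀ j} :=
  (isOpen_ne_fun (by fun_prop) continuous_const).inter (isOpen_ne_fun (by fun_prop) continuous_const)

theorem wc_sc (hl : l ≠ 0) (j : Jt ρ a) : wc J₀ (sc m l j) = wc J₀ j :=
  funext fun _ => mul_div_mul_left _ _ (pow_ne_zero _ hl)

theorem kap_sc (hl : l ≠ 0) (j : Jt ρ a) : kap J₀ (sc m l j) = l * kap J₀ j := by
  simp only [kap, sc, Pi.smul_apply, smul_eq_mul, mul_pow, ← pow_mul, mul_comm m, pow_succ l]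
  by_cases h : j.1 (J₀ 0) = 0
  · simp [h]
  · field_simp

theorem gd_sc (hl : l ≠ 0) : gd J₀ (sc m l j) ↔ gd J₀ j := by
  simp [gd, sc, hl]

theorem nrm_sc (hl : l ≠ 0) (j : Jt ρ a) : nrm J₀ m (sc m l j) = nrm J₀ m j := by
  rw [nrm, nrm, kap_sc hl, sc_sc, mul_inv, mul_right_comm, inv_mul_cancel₀ hl, one_mul]

theorem sc_nrm (h : gd J₀ j) : sc m (kap J₀ j) (nrm J₀ m j) = j := by
  rw [nrm, sc_sc, mul_inv_cancel₀ h.kap, sc_one]

theorem wc_nrm (h : gd J₀ j) : wc J₀ (nrm J₀ m j) = wc J₀ j := wc_sc (inv_ne_zero h.kap) j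

theorem gd.nrm (h : gd J₀ j) : gd J₀ (nrm J₀ m j) := (gd_sc (inv_ne_zero h.kap)).2 h

/-! ### minors -/

theorem pl_mulVec (g : Mt ρ) (v : Fin (a + 1) → Cm ρ) (J : Fin (a + 1) → Fin ρ) :
    pl (fun l => g *ᵥ v l) J = ∑ J' : Fin (a + 1) → Fin ρ, (∏ k, g (J k) (J' k)) * pl v J' := by
  have h : (Matrix.of fun k l => (g *ᵥ v l) (J k)) =
      fun k => ∑ β, g (J k) β • fun l => v l β := by
    ext k l
    simp [Matrix.mulVec, dotProduct]
  have k := (Matrix.detRowAlternating (n := Fin (a + 1)) (R := ℂ)).toMultilinearMap.map_sum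
    fun k β => g (J k) β • fun l => v l β
  refine (congrArg Matrix.det h).trans (k.trans (Finset.sum_congr rfl fun J' _ => ?_))
  exact MultilinearMap.map_smul_univ _ (fun k => g (J k) (J' k)) fun k l => v l (J' k)

theorem act_pl (g : Mt ρ) (u : Cm ρ) (t : ℂ) (v : Fin (a + 1) → Cm ρ) :
    act g (u, t • pl v) = (g *ᵥ u, t • pl fun l => g *ᵥ v l) :=
  Prod.ext rfl (funext fun J => by simp [act, pl_mulVec, Finset.mul_sum, mul_left_comm])

theorem pl_comb (A : Matrix (Fin (a + 1)) (Fin (a + 1)) ℂ) (v : Fin (a + 1) → Cm ρ) :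
    pl (fun l => ∑ l', A l l' • v l') = A.det • pl v := funext fun J => by
  have h : (Matrix.of fun k l => (∑ l', A l l' • v l') (J k)) =
      (Matrix.of fun k l => v l (J k) : Matrix (Fin (a + 1)) (Fin (a + 1)) ℂ) * Aᵀ := by
    ext k l
    simp [Matrix.mul_apply, mul_comm]
  rw [pl, h, Matrix.det_mul, Matrix.det_transpose, mul_comm]
  rfl

theorem pl_cons (t : ℂ) (A : Matrix (Fin a) (Fin a) ℂ) (b : Fin a → ℂ) (u : Cm ρ)
    (v : Fin a → Cm ρ) : pl (Fin.cons (t • u) fun l => ∑ l', A l l' • v l' + b l • u) =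
      (t * A.det) • pl (Fin.cons u v) := by
  have h := pl_comb (Matrix.of (Fin.cons (Fin.cons t 0) fun l => Fin.cons (b l) (A l)))
    (Fin.cons u v)
  rw [Matrix.det_succ_row_zero, Fin.sum_univ_succ] at h
  refine (congrArg pl (funext fun l => ?_)).trans (h.trans ?_)
  · refine l.cases ?_ fun l => ?_ <;> simp [Fin.sum_univ_succ, add_comm]
  · simp only [Matrix.of_apply, Fin.cons_zero, Fin.cons_succ, Pi.zero_apply, mul_zero, zero_mul,
      Finset.sum_const_zero, add_zero, Fin.val_zero, pow_zero, one_mul, Fin.succAbove_zero]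
    rfl

theorem pl_eq_zero {v : Fin (a + 1) → Cm ρ} : pl v = 0 ↔ ¬ LinearIndependent ℂ v := by
  constructor
  · intro h hv
    have h1 : (Matrix.of v).rank = a + 1 :=
      (LinearIndependent.rank_matrix (M := Matrix.of v) hv).trans (Fintype.card_fin _)
    obtain ⟨t, ht, hs, hi⟩ := exists_linearIndependent ℂ (range (Matrix.of v).col)
    have hf : t.Finite := (finite_range _).subset ht
    have := hf.fintype
    have hc : Fintype.card t = a + 1 := by
      rw [Matrix.rank_eq_finrank_span_cols, ← hs, finrank_span_set_eq_card hi] at h1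
      exact (Set.toFinset_card t).symm.trans h1
    let e := (Fintype.equivFinOfCardEq hc).symm
    choose J hJ using fun k => ht (e k).2
    have h2 : LinearIndependent ℂ (Matrix.of fun k l => v l (J k)).row := by
      rw [show (Matrix.of fun k l => v l (J k)).row = Subtype.val ∘ e from funext hJ]
      exact hi.comp e e.injective
    exact (Matrix.isUnit_iff_isUnit_det _).1 (Matrix.linearIndependent_rows_iff_isUnit.1 h2)
      |>.ne_zero (congrFun h J)
  · intro h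
    obtain ⟨t, h1, l, h2⟩ := Fintype.not_linearIndependent_iff.1 h
    exact funext fun J => Matrix.exists_mulVec_eq_zero_iff.1 ⟨t, fun k => h2 (congrFun k l),
      funext fun k => by simpa [Matrix.mulVec, dotProduct, mul_comm] using congrFun h1 (J k)⟩

theorem act_jet (g : Mt ρ) {v : Cm a → Cm ρ} {u : Cm a} (hv : DifferentiableAt ℂ v u) :
    act g (jet v u) = jet (fun u => g *ᵥ v u) u := by
  have h := act_pl g (v u) 1 (Fin.cons (v u) fun l => fderiv ℂ v u (Pi.single l 1))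
  rw [one_smul, one_smul] at h
  refine h.trans (Prod.ext rfl (congrArg pl (funext fun l => l.cases rfl fun l => ?_)))
  have k := ((LinearMap.toContinuousLinearMap g.mulVecLin).hasFDerivAt.comp u hv.hasFDerivAt).fderiv
  exact (congrArg (fun L : Cm a →L[ℂ] Cm ρ => L (Pi.single l 1)) k).symm

/-! ### homogeneous functions -/

section sh

variable {d d' : Fin n → ℕ} {Φ Ψ : (Fin n → Jt ρ a) → ℂ} {ι : Type}

/-- the degrees after a selection of slots -/
def push (σ : Fin n' → Fin n) (d : Fin n' → ℕ) (k : Fin n) : ℕ :=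
  ∑ i ∈ Finset.univ.filter (fun i => σ i = k), d i

theorem prod_push (σ : Fin n' → Fin n) (d : Fin n' → ℕ) (l : Fin n → ℂ) :
    ∏ i, l (σ i) ^ d i = ∏ k, l k ^ push σ d k := by
  rw [← Finset.prod_fiberwise Finset.univ σ]
  refine Finset.prod_congr rfl fun k _ => ?_
  rw [push, ← Finset.prod_pow_eq_pow_sum]
  exact Finset.prod_congr rfl fun i hi => by rw [(Finset.mem_filter.1 hi).2]

theorem SH.cont (h : SH m d Φ) : Continuous Φ :=
  continuous_iff_continuousAt.2 fun j => (h.an j).continuousAt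

theorem SH.cast (h : SH m d Φ) (e : d = d') : SH m d' Φ := e ▸ h

theorem sh_const (t : ℂ) : SH m (fun _ => 0) fun _ : Fin n → Jt ρ a => t :=
  ⟨fun _ => analyticAt_const, fun _ _ => by simp⟩

theorem sh_zero : SH m d fun _ : Fin n → Jt ρ a => 0 :=
  ⟨fun _ => analyticAt_const, fun _ _ => by simp⟩

theorem SH.mul (h : SH m d Φ) (h' : SH m d' Ψ) : SH m (fun k => d k + d' k) fun j => Φ j * Ψ j :=
  ⟨fun j => (h.an j).mul (h'.an j), fun l j => by
    simp only [h.sc, h'.sc, pow_add, Finset.prod_mul_distrib]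
    ring⟩

theorem SH.add (h : SH m d Φ) (h' : SH m d Ψ) : SH m d fun j => Φ j + Ψ j :=
  ⟨fun j => (h.an j).add (h'.an j), fun l j => by rw [h.sc, h'.sc, mul_add]⟩

theorem SH.smul (h : SH m d Φ) (t : ℂ) : SH m d fun j => t * Φ j :=
  ⟨fun j => analyticAt_const.mul (h.an j), fun l j => by rw [h.sc, mul_left_comm]⟩

theorem SH.sub (h : SH m d Φ) (h' : SH m d Ψ) : SH m d fun j => Φ j - Ψ j :=
  ⟨fun j => (h.an j).sub (h'.an j), fun l j => by rw [h.sc, h'.sc, mul_sub]⟩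

theorem SH.pow (h : SH m d Φ) (e : ℕ) : SH m (fun k => d k * e) fun j => Φ j ^ e :=
  ⟨fun j => (h.an j).pow e, fun l j => by
    simp only [h.sc, pow_mul, Finset.prod_pow, mul_pow]⟩

theorem SH.prod (s : Finset ι) {d : ι → Fin n → ℕ} {Φ : ι → (Fin n → Jt ρ a) → ℂ}
    (h : ∀ i ∈ s, SH m (d i) (Φ i)) : SH m (fun k => ∑ i ∈ s, d i k) fun j => ∏ i ∈ s, Φ i j :=
  ⟨fun j => Finset.analyticAt_fun_prod _ fun i hi => (h i hi).an j, fun l j => by
    rw [Finset.prod_congr rfl fun i hi => (h i hi).sc l j, Finset.prod_mul_distrib,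
      Finset.prod_comm]
    simp only [Finset.prod_pow_eq_pow_sum]⟩

theorem SH.sum (s : Finset ι) {Φ : ι → (Fin n → Jt ρ a) → ℂ} (h : ∀ i ∈ s, SH m d (Φ i)) :
    SH m d fun j => ∑ i ∈ s, Φ i j :=
  ⟨fun j => Finset.analyticAt_fun_sum _ fun i hi => (h i hi).an j, fun l j => by
    rw [Finset.sum_congr rfl fun i hi => (h i hi).sc l j, Finset.mul_sum]⟩

theorem an_sel (σ : Fin n' → Fin n) (j : Fin n → Jt ρ a) :
    AnalyticAt ℂ (fun j : Fin n → Jt ρ a => fun i => j (σ i)) j :=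
  AnalyticAt.pi fun i => an_slot analyticAt_id (σ i)

theorem SH.sel {d : Fin n' → ℕ} {Φ : (Fin n' → Jt ρ a) → ℂ} (h : SH m d Φ) (σ : Fin n' → Fin n) :
    SH m (push σ d) fun j : Fin n → Jt ρ a => Φ fun i => j (σ i) :=
  ⟨fun j => (h.an _).fun_comp (an_sel σ j), fun l j => by
    rw [← prod_push]
    exact h.sc (fun i => l (σ i)) fun i => j (σ i)⟩

theorem SH.act (h : SH m d Φ) (g : Fin n → Mt ρ) : SH m d fun j => Φ fun k => act (g k) (j k) :=
  ⟨fun j => (h.an _).fun_comp (AnalyticAt.pi fun k =>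
    an_act (fun _ _ => analyticAt_const) (an_slot analyticAt_id k)), fun l j => by
    simp only [act_sc, h.sc]⟩

theorem prod_single (l : Fin n → ℂ) (k : Fin n) (e : ℕ) :
    ∏ i, l i ^ (Pi.single k e : Fin n → ℕ) i = l k ^ e := by
  rw [Finset.prod_eq_single k]
  · simp
  · exact fun i _ hi => by simp [hi]
  · simp

theorem sh_fst (k : Fin n) (α : Fin ρ) :
    SH m (Pi.single k m) fun j : Fin n → Jt ρ a => (j k).1 α :=
  ⟨fun _ => an_fst (an_slot analyticAt_id k) α, fun l j => by rw [prod_single]; rfl⟩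

theorem sh_snd (k : Fin n) (J : Fin (a + 1) → Fin ρ) :
    SH m (Pi.single k ((a + 1) * m + 1)) fun j : Fin n → Jt ρ a => (j k).2 J :=
  ⟨fun _ => an_snd (an_slot analyticAt_id k) J, fun l j => by rw [prod_single]; rfl⟩

theorem SH.det [Fintype ι] [DecidableEq ι] {d : ι → Fin n → ℕ}
    {Φ : ι → ι → (Fin n → Jt ρ a) → ℂ} (h : ∀ i k, SH m (d k) (Φ i k)) :
    SH m (fun l => ∑ k, d k l) fun j => (Matrix.of fun i k => Φ i k j).det := by
  simp only [Matrix.det_apply']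
  exact SH.sum _ fun σ _ => (SH.prod _ fun k _ => h (σ k) k).smul _

/-- freezing all the slots but one -/
theorem SH.upd (h : SH m d Φ) (j₀ : Fin n → Jt ρ a) (k : Fin n) :
    SH m (fun _ : Fin 1 => d k) fun j => Φ (update j₀ k (j 0)) :=
  ⟨fun j => (h.an _).fun_comp (AnalyticAt.pi fun i => by
    by_cases e : i = k
    · simpa only [e, update_self] using an_slot (F := fun j : Fin 1 → Jt ρ a => j) analyticAt_id 0
    · simpa only [update_of_ne e] using analyticAt_const), fun l j => by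
    have k1 := h.sc (update 1 k (l 0)) (update j₀ k (j 0))
    rw [Finset.prod_eq_single k (fun i _ e => by simp [e]) (by simp), update_self] at k1
    rw [Fin.prod_univ_one, ← k1]
    refine congrArg Φ (funext fun i => ?_)
    by_cases e : i = k
    · simp [e]
    · simp [e, sc_one]⟩

theorem SI.sh (h : SI m c d Φ) : SH m d Φ := h.toSH

theorem SI.cast (h : SI m c d Φ) (e : c = c') (e' : d = d') : SI m c' d' Φ := e ▸ e' ▸ h

theorem si_const (t : ℂ) : SI m 0 (fun _ => 0) fun _ : Fin n → Jt ρ a => t :=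
  ⟨sh_const t, fun _ _ => by simp⟩

theorem SI.mul (h : SI m c d Φ) (h' : SI m c' d' Ψ) :
    SI m (c + c') (fun k => d k + d' k) fun j => Φ j * Ψ j :=
  ⟨h.sh.mul h'.sh, fun g j => by rw [h.act, h'.act]; ring⟩

theorem SI.add (h : SI m c d Φ) (h' : SI m c d Ψ) : SI m c d fun j => Φ j + Ψ j :=
  ⟨h.sh.add h'.sh, fun g j => by rw [h.act, h'.act, mul_add]⟩

theorem SI.smul (h : SI m c d Φ) (t : ℂ) : SI m c d fun j => t * Φ j :=
  ⟨h.sh.smul t, fun g j => by rw [h.act, mul_left_comm]⟩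

theorem SI.pow (h : SI m c d Φ) (e : ℕ) : SI m (c * e) (fun k => d k * e) fun j => Φ j ^ e :=
  ⟨h.sh.pow e, fun g j => by rw [h.act, mul_pow, pow_mul]⟩

theorem SI.prod (s : Finset ι) {c : ι → ℕ} {d : ι → Fin n → ℕ} {Φ : ι → (Fin n → Jt ρ a) → ℂ}
    (h : ∀ i ∈ s, SI m (c i) (d i) (Φ i)) :
    SI m (∑ i ∈ s, c i) (fun k => ∑ i ∈ s, d i k) fun j => ∏ i ∈ s, Φ i j :=
  ⟨SH.prod s fun i hi => (h i hi).sh, fun g j => by
    rw [Finset.prod_congr rfl fun i hi => (h i hi).act g j, Finset.prod_mul_distrib,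
      Finset.prod_pow_eq_pow_sum]⟩

theorem SI.sum (s : Finset ι) {Φ : ι → (Fin n → Jt ρ a) → ℂ} (h : ∀ i ∈ s, SI m c d (Φ i)) :
    SI m c d fun j => ∑ i ∈ s, Φ i j :=
  ⟨SH.sum s fun i hi => (h i hi).sh, fun g j => by
    rw [Finset.sum_congr rfl fun i hi => (h i hi).act g j, Finset.mul_sum]⟩

theorem SI.sel {d : Fin n' → ℕ} {Φ : (Fin n' → Jt ρ a) → ℂ} (h : SI m c d Φ) (σ : Fin n' → Fin n) :
    SI m c (push σ d) fun j : Fin n → Jt ρ a => Φ fun i => j (σ i) :=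
  ⟨h.sh.sel σ, fun g j => h.act g fun i => j (σ i)⟩

theorem SI.det [Fintype ι] [DecidableEq ι] {c : ι → ℕ} {d : ι → Fin n → ℕ}
    {Φ : ι → ι → (Fin n → Jt ρ a) → ℂ} (h : ∀ i k, SI m (c k) (d k) (Φ i k)) :
    SI m (∑ k, c k) (fun l => ∑ k, d k l) fun j => (Matrix.of fun i k => Φ i k j).det := by
  simp only [Matrix.det_apply']
  exact SI.sum _ fun σ _ => (SI.prod _ fun k _ => h (σ k) k).smul _

theorem si_b0 : SI m 1 (fun _ => m) (b0 (ρ := ρ) (a := a)) :=
  ⟨(SH.det (d := fun k => Pi.single k m) fun α β => sh_fst β α).cast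
    (funext fun l => by simp [Pi.single_apply]), fun g j => by
    rw [b0, b0, pow_one, ← Matrix.det_mul]
    rfl⟩

theorem si_bP (e : ℕ) : SI m e (fun _ => m) (bP (ρ := ρ) (a := a) e) :=
  (SI.prod Finset.univ fun g _ => si_b0.sel fun β => finProdFinEquiv (g, β)).cast (by simp)
    (funext fun k => by
      obtain ⟨⟨g, β⟩, rfl⟩ := finProdFinEquiv.surjective k
      rw [Finset.sum_eq_single g]
      · simp [push, Finset.filter_eq']
      · exact fun g' _ e => by simp [push, e]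
      · simp)

/-- the transformation law -/
theorem SI.law (h : SI m c d Φ) (l : Fin n → ℂ) (g : Mt ρ) (j : Fin n → Jt ρ a) :
    Φ (fun k => sc m (l k) (Ga.act g (j k))) = (∏ k, l k ^ d k) * (g.det ^ c * Φ j) := by
  rw [h.sc l fun k => Ga.act g (j k), h.act]

end sh

/-! ### invariant rational functions -/

section iv

variable {O O' : Set (Fin n → Jt ρ a)} {U V : (Fin n → Jt ρ a) → ℂ} {ι : Type}
  {l : Fin n → ℂ} {j : Fin n → Jt ρ a}

theorem op_univ : Op m (univ : Set (Fin n → Jt ρ a)) := ⟨_, _, _, si_const 1, by simp⟩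

theorem SI.op {d : Fin n → ℕ} (h : SI m c d U) : Op m {j | U j ≠ 0} := ⟨_, _, _, h, fun _ => .rfl⟩

theorem Op.inter (h : Op m O) (h' : Op m O') : Op m (O ∩ O') :=
  let ⟨_, _, _, h1, h2⟩ := h
  let ⟨_, _, _, k1, k2⟩ := h'
  ⟨_, _, _, h1.mul k1, fun j => by rw [mem_inter_iff, h2, k2, mul_ne_zero_iff]⟩

theorem Op.iInter [Fintype ι] {O : ι → Set (Fin n → Jt ρ a)} (h : ∀ i, Op m (O i)) :
    Op m {j | ∀ i, j ∈ O i} := by
  choose c d D h1 h2 using h
  exact ⟨_, _, _, SI.prod Finset.univ fun i _ => h1 i, fun j => by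
    simp [Finset.prod_ne_zero_iff, h2]⟩

theorem Op.sel {O : Set (Fin n' → Jt ρ a)} (h : Op m O) (σ : Fin n' → Fin n) :
    Op m {j : Fin n → Jt ρ a | (fun i => j (σ i)) ∈ O} :=
  let ⟨_, _, _, h1, h2⟩ := h
  ⟨_, _, _, h1.sel σ, fun _ => h2 _⟩

theorem Op.isOpen (h : Op m O) : IsOpen O := by
  obtain ⟨_, _, D, h1, h2⟩ := h
  rw [show O = {j | D j ≠ 0} from Set.ext h2]
  exact isOpen_ne_fun h1.sh.cont continuous_const

theorem Op.law (h : Op m O) (hl : ∀ k, l k ≠ 0) (hg : g.det ≠ 0) :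
    (fun k => sc m (l k) (act g (j k))) ∈ O ↔ j ∈ O := by
  obtain ⟨_, _, D, h1, h2⟩ := h
  rw [h2, h2, h1.law]
  simp [hg, Finset.prod_eq_zero_iff, hl]

theorem Op.sc (h : Op m O) (hl : ∀ k, l k ≠ 0) : (fun k => sc m (l k) (j k)) ∈ O ↔ j ∈ O := by
  simpa only [act_one] using h.law (g := 1) (j := j) hl (by simp)

theorem IV.hv (h : IV m O U) : HV m O U :=
  let ⟨_, d, N, E, h1, h2, h3⟩ := h
  ⟨d, N, E, h1.sh, h2.sh, h3⟩

theorem HV.an (h : HV m O U) (hO : IsOpen O) (hj : j ∈ O) : AnalyticAt ℂ U j :=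
  let ⟨_, _, _, h1, h2, h3⟩ := h
  ((h1.an j).div (h2.an j) (h3 j hj).1).congr
    (Filter.mem_of_superset (hO.mem_nhds hj) fun j' k => (h3 j' k).2.symm)

theorem IV.an (h : IV m O U) (hO : Op m O) (hj : j ∈ O) : AnalyticAt ℂ U j := h.hv.an hO.isOpen hj

theorem HV.sc (h : HV m O U) (hO : Op m O) (hl : ∀ k, l k ≠ 0) (hj : j ∈ O) :
    U (fun k => sc m (l k) (j k)) = U j := by
  obtain ⟨_, N, E, h1, h2, h3⟩ := h
  rw [(h3 _ ((hO.sc hl).2 hj)).2, (h3 j hj).2, h1.sc, h2.sc,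
    mul_div_mul_left _ _ (Finset.prod_ne_zero_iff.2 fun k _ => pow_ne_zero _ (hl k))]

theorem IV.law (h : IV m O U) (hO : Op m O) (hl : ∀ k, l k ≠ 0) (hg : g.det ≠ 0) (hj : j ∈ O) :
    U (fun k => sc m (l k) (act g (j k))) = U j := by
  obtain ⟨_, _, N, E, h1, h2, h3⟩ := h
  rw [(h3 _ ((hO.law hl hg).2 hj)).2, (h3 j hj).2, h1.law, h2.law,
    mul_div_mul_left _ _ (Finset.prod_ne_zero_iff.2 fun k _ => pow_ne_zero _ (hl k)),
    mul_div_mul_left _ _ (pow_ne_zero _ hg)]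

theorem IV.mono (h : IV m O U) (k : ∀ j ∈ O', j ∈ O ∧ V j = U j) : IV m O' V :=
  let ⟨c, d, N, E, h1, h2, h3⟩ := h
  ⟨c, d, N, E, h1, h2, fun j hj => ⟨(h3 j (k j hj).1).1, (k j hj).2.trans (h3 j (k j hj).1).2⟩⟩

theorem HV.mono (h : HV m O U) (k : ∀ j ∈ O', j ∈ O ∧ V j = U j) : HV m O' V :=
  let ⟨d, N, E, h1, h2, h3⟩ := h
  ⟨d, N, E, h1, h2, fun j hj => ⟨(h3 j (k j hj).1).1, (k j hj).2.trans (h3 j (k j hj).1).2⟩⟩

theorem IV.sel {O : Set (Fin n' → Jt ρ a)} {U : (Fin n' → Jt ρ a) → ℂ} (h : IV m O U)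
    (σ : Fin n' → Fin n) :
    IV m {j : Fin n → Jt ρ a | (fun i => j (σ i)) ∈ O} fun j => U fun i => j (σ i) :=
  let ⟨c, _, _, _, h1, h2, h3⟩ := h
  ⟨c, _, _, _, h1.sel σ, h2.sel σ, fun _ hj => h3 _ hj⟩

theorem HV.sel {O : Set (Fin n' → Jt ρ a)} {U : (Fin n' → Jt ρ a) → ℂ} (h : HV m O U)
    (σ : Fin n' → Fin n) :
    HV m {j : Fin n → Jt ρ a | (fun i => j (σ i)) ∈ O} fun j => U fun i => j (σ i) :=
  let ⟨_, _, _, h1, h2, h3⟩ := h
  ⟨_, _, _, h1.sel σ, h2.sel σ, fun _ hj => h3 _ hj⟩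

theorem iv_const (t : ℂ) : IV m O fun _ => t := ⟨_, _, _, _, si_const t, si_const 1, by simp⟩

theorem hv_const (t : ℂ) : HV m O fun _ => t := (iv_const t).hv

theorem IV.mul (h : IV m O U) (h' : IV m O V) : IV m O fun j => U j * V j :=
  let ⟨_, _, _, _, h1, h2, h3⟩ := h
  let ⟨_, _, _, _, k1, k2, k3⟩ := h'
  ⟨_, _, _, _, h1.mul k1, h2.mul k2, fun j hj => ⟨mul_ne_zero (h3 j hj).1 (k3 j hj).1, by
    rw [← div_mul_div_comm, ← (h3 j hj).2, ← (k3 j hj).2]⟩⟩

theorem HV.mul (h : HV m O U) (h' : HV m O V) : HV m O fun j => U j * V j :=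
  let ⟨_, _, _, h1, h2, h3⟩ := h
  let ⟨_, _, _, k1, k2, k3⟩ := h'
  ⟨_, _, _, h1.mul k1, h2.mul k2, fun j hj => ⟨mul_ne_zero (h3 j hj).1 (k3 j hj).1, by
    rw [← div_mul_div_comm, ← (h3 j hj).2, ← (k3 j hj).2]⟩⟩

theorem IV.add (h : IV m O U) (h' : IV m O V) : IV m O fun j => U j + V j :=
  let ⟨_, _, _, _, h1, h2, h3⟩ := h
  let ⟨_, _, _, _, k1, k2, k3⟩ := h'
  ⟨_, _, _, _, (h1.mul k2).add (h2.mul k1), h2.mul k2, fun j hj =>
    ⟨mul_ne_zero (h3 j hj).1 (k3 j hj).1, by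
      rw [← div_add_div _ _ (h3 j hj).1 (k3 j hj).1, ← (h3 j hj).2, ← (k3 j hj).2]⟩⟩

theorem HV.add (h : HV m O U) (h' : HV m O V) : HV m O fun j => U j + V j :=
  let ⟨_, _, _, h1, h2, h3⟩ := h
  let ⟨_, _, _, k1, k2, k3⟩ := h'
  ⟨_, _, _, (h1.mul k2).add (h2.mul k1), h2.mul k2, fun j hj =>
    ⟨mul_ne_zero (h3 j hj).1 (k3 j hj).1, by
      rw [← div_add_div _ _ (h3 j hj).1 (k3 j hj).1, ← (h3 j hj).2, ← (k3 j hj).2]⟩⟩

theorem IV.div (h : IV m O U) (h' : IV m O V) (k : ∀ j ∈ O, V j ≠ 0) : IV m O fun j => U j / V j :=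
  let ⟨_, _, _, _, k1, k2, k3⟩ := h'
  h.mul (V := fun j => (V j)⁻¹) ⟨_, _, _, _, k2, k1, fun j hj =>
    ⟨fun e => k j hj (by rw [(k3 j hj).2, e, zero_div]), by rw [← inv_div, ← (k3 j hj).2]⟩⟩

theorem HV.eval {σ : Type} {H : σ → (Fin n → Jt ρ a) → ℂ} (h : ∀ s, HV m O (H s))
    (Ψ : MvPolynomial σ ℂ) : HV m O fun j => MvPolynomial.eval (fun s => H s j) Ψ := by
  induction Ψ using MvPolynomial.induction_on with
  | C t => simpa using hv_const t
  | add _ _ h1 h2 => simpa using h1.add h2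
  | mul_X _ s h1 => simpa using h1.mul (h s)

/-- common denominators -/
theorem IV.com [Fintype ι] {U : ι → (Fin n → Jt ρ a) → ℂ} (h : ∀ i, IV m O (U i)) :
    ∃ (c : ℕ) (d : Fin n → ℕ) (N : ι → (Fin n → Jt ρ a) → ℂ) (E : (Fin n → Jt ρ a) → ℂ),
      (∀ i, SI m c d (N i)) ∧ SI m c d E ∧ ∀ j ∈ O, E j ≠ 0 ∧ ∀ i, U i j = N i j / E j := by
  classical
  choose c d N E h1 h2 h3 using h
  refine ⟨_, _, fun i j => N i j * ∏ k ∈ Finset.univ.erase i, E k j, _, fun i =>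
    ((h1 i).mul (SI.prod _ fun k _ => h2 k)).cast (Finset.add_sum_erase _ _ (Finset.mem_univ i))
      (funext fun k => Finset.add_sum_erase _ (fun i => d i k) (Finset.mem_univ i)),
    SI.prod Finset.univ fun k _ => h2 k, fun j hj =>
      ⟨Finset.prod_ne_zero_iff.2 fun k _ => (h3 k j hj).1, fun i => ?_⟩⟩
  rw [(h3 i j hj).2, ← Finset.mul_prod_erase _ (fun k => E k j) (Finset.mem_univ i),
    mul_div_mul_right _ _ (Finset.prod_ne_zero_iff.2 fun k _ => (h3 k j hj).1)]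

end iv

end Vale.Agent.P281Z.Ga
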