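import Mathlib

/-!
# P281Z, block III, part A: monomials, relations, implicit functions
-/

open scoped Topology ContDiff Matrix
open Set Filter Function MvPolynomial

noncomputable section

namespace Vale.Agent.P281Z.Ga.Lv1

variable {σ ι : Type} [Fintype σ] [Fintype ι] {r : ℕ}

/-- monomials -/
def mon (β : σ →₀ ℕ) (t : σ → ℂ) : ℂ := ∏ b, t b ^ β b

/-- the determinant of the monomials `β` at the points `t` -/
def dtm (β : Fin r → σ →₀ ℕ) (t : Fin r → σ → ℂ) : ℂ := (Matrix.of fun i g => mon (β i) (t g)).det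

theorem eval_eq {β : Fin r → σ →₀ ℕ} (hβ : Injective β) {P : MvPolynomial σ ℂ}
    (hP : ∀ m ∈ P.support, m ∈ range β) (t : σ → ℂ) :
    eval t P = ∑ i, coeff (β i) P * mon (β i) t := by
  classical
  rw [eval_eq', ← Finset.sum_image (s := Finset.univ) (g := β)
    (f := fun m => coeff m P * mon m t) fun _ _ _ _ h => hβ h]
  exact Finset.sum_subset (fun m hm => by simpa using hP m hm) fun m _ hm => by
    rw [notMem_support_iff.1 hm, zero_mul]

theorem indep {β : Fin r → σ →₀ ℕ} (hβ : Injective β) {P : MvPolynomial σ ℂ}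
    (hP : ∀ m ∈ P.support, m ∈ range β) {t : Fin r → σ → ℂ} (ht : dtm β t ≠ 0)
    (h : ∀ g, eval (t g) P = 0) : P = 0 := by
  have k : (fun i => coeff (β i) P) = 0 := Matrix.eq_zero_of_vecMul_eq_zero
    (M := Matrix.of fun i g => mon (β i) (t g)) ht (funext fun g => by
      have a := h g
      rw [eval_eq hβ hP] at a
      exact a)
  refine MvPolynomial.ext _ _ fun m => by_contra fun a => ?_
  obtain ⟨i, rfl⟩ := hP m (mem_support_iff.2 a)
  exact a (congrFun k i)

theorem cramer {β : Fin r → σ →₀ ℕ} {μ : σ →₀ ℕ} {z : Fin r → ℂ} {t : Fin r → σ → ℂ}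
    (h : ∀ g, mon μ (t g) = ∑ i, z i * mon (β i) (t g)) (i : Fin r) :
    dtm (update β i μ) t = z i * dtm β t := by
  refine Eq.trans (congrArg Matrix.det ?_) (Matrix.det_updateRow_sum _ i z)
  ext i' g
  by_cases k : i' = i
  · subst k
    simp [h, Finset.sum_apply]
  · simp [Matrix.updateRow_ne k, update_of_ne k]

theorem rel_of {A : Set (σ → ℂ)} {β : Fin (r + 1) → σ →₀ ℕ} (k : Fin (r + 1))
    (h0 : ∀ t : Fin (r + 1) → σ → ℂ, (∀ g, t g ∈ A) → dtm β t = 0) {t₀ : Fin r → σ → ℂ}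
    (h1 : ∀ g, t₀ g ∈ A) (h2 : dtm (fun i => β (k.succAbove i)) t₀ ≠ 0) :
    ∃ z : Fin r → ℂ, ∀ t ∈ A, mon (β k) t = ∑ i, z i * mon (β (k.succAbove i)) t := by
  obtain ⟨z, hz⟩ := Matrix.vecMul_surjective_iff_isUnit.2
    ((Matrix.isUnit_iff_isUnit_det _).2 (Ne.isUnit h2)) fun g => mon (β k) (t₀ g)
  refine ⟨z, fun t ht => ?_⟩
  obtain ⟨u, u0, hu⟩ := Matrix.exists_vecMul_eq_zero_iff.2
    (h0 (Fin.cons t t₀) (Fin.cases ht h1))
  have a : ∀ g, u k * mon (β k) (Fin.cons (α := fun _ => σ → ℂ) t t₀ g) +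
      ∑ i, u (k.succAbove i) * mon (β (k.succAbove i)) (Fin.cons (α := fun _ => σ → ℂ) t t₀ g) = 0 :=
    fun g => (Fin.sum_univ_succAbove (fun i => u i * mon (β i) _) k).symm.trans (congrFun hu g)
  have b : (fun i => u k * z i + u (k.succAbove i)) = 0 :=
    Matrix.eq_zero_of_vecMul_eq_zero h2 (funext fun g => by
      have c : ∑ i, z i * mon (β (k.succAbove i)) (t₀ g) = mon (β k) (t₀ g) := congrFun hz g
      have d := a g.succ
      rw [Fin.cons_succ, ← c, Finset.mul_sum, ← Finset.sum_add_distrib] at d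
      exact (Finset.sum_congr rfl fun i _ => by simp only [Matrix.of_apply]; ring).trans d)
  have c : ∀ i, u (k.succAbove i) = -(u k * z i) := fun i =>
    eq_neg_of_add_eq_zero_right (congrFun b i)
  have d : u k ≠ 0 := fun e => u0 (funext (k.succAboveCases e fun i => by simp [c, e]))
  have e := a 0
  simp only [Fin.cons_zero, c, neg_mul, Finset.sum_neg_distrib, mul_assoc, ← Finset.mul_sum] at e
  exact mul_left_cancel₀ d (add_neg_eq_zero.1 e)

/-- the family is closed under lowering the first exponent -/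
def Cl (β : Fin r → Option ι →₀ ℕ) : Prop :=
  ∀ m, m + Finsupp.single none 1 ∈ range β → m ∈ range β

theorem box (P : MvPolynomial (Option ι) ℂ) : ∃ (r : ℕ) (β : Fin r → Option ι →₀ ℕ),
    Injective β ∧ Cl β ∧ ∀ m ∈ P.support, m ∈ range β := by
  obtain ⟨r, β, h1, h2⟩ := (Finsupp.finite_of_degree_le (σ := Option ι)
    (P.support.sup Finsupp.degree)).fin_param
  refine ⟨r, β, h1, fun m hm => ?_, fun m hm => h2 ▸ Finset.le_sup (f := Finsupp.degree) hm⟩
  rw [h2] at hm ⊢
  exact le_trans ((Nat.le_add_right _ _).trans (map_add Finsupp.degree m _).ge) hm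

omit [Fintype ι] in
theorem Cl.low {β : Fin (r + 1) → Option ι →₀ ℕ} (h : Cl β) {k : Fin (r + 1)}
    (hk : ∀ i, β i none ≤ β k none) {m} (hm : m + Finsupp.single none 1 ∈ range β) :
    m ∈ range fun i => β (k.succAbove i) := by
  obtain ⟨i, rfl⟩ := h m hm
  obtain ⟨i', e⟩ := hm
  rcases Fin.eq_self_or_eq_succAbove k i with rfl | ⟨j, rfl⟩
  · have := hk i'
    simp [e] at this
  · exact ⟨j, rfl⟩

omit [Fintype ι] in
/-- a minimal dependent family -/
theorem minimal {GI : ∀ r, (Fin r → Option ι →₀ ℕ) → Prop} (h0 : ∀ β, GI 0 β)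
    (h : ∃ r β, Injective β ∧ Cl β ∧ ¬ GI r β) :
    ∃ (r : ℕ) (β : Fin (r + 1) → Option ι →₀ ℕ) (k : Fin (r + 1)), Injective β ∧ Cl β ∧
      (∀ i, β i none ≤ β k none) ∧ ¬ GI _ β ∧ GI r fun i => β (k.succAbove i) := by
  classical
  obtain ⟨r, ⟨β, h1, h2, h3⟩, hm⟩ := (Nat.lt_wfRel.wf.has_min _ h)
  rcases r with _ | r
  · exact (h3 (h0 β)).elim
  obtain ⟨k, hk⟩ := Finite.exists_max fun i => β i none
  exact ⟨r, β, k, h1, h2, hk, h3, by_contra fun a => hm r ⟨_, h1.comp Fin.succAbove_right_injective,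
    fun m ⟨i, e⟩ => h2.low hk ⟨_, e⟩, a⟩ (Nat.lt_succ_self r)⟩

/-- the relation -/
def pol (β : Fin (r + 1) → σ →₀ ℕ) (k : Fin (r + 1)) (z : Fin r → ℂ) : MvPolynomial σ ℂ :=
  monomial (β k) 1 - ∑ i, monomial (β (k.succAbove i)) (z i)

theorem eval_pol (β : Fin (r + 1) → σ →₀ ℕ) (k : Fin (r + 1)) (z : Fin r → ℂ) (t : σ → ℂ) :
    eval t (pol β k z) = mon (β k) t - ∑ i, z i * mon (β (k.succAbove i)) t := by
  simp [pol, mon, eval_monomial, Finsupp.prod_fintype]

omit [Fintype σ] in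
theorem coeff_pol {β : Fin (r + 1) → σ →₀ ℕ} (hβ : Injective β) (k : Fin (r + 1)) (z : Fin r → ℂ) :
    coeff (β k) (pol β k z) = 1 := by
  classical
  simp [pol, coeff_sum, coeff_monomial, hβ.eq_iff]

omit [Fintype σ] in
theorem supp_pol (β : Fin (r + 1) → σ →₀ ℕ) (k : Fin (r + 1)) (z : Fin r → ℂ) {m}
    (h : coeff m (pol β k z) ≠ 0) : m ∈ range β := by
  classical
  by_contra a
  have b : ∀ i, β i ≠ m := fun i e => a ⟨i, e⟩
  simp [pol, coeff_sum, coeff_monomial, b] at h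

/-- the relation depends on the first variable -/
theorem der_ne {β : Fin (r + 1) → Option ι →₀ ℕ} (hβ : Injective β) (hc : Cl β) {k : Fin (r + 1)}
    (hk : ∀ i, β i none ≤ β k none) {z : Fin r → ℂ} {A : Set (Option ι → ℂ)}
    (hA : ∀ t ∈ A, eval t (pol β k z) = 0) {u₀ : ι → ℂ}
    (hu : ∀ᶠ u in 𝓝 u₀, ∃ t ∈ A, ∀ b, t (some b) = u b) {t₀ : Fin r → Option ι → ℂ}
    (h2 : dtm (fun i => β (k.succAbove i)) t₀ ≠ 0) :
    ∃ g, eval (t₀ g) (pderiv none (pol β k z)) ≠ 0 := by
  by_contra! a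
  have b := indep (hβ.comp Fin.succAbove_right_injective) (fun m hm => hc.low hk (supp_pol β k z
    (left_ne_zero_of_mul ((coeff_pderiv _ m).symm.trans_ne (mem_support_iff.1 hm))))) h2 a
  have c : β k none = 0 := by
    by_contra c
    have d := coeff_pderiv (i := none) (pol β k z) (β k - Finsupp.single none 1)
    rw [b, tsub_add_cancel_of_le (Finsupp.single_le_iff.2 (Nat.one_le_iff_ne_zero.2 c)),
      coeff_pol hβ, coeff_zero, one_mul] at d
    exact Nat.cast_add_one_ne_zero _ d.symm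
  obtain ⟨ε, e1, e2⟩ := Metric.eventually_nhds_iff_ball.1 hu
  have d : pol β k z = 0 := funext_set (fun o => o.elim univ fun b => Metric.ball (u₀ b) ε)
    (fun o => by
      cases o
      · exact infinite_univ
      · exact infinite_of_mem_nhds _ (Metric.ball_mem_nhds _ e1)) fun t ht => by
    obtain ⟨t', t1, t2⟩ := e2 (fun b => t (some b))
      (ball_pi u₀ e1 ▸ fun b _ => ht (some b) trivial)
    have e : ∀ i, mon (β i) t = mon (β i) t' := fun i => by
      simp only [mon, Fintype.prod_option, t2, Nat.le_zero.1 (c ▸ hk i), pow_zero]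
    rw [map_zero, ← hA t' t1, eval_pol, eval_pol]
    simp only [e]
  exact one_ne_zero ((coeff_pol hβ k z).symm.trans (d ▸ coeff_zero _))

omit [Fintype ι] in
theorem hasDer (P : MvPolynomial (Option ι) ℂ) (u : ι → ℂ) (s : ℂ) :
    HasDerivAt (fun s => eval (fun o : Option ι => o.elim s u) P)
      (eval (fun o : Option ι => o.elim s u) (pderiv none P)) s := by
  classical
  induction P using MvPolynomial.induction_on with
  | C a => simpa using hasDerivAt_const s a
  | add p q hp hq => simpa using hp.fun_add hq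
  | mul_X p o hp =>
    cases o with
    | none => simpa [add_comm, mul_comm] using hp.fun_mul (hasDerivAt_id' s)
    | some b => simpa [mul_comm] using hp.mul_const (u b)

/-- the implicit function theorem -/
theorem ift {E : Type} [NormedAddCommGroup E] [NormedSpace ℂ E] [CompleteSpace E] {G : E × ℂ → ℂ}
    {w : E × ℂ} (hG : AnalyticAt ℂ G w) {c : ℂ} (hc : c ≠ 0)
    (h : HasDerivAt (fun s => G (w.1, s)) c w.2) :
    ∃ F : E → ℂ, AnalyticAt ℂ F w.1 ∧ ∀ᶠ w' in 𝓝 w, G w' = G w → w'.2 = F w'.1 := by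
  have a : ContDiffAt ℂ ω G w := hG.contDiffAt
  have b : (fderiv ℂ G w ∘L .inr ℂ E ℂ).IsInvertible := by
    rw [(hG.differentiableAt.hasFDerivAt.comp w.2 (hasFDerivAt_prodMk_right w.1 w.2)).unique
      h.hasFDerivAt]
    exact ⟨ContinuousLinearEquiv.unitsEquivAut ℂ (Units.mk0 c hc), by ext; simp⟩
  exact ⟨_, (a.contDiffAt_implicitFunction (by simp) b).analyticAt,
    (a.eventually_apply_eq_iff_implicitFunction (by simp) b).mono fun _ k e => (k.1 e).symm⟩

/-- the first variable is a function of the coefficients and of the other variables -/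
theorem solve (β : Fin (r + 1) → Option ι →₀ ℕ) (k : Fin (r + 1)) {z : Fin r → ℂ} {u : ι → ℂ} {s : ℂ}
    (h0 : eval (fun o : Option ι => o.elim s u) (pol β k z) = 0)
    (h : eval (fun o : Option ι => o.elim s u) (pderiv none (pol β k z)) ≠ 0) :
    ∃ F : (Fin r → ℂ) × (ι → ℂ) → ℂ, AnalyticAt ℂ F (z, u) ∧ ∀ᶠ w in 𝓝 ((z, u), s),
      eval (fun o : Option ι => o.elim w.2 w.1.2) (pol β k w.1.1) = 0 → w.2 = F w.1 := by
  have a : ∀ (μ : Option ι →₀ ℕ), AnalyticAt ℂ (fun w : ((Fin r → ℂ) × (ι → ℂ)) × ℂ =>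
      mon μ fun o : Option ι => o.elim w.2 w.1.2) ((z, u), s) := fun μ => by
    refine Finset.analyticAt_fun_prod _ fun o _ => AnalyticAt.fun_pow ?_ _
    cases o
    · exact analyticAt_snd
    · exact analyticAt_pi_iff.1 (analyticAt_snd.comp analyticAt_fst) _
  have b : AnalyticAt ℂ (fun w : ((Fin r → ℂ) × (ι → ℂ)) × ℂ =>
      eval (fun o : Option ι => o.elim w.2 w.1.2) (pol β k w.1.1)) ((z, u), s) := by
    simp only [eval_pol]
    exact (a _).fun_sub (Finset.analyticAt_fun_sum _ fun i _ =>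
      (analyticAt_pi_iff.1 (analyticAt_fst.comp analyticAt_fst) i).fun_mul (a _))
  obtain ⟨F, h1, h2⟩ := ift b h (hasDer (pol β k z) u s)
  exact ⟨F, h1, h2.mono fun w k e => k (e.trans h0.symm)⟩

end Vale.Agent.P281Z.Ga.Lv1
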