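import Vale.Agent.P281Z.Ga.Sk
import Vale.Agent.P281Z.Ga.Alg
import Vale.Agent.P281Z.Ga.Lev1A
import Vale.Agent.P281Z.Gl.Thn
import Vale.Agent.P277Z.Lo.Base

/-!
# P281Z, block III, part A: the moduli of one invariant
-/

open scoped Manifold ContDiff Topology
open Set Filter Function
open Vale.Agent.P272.K
open Vale.Agent.P277Z (Hol Mer at_chart)
open Vale.Agent.P277Z.Slc (Ind)

noncomputable section

namespace Vale.Agent.P281Z.Ga

open Gt

namespace Lv1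

variable {p a m ρ n r : ℕ} {ι κ : Type} [Fintype ι] {O : Set (Fin n → Jt ρ a)}

theorem iv_prod (s : Finset κ) {U : κ → (Fin n → Jt ρ a) → ℂ} (h : ∀ i, IV m O (U i)) :
    IV m O fun j => ∏ i ∈ s, U i j := by
  classical
  induction s using Finset.induction_on with
  | empty => simpa using iv_const 1
  | insert i s hi k => simpa [Finset.prod_insert hi] using (h i).mul k

theorem iv_sum (s : Finset κ) {U : κ → (Fin n → Jt ρ a) → ℂ} (h : ∀ i, IV m O (U i)) :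
    IV m O fun j => ∑ i ∈ s, U i j := by
  classical
  induction s using Finset.induction_on with
  | empty => simpa using iv_const 0
  | insert i s hi k => simpa [Finset.sum_insert hi] using (h i).add k

theorem iv_pow {U : (Fin n → Jt ρ a) → ℂ} (h : IV m O U) (e : ℕ) : IV m O fun j => U j ^ e := by
  simpa using iv_prod (Finset.range e) fun _ => h

theorem op_ne {U : (Fin n → Jt ρ a) → ℂ} (hO : Op m O) (h : IV m O U) :
    Op m {j | j ∈ O ∧ U j ≠ 0} :=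
  let ⟨_, _, _, h1, h2⟩ := hO
  let ⟨_, _, _, _, k1, _, k3⟩ := h
  ⟨_, _, _, h1.mul k1, fun j => by
    rw [mul_ne_zero_iff, ← h2]
    exact and_congr_right fun hj => by rw [(k3 j hj).2, div_ne_zero_iff, and_iff_left (k3 j hj).1]⟩

/-- the slots of a group -/
def gr {T : Type} (g : Fin r) (j : Fin (r * n) → T) (k : Fin n) : T := j (finProdFinEquiv (g, k))

variable (O) in
/-- all the groups are good -/
def Og (r : ℕ) : Set (Fin (r * n) → Jt ρ a) := {j | ∀ g : Fin r, gr g j ∈ O}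

variable (V : Option ι → (Fin n → Jt ρ a) → ℂ)

/-- the determinant of the monomials -/
def Dt (β : Fin r → Option ι →₀ ℕ) (j : Fin (r * n) → Jt ρ a) : ℂ :=
  dtm β fun g o => V o (gr g j)

variable (O) in
/-- the monomials are independent -/
def Ob (β : Fin r → Option ι →₀ ℕ) : Set (Fin (r * n) → Jt ρ a) := {j | j ∈ Og O r ∧ Dt V β j ≠ 0}

variable {V}

theorem op_og (hO : Op m O) (r : ℕ) : Op m (Og O r) := Op.iInter fun _ => hO.sel _

theorem iv_dt (hV : ∀ o, IV m O (V o)) (β : Fin r → Option ι →₀ ℕ) : IV m (Og O r) (Dt V β) := by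
  unfold Dt dtm mon
  simp only [Matrix.det_apply', Matrix.of_apply]
  exact iv_sum _ fun σ => (iv_const _).mul (iv_prod _ fun g => iv_prod _ fun o =>
    iv_pow (((hV o).sel fun k => finProdFinEquiv (g, k)).mono (O' := Og O r)
      fun j hj => ⟨hj g, rfl⟩) _)

theorem op_ob (hO : Op m O) (hV : ∀ o, IV m O (V o)) (β : Fin r → Option ι →₀ ℕ) :
    Op m (Ob O V β) := op_ne (op_og hO r) (iv_dt hV β)

variable {M : Fb (p + a) p} {R : JS M m ρ}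

variable (R O V) in
/-- the values at the good points of a fibre -/
def Av (y : M.Y.X) : Set (Option ι → ℂ) :=
  {t | ∃ x, (y, x) ∈ R.Nc n ∧ R.Jq (y, x) ∈ O ∧ (fun o => V o (R.Jq (y, x))) = t}

omit [Fintype ι] in
theorem nc_gr {q : Pt M (r * n)} (h : q ∈ R.Nc (r * n)) (g : Fin r) : (q.1, gr g q.2) ∈ R.Nc n :=
  ⟨fun _ => h.1 _, h.2.1, fun _ => h.2.2 _⟩

omit [Fintype ι] in
theorem av_gr {q : Pt M (r * n)} (h1 : q ∈ R.Nc (r * n)) (h2 : R.Jq q ∈ Og O r) (g : Fin r) :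
    (fun o => V o (gr g (R.Jq q))) ∈ Av O V R q.1 := ⟨gr g q.2, nc_gr h1 g, h2 g, rfl⟩

omit [Fintype ι] in
theorem ex_tup {y : M.Y.X} (hy : y ∉ R.Q) {t : Fin r → Option ι → ℂ} (h : ∀ g, t g ∈ Av O V R y) :
    ∃ q ∈ R.Nc (r * n), R.Jq q ∈ Og O r ∧ (fun g o => V o (gr g (R.Jq q))) = t := by
  choose x h1 h2 h3 using h
  have e : ∀ g, gr g (R.Jq (y, fun s => x (finProdFinEquiv.symm s).1 (finProdFinEquiv.symm s).2)) =
      R.Jq (y, x g) := fun g => funext fun k => by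
    simp only [gr, JS.Jq, JS.Ji, Equiv.symm_apply_apply]
  exact ⟨(y, fun s => x (finProdFinEquiv.symm s).1 (finProdFinEquiv.symm s).2),
    ⟨fun _ => (h1 _).1 _, hy, fun _ => (h1 _).2.2 _⟩, fun g => e g ▸ h2 g,
    funext fun g => by rw [e, h3]⟩

section pw

variable {N K : ℕ} {M : Fb N p} {Q Q' : Set M.Y.X} (W : Pw M n K Q)

theorem pw_ex (hM : M.Ok) {y : M.Y.X} (hy : y ∉ Q) : ∃ v, (W.γ v).1 = y := by
  obtain ⟨x, rfl⟩ := hM.fibn.surj y
  obtain ⟨v, k, -⟩ := W.bij (dg n x) (fun _ => rfl) hy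
  exact ⟨v, congrArg Prod.fst k⟩

theorem pw_surj (hM : M.Ok) (hQ : Thin p Q) : Surjective fun v => (W.γ v).1 := fun y =>
  closure_minimal (fun _ hy => pw_ex W hM hy) (isCompact_range (Thn.cont W).fst).isClosed
    (hQ.dense y)

theorem pw_thin (hM : M.Ok) (hQ : Thin p Q') (h : Q ⊆ Q') : Thin K ((fun v => (W.γ v).1) ⁻¹' Q') := by
  have := W.conn
  have := hM.connY
  obtain ⟨y, hy⟩ := hQ.dense.nonempty
  obtain ⟨v, hv⟩ := pw_ex W hM (mt (@h y) hy)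
  exact Thin.pre_of_ex hQ.an (fun v => (W.tm v).b) ⟨v, by rwa [hv]⟩

end pw

/-- a function of the base which is given by an invariant is meromorphic -/
theorem mr_of (hT : TST) (hZ : THZ) (hP : PW) (hL : LDESC) (hM : Std M m) {Q : Set M.Y.X}
    (hQ : Thin p Q) (hs : R.Q ⊆ Q) (hO : Op m O) {Z : (Fin n → Jt ρ a) → ℂ} (hI : IV m O Z)
    (hx : ∀ y ∉ Q, ∃ x, (y, x) ∈ R.Nc n ∧ R.Jq (y, x) ∈ O) {z : M.Y.X → ℂ}
    (hz : ∀ q ∈ R.Nc n, q.1 ∉ Q → R.Jq q ∈ O → Z (R.Jq q) = z q.1) : Mr p Q z := by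
  obtain ⟨W⟩ := hP p a n M R.Q hM.ok hM.kahX hM.kahY R.thin fun y hy => ⟨R.reg y hy, R.conn y hy⟩
  have := hM.ok.connY
  obtain ⟨y₀, hy₀⟩ := hQ.dense.nonempty
  have T := (hZ p a m ρ M R hM n O W hO (let ⟨x, h⟩ := hx y₀ hy₀; ⟨_, h⟩)).union
    (pw_thin W hM.ok hQ hs)
  have e := fun v (hv : v ∉ {v | ¬ (W.γ v ∈ R.Nc n ∧ R.Jq (W.γ v) ∈ O)} ∪
      (fun v => (W.γ v).1) ⁻¹' Q) => ((not_or.1 hv).imp_left not_not.1 : (_ ∧ _) ∧ _)
  have e' := fun v hv => hz _ (e v hv).1.1 (e v hv).2 (e v hv).1.2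
  have t := fun v => (hT p a m ρ M R hM n _ W.V.X W.γ v (W.tm v)).2.2 O Z hO hI
  have hol : ∀ y ∉ Q, Hol p z y := fun y hy => by
    obtain ⟨x, k1, k2⟩ := hx y hy
    obtain ⟨v, hv, -⟩ := W.bij _ k1.1 k1.2.1
    rw [← hv] at k1 k2
    obtain rfl : (W.γ v).1 = y := congrArg Prod.fst hv
    exact (Thn.sbm W hM.ok.fibn.hol k1.2.1 fun x =>
      (R.reg _ k1.2.1).sbm hM.ok.fibn.hol hM.ok.snc).hol_desc (W.tm v).b (((t v).1 k1.2.2 k2).congr
      (mem_of_superset (T.closed.isOpen_compl.mem_nhds (not_or.2 ⟨not_not.2 ⟨k1, k2⟩, hy⟩)) e'))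
  exact ⟨hol, fun y => hL _ p W.V M.Y _ Q z y (fun v => (W.tm v).b) (pw_surj W hM.ok R.thin) hQ
    (pw_thin W hM.ok hQ hs).dense (.of_forall hol) fun v _ => P277Z.Lo.mer_congr
      ((t v).2 ((T.freq v).mono fun v' h => ⟨(e v' h).1.1.2.2, (e v' h).1.2⟩)) ((T.gen v).mono e')⟩

/-- the values of the coordinates on some fibre fill an open set -/
theorem ex_open (hE : ETI) (hZ : THZ) (hM : Std M m) {Q : Set M.Y.X} (hQ : Thin p Q) (hs : R.Q ⊆ Q)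
    (hI : R.Inv O fun b => V (some b)) (W : Pw M n (p + n * a) R.Q) :
    ∃ y ∉ Q, ∃ u₀ : ι → ℂ, ∀ᶠ u in 𝓝 u₀, ∃ t ∈ Av O V R y, ∀ b, t (some b) = u b := by
  obtain ⟨q, q1, q2, q3⟩ := hI.ex
  obtain ⟨v₀, rfl, -⟩ := W.bij q q1.1 q1.2.1
  have T := hZ p a m ρ M R hM n O W hI.op ⟨_, q1, q2⟩
  obtain ⟨Θ, -, c2, c3, c4⟩ := exists_co
    ((hE p a m ρ M R hM n ι O _ W v₀ hI.card hI.op hI.iv q1 q2).1 q3) (d := 0)
    (by simp [hI.card]) (inter_mem (T.closed.isOpen_compl.mem_nhds (not_not.2 ⟨q1, q2⟩))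
      ((W.tm v₀).b.cont.eventually (at_near (R.atc _ _ (R.fr_mem _)))))
  obtain ⟨v₁, d1, d2⟩ := (((pw_thin W hM.ok hQ hs).freq v₀).and_eventually
    (Θ.open_source.mem_nhds c2)).exists
  have c : Continuous fun u : ι → ℂ =>
      ((Sum.elim (fun c => (Θ v₁).1 (.inl c)) u, (Θ v₁).2) : (Fin p ⊕ ι → ℂ) × Cm 0) :=
    (continuous_pi (Sum.rec (fun _ => continuous_const) continuous_apply)).prodMk continuous_const
  have c' : Θ v₁ = (Sum.elim (fun c => (Θ v₁).1 (.inl c)) fun b => (Θ v₁).1 (.inr b), (Θ v₁).2) :=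
    Prod.ext (funext (Sum.rec (fun _ => rfl) fun _ => rfl)) rfl
  refine ⟨_, d1, fun b => (Θ v₁).1 (.inr b), (c.continuousAt.eventually (Θ.open_target.mem_nhds
    (c' ▸ Θ.map_source d2 :))).mono fun u hu => ?_⟩
  have k1 := Θ.map_target hu
  have k2 := c4 _ k1
  rw [Θ.right_inv hu] at k2
  obtain ⟨k3, k4⟩ := c3 k1
  have k5 := (R.ch _).injOn k4.2 (c3 d2).2.2 (funext fun c =>
    (congrFun k2 (.inl c)).symm.trans (congrFun (c4 _ d2) (.inl c)))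
  show ∃ t ∈ Av O V R (W.γ v₁).1, _
  rw [← k5]
  exact ⟨_, ⟨_, (not_not.1 k3).1, (not_not.1 k3).2, rfl⟩, fun b => (congrFun k2 (.inr b)).symm⟩

end Lv1

open Lv1 in
/-- **LEV1** -/
theorem lev1_of (hS : SG) (hG : VGEN) (hT : TST) (hE : ETI) (hZ : THZ) (hP : PW) (hL : LDESC) :
    LEV1 := by
  intro p a m ρ M R hM n ι _ O U F hI hF
  let V : Option ι → (Fin n → Jt ρ a) → ℂ := fun o => o.elim F U
  have hV : ∀ o, IV m O (V o) := fun o => by
    cases o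
    exacts [hF, hI.iv _]
  have eV : ∀ j, (fun o => V o j) = fun o : Option ι => o.elim (F j) fun b => U b j := fun j =>
    funext fun o => by cases o <;> rfl
  have vg := fun r β => hG p a m ρ M R hM (r * n) _ (op_ob hI.op hV β)
  have := hM.ok.connY
  obtain ⟨r, β, k, hβ, hc, hk, ng, gi⟩ := minimal
    (GI := fun r β => ∃ q ∈ R.Nc (r * n), R.Jq q ∈ Ob O V β) (fun β => by
      obtain ⟨q, q1, -⟩ := hI.ex
      obtain ⟨q', a1, a2, -⟩ := ex_tup (O := O) (V := V) q1.2.1 (t := Fin.elim0) fun g => g.elim0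
      exact ⟨q', a1, a2, Matrix.det_fin_zero.trans_ne one_ne_zero⟩) (by
      by_contra! h
      have a : ∀ s : Σ r, Fin r → Option ι →₀ ℕ, ∃ Q, Thin p Q ∧ (Injective s.2 → Cl s.2 →
          ∀ y ∉ Q, ∃ x, (y, x) ∈ R.Nc (s.1 * n) ∧ R.Jq (y, x) ∈ Ob O V s.2) := fun s => by
        by_cases k : Injective s.2 ∧ Cl s.2
        · obtain ⟨Q, a1, -, a3⟩ := vg _ _ (h _ _ k.1 k.2)
          exact ⟨Q, a1, fun _ _ => a3⟩
        · exact ⟨∅, thin_empty, fun a b => (k ⟨a, b⟩).elim⟩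
      choose Q a1 a2 using a
      obtain ⟨y, hy⟩ := (R.thin.neg.union (Neg.iUnion fun s => (a1 s).neg)).dense.nonempty
      obtain ⟨σ, s1, s2⟩ := hS p a m ρ M R hM n ι O V hI.card hI.op hV y fun k => hy (.inl k)
      obtain ⟨r, β, b1, b2, b3⟩ := box σ
      obtain ⟨x, c1, c2⟩ := a2 ⟨r, β⟩ b1 b2 y fun k => hy (.inr (mem_iUnion.2 ⟨_, k⟩))
      exact s1 (indep b1 b3 c2.2 fun g => s2 _ (nc_gr c1 g) (c2.1 g)))
  obtain ⟨Q, hQ, hs, hx⟩ := vg _ _ gi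
  have hz : ∀ y ∉ Q, ∃ z : Fin r → ℂ, ∀ t ∈ Av O V R y,
      mon (β k) t = ∑ i, z i * mon (β (k.succAbove i)) t := fun y hy => by
    obtain ⟨x, c1, c2⟩ := hx y hy
    refine rel_of k (fun t ht => by_contra fun b => ?_) (av_gr c1 c2.1) c2.2
    obtain ⟨q, d1, d2, rfl⟩ := ex_tup c1.2.1 ht
    exact ng ⟨q, d1, d2, b⟩
  choose! z hz using hz
  have crm : ∀ i, ∀ q ∈ R.Nc (r * n), q.1 ∉ Q → R.Jq q ∈ Og O r →
      Dt V (update (fun i => β (k.succAbove i)) i (β k)) (R.Jq q) =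
        z q.1 i * Dt V (fun i => β (k.succAbove i)) (R.Jq q) := fun i q a1 a2 a3 =>
    cramer (fun g => hz _ a2 _ (av_gr a1 a3 g)) i
  have mr : ∀ i, Mr p Q fun y => z y i := fun i => mr_of hT hZ hP hL hM hQ hs (op_ob hI.op hV _)
    (((iv_dt hV _).mono fun j hj => ⟨hj.1, rfl⟩).div ((iv_dt hV _).mono fun j hj => ⟨hj.1, rfl⟩)
      fun j hj => hj.2) hx fun q a1 a2 a3 => (div_eq_iff a3.2).2 (crm i q a1 a2 a3.1)
  obtain ⟨c, d, N, E, e1, -, e3⟩ := IV.com (U := Fin.cons (Dt V fun i => β (k.succAbove i))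
    fun i => Dt V (update (fun i => β (k.succAbove i)) i (β k))) (Fin.cases (iv_dt hV _)
    fun _ => iv_dt hV _)
  obtain ⟨c', d', D, f1, f2⟩ := op_og hI.op r
  obtain ⟨W⟩ := hP p a n M R.Q hM.ok hM.kahX hM.kahY R.thin fun y hy => ⟨R.reg y hy, R.conn y hy⟩
  obtain ⟨y, hy, u₀, hu⟩ := ex_open (V := V) hE hZ hM hQ hs hI W
  obtain ⟨x, x1, x2⟩ := hx y hy
  have ev : ∀ y ∉ Q, ∀ t ∈ Av O V R y, MvPolynomial.eval t (pol β k (z y)) = 0 :=
    fun y hy t ht => by rw [eval_pol, hz y hy t ht, sub_self]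
  obtain ⟨g, hg⟩ := der_ne hβ hc hk (ev y hy) hu x2.2
  have g0 := ev y hy _ (av_gr x1 x2.1 g)
  rw [eV] at hg g0
  obtain ⟨F', g1, g2⟩ := solve β k g0 hg
  refine ⟨Q, r, fun i y => z y i, r * n, _, _, fun i j => N i j * D j, hQ, hs,
    ⟨fun i => (e1 i).mul f1, mr, fun i q a1 a2 => ?_, ?_⟩, _, nc_gr x1 g, hy, x2.1 g, F', g1, ?_⟩
  · by_cases b : R.Jq q ∈ Og O r
    · have b0 : Dt V _ _ = _ := (e3 _ b).2 0
      have b1 : Dt V _ _ = _ := (e3 _ b).2 i.succ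
      rw [crm i q a1 a2 b, b0, ← mul_div_assoc, div_left_inj' (e3 _ b).1] at b1
      rw [← b1, mul_assoc]
    · rw [not_not.1 (mt (f2 _).2 b), mul_zero, mul_zero, mul_zero]
  · have b0 : Dt V _ _ = _ := (e3 _ x2.1).2 0
    exact ⟨_, x1, mul_ne_zero (div_ne_zero_iff.1 (b0 ▸ x2.2)).1 ((f2 _).1 x2.1)⟩
  · have q1 := nc_gr x1 g
    have q2 : R.Jq (y, gr g x) ∈ O := x2.1 g
    obtain ⟨v, hv, -⟩ := W.bij _ q1.1 q1.2.1
    have g3 : ∀ᶠ w in 𝓝 ((z (W.γ v).1, fun b => U b (R.Jq (W.γ v))), F (R.Jq (W.γ v))),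
        MvPolynomial.eval (fun o : Option ι => o.elim w.2 w.1.2) (pol β k w.1.1) = 0 →
          w.2 = F' w.1 := by
      rw [hv]
      exact g2
    rw [← hv] at q1 q2 ⊢
    have hy' : (W.γ v).1 ∉ Q := hv ▸ hy
    have T := (hZ p a m ρ M R hM n O W hI.op ⟨_, q1, q2⟩).union (pw_thin W hM.ok hQ hs)
    have t := fun Z hZ => (((hT p a m ρ M R hM n _ W.V.X W.γ v (W.tm v)).2.2 O Z hI.op hZ).1
      q1.2.2 q2).cont
    rw [← Thn.map_eq W R.thin.closed q1.2.1, eventually_map]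
    filter_upwards [(((continuousAt_pi.2 fun i => ((W.tm v).b.hol ((mr i).hol _ hy')).cont).prodMk
      (continuousAt_pi.2 fun b => t _ (hI.iv b))).prodMk (t _ hF)).eventually g3,
      T.closed.isOpen_compl.mem_nhds (not_or.2 ⟨not_not.2 ⟨q1, q2⟩, hy'⟩)] with w k1 k2
    obtain ⟨⟨k3, k4⟩, k5⟩ := (not_or.1 k2).imp_left not_not.1
    exact k1 (eV _ ▸ ev _ k5 _ ⟨_, k3, k4, rfl⟩)

end Vale.Agent.P281Z.Ga
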