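import Vale.Agent.P281Z.Ga.Sk
import Vale.Agent.P281Z.Gl.Thn
import Vale.Agent.P281Z.Mf.Prod
import Vale.Agent.P281Z.Mf.Adj
import Vale.Agent.P281Z.Pb.Api
import Vale.Agent.P277Z.Lo.Base

/-!
# P281Z, block III, part A: multisections
-/

open scoped Manifold ContDiff Topology Matrix
open Set Filter Function
open Vale.Agent.P272.K Vale.Agent.P285.H281.FD
open Vale.Agent.P277Z (Hol Mer at_chart hol_const)
open Vale.Agent.P277Z.Slc (Ind dd dd_congr ind_iff_surj)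

noncomputable section

namespace Vale.Agent.P281Z.Ga

open Gt

namespace Msx

section gen

variable {K : ℕ} {X : Type} [TopologicalSpace X] [ChartedSpace (Cm K) X]
  [IsManifold 𝓘(ℂ, Cm K) ω X] {x : X} {e e₁ : Chart K X}

theorem ind_iff {α : Type} [Fintype α] (hc : Fintype.card α = K) {h : α → X → ℂ}
    (hh : ∀ a, Hol K (h a) x) (he : At e x) :
    Ind K h x ↔ ∀ ξ, (∀ a, dd (h a) e x ξ = 0) → ξ = 0 := by
  have h1 : Injective (ContinuousLinearMap.pi fun a => dd (h a) e x) ↔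
      Surjective (ContinuousLinearMap.pi fun a => dd (h a) e x) :=
    LinearMap.injective_iff_surjective_of_finrank_eq_finrank
      (f := (ContinuousLinearMap.pi fun a => dd (h a) e x : Cm K →L[ℂ] α → ℂ).toLinearMap)
      (by simp [hc])
  refine Iff.trans ⟨fun k => k.2 e he, Ind.of_chart hh he⟩ ?_
  rw [ind_iff_surj, ← h1, injective_iff_map_eq_zero]
  exact forall_congr' fun ξ => imp_congr_left funext_iff

theorem jac_ne (he : At e x) (he₁ : At e₁ x) : (jacM e e₁ x).det ≠ 0 := by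
  have h := dfM_chg (f := fun x : X => x) (holM_id.at x) he₁ he he
  rw [dfM_id_self he] at h
  exact right_ne_zero_of_mul_eq_one (by rw [← Matrix.det_mul, ← h, Matrix.det_one])

theorem perm {d : ℕ} {A : Type} {s t : Fin d → A} (hs : Injective s) (h : range s = range t) :
    ∃ π : Equiv.Perm (Fin d), ∀ k, s k = t (π k) := by
  choose π hπ using fun k => (h ▸ mem_range_self k : s k ∈ range t)
  exact ⟨.ofBijective π (Finite.injective_iff_bijective.1 fun k k' c =>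
    hs (by rw [← hπ, ← hπ, c])), fun k => (hπ k).symm⟩

end gen

variable {p a m ρ n : ℕ} {M : Fb (p + a) p} {R : JS M m ρ} {O : Set (Fin n → Jt ρ a)}

theorem chgO (hO : Op m O) {q : Pt M n} (hq : q ∈ R.Nc n) {i : R.ι} (hi : q.1 ∈ R.U i)
    (h : R.Jq q ∈ O) : R.Ji i q ∈ O := by
  obtain ⟨c, d, D, hD, hm⟩ := hO
  have h1 : R.Ji i q = fun k => sc m (rj (cx (q.2 k)) (cx (q.2 k)) (R.ch i) (R.ch (R.fr q.1))
      (q.2 k)) (act (R.T i (R.fr q.1) q.1) (R.Jq q k)) := funext fun k => by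
    have h2 := R.law i (R.fr q.1) _ _ (q.2 k) (hq.1 k ▸ hi) (hq.1 k ▸ R.fr_mem _) (at_chart _)
      (at_chart _) (hq.2.2 k)
    rw [hq.1 k] at h2
    exact h2
  rw [hm, h1, hD.sc, hD.act]
  refine mul_ne_zero (Finset.prod_ne_zero_iff.2 fun k _ => pow_ne_zero _ (div_ne_zero
    (jac_ne (at_chart _) (at_chart _)) (jac_ne ?_ ?_))) (mul_ne_zero
      (pow_ne_zero _ (R.detT _ _ _ hi (R.fr_mem _))) ((hm _).1 h))
  · exact R.atc _ _ (hq.1 k ▸ hi)
  · exact R.atc _ _ (hq.1 k ▸ R.fr_mem _)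

theorem tm_comp {K k : ℕ} {Q : Set M.Y.X} (W : Pw M n K Q) {T : Type} [TopologicalSpace T]
    [ChartedSpace (Cm k) T] {u : T → W.V.X} {t : T} (h : HolA k K u t) :
    Tm k (fun s => W.γ (u s)) t :=
  ⟨(W.tm _).b.cmp h, fun j => ((W.tm _).x j).cmp h, .of_forall fun _ => Thn.fp W _⟩

/-- local isomorphisms to the product with the projective space -/
theorem imm_iff {K r : ℕ} (hK : p + r = K) {V : Mf K} {Y : Mf p} (P : PS r) {b : V.X → Y.X}
    {φ : V.X → P.P.X} {g : Fin r → V.X → ℂ} {x : V.X} {e' : Chart p Y.X} (hb : HolA K p b x)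
    (he' : At e' (b x)) (hg : ∀ i, Hol K (g i) x)
    (hφ : ∀ᶠ y in 𝓝 x, P.pt (Fin.cons 1 fun i => g i y) = φ y) :
    Imm K (p + r) (fun y => Y.pair P.P (b y) (φ y)) x ↔
      Ind K (Sum.elim (fun (c : Fin p) y => e' (b y) c) g) x := by
  have he := at_chart (n := K) x
  have hs : ∀ j : Fin (r + 1), Hol K (fun y => (Fin.cons 1 fun i => g i y : Cm (r + 1)) j) x :=
    Fin.cases (hol_const 1 x) hg
  have h1 : (Fin.cons 1 fun i => g i x : Cm (r + 1)) 0 ≠ 0 := one_ne_zero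
  have h2 := P.holA hs (ne_iff.2 ⟨0, h1⟩)
  have hc := at_chart (n := r) (φ x)
  rw [imm_pair hb (h2.cng hφ) he he' hc, ind_iff (by simpa using hK)
    (Sum.rec (fun c => hb.hol (hol_chart he' c)) hg) he]
  refine forall_congr' fun ξ => ?_
  rw [← and_imp, Sum.forall, ← df_congr hφ he,
    P.df_eq_zero hs h1 he (by rw [hφ.self_of_nhds]; exact hc), Fin.forall_fin_succ, funext_iff]
  refine imp_congr_left (and_congr (forall_congr' fun c => by rw [df_apply hb he he']; rfl) ?_)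
  simp [dd]

end Msx

open Msx in
theorem msx_of (hPW : PW) (hMF : MERF) (hCV : COV) (hVT : VERT) (hNM : NORM) (hMT : MERT)
    (hPS : Pb.PSEX) (hTH : THZ) (hT : TST) (hE : ETI) : MSX := by
  intro p a m ρ M R hM n ι _ O U hI
  obtain ⟨W⟩ := hPW p a n M R.Q hM.ok hM.kahX hM.kahY R.thin fun y hy => ⟨R.reg y hy, R.conn y hy⟩
  obtain ⟨q₀, a1, a2, a3⟩ := hI.ex
  have hS := hTH p a m ρ M R hM n O W hI.op ⟨q₀, a1, a2⟩
  set S := {v | ¬ (W.γ v ∈ R.Nc n ∧ R.Jq (W.γ v) ∈ O)} with hSd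
  have hS' : ∀ {v}, v ∉ S → W.γ v ∈ R.Nc n ∧ R.Jq (W.γ v) ∈ O := fun h => not_not.1 h
  let ε : ι ≃ Fin (n * a) := Fintype.equivFinOfCardEq hI.card
  let g : Fin (n * a) → W.V.X → ℂ := fun i v => U (ε.symm i) (R.Jq (W.γ v))
  have hg : ∀ i, Mr (p + n * a) S (g i) := fun i =>
    ⟨fun v hv => ((hT p a m ρ M R hM n _ _ W.γ v (W.tm v)).2.2 O _ hI.op (hI.iv _)).1
      (hS' hv).1.2.2 (hS' hv).2, fun v => ((hT p a m ρ M R hM n _ _ W.γ v (W.tm v)).2.2 O _ hI.op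
        (hI.iv _)).2 ((hS.freq v).mono fun _ hv => ⟨(hS' hv).1.2.2, (hS' hv).2⟩)⟩
  obtain ⟨P⟩ := hPS (n * a)
  obtain ⟨V, π, φ, hπ, hφ, -, hpt⟩ := hMF _ _ W.V S g P hS hg
  have hb : HolM (p + n * a) p fun x => (W.γ (π x)).1 :=
    HolM.comp (g := fun v => (W.γ v).1) (fun v => (W.tm v).b) hπ.hol
  let Ψ : V.X → (M.Y.prod P.P).X := fun x => M.Y.pair P.P (W.γ (π x)).1 (φ x)
  have hΨ : HolM (p + n * a) (p + n * a) Ψ := hb.pair hφ
  have key : ∀ x, π x ∉ S → (Imm (p + n * a) (p + n * a) Ψ x ↔ R.Et U (W.γ (π x))) := by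
    intro x hx
    have he' := R.atc _ _ (R.fr_mem (W.γ (π x)).1)
    have h1 := imm_iff rfl P (φ := φ) (g := fun i y => g i (π y)) (hb.at x) he'
      (fun i => hπ.hol.hol ((hg i).hol _ hx)) ((hπ.hol.cont.continuousAt.eventually
        (hS.closed.isOpen_compl.mem_nhds hx)).mono fun y hy => (hpt y hy).symm)
    rw [hE p a m ρ M R hM n ι O U W _ hI.card hI.op hI.iv (hS' hx).1 (hS' hx).2]
    have h2 : ∀ b, Hol (p + n * a) (fun v => U b (R.Jq (W.γ v))) (π x) := fun b => by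
      simpa only [g, Equiv.symm_apply_apply] using (hg (ε b)).hol _ hx
    refine h1.trans ⟨fun k => ?_, fun k => ?_⟩
    · refine ind_of_comp (hπ.hol.at x) (Sum.rec (fun c => (W.tm _).b.hol (hol_chart he' c)) h2)
        (ind_congr (k.comp (Sum.map id ε) (injective_id.sumMap ε.injective)) ?_)
      rintro (c | b) <;> exact .of_forall fun y => by simp [g]
    · refine ind_congr (((hπ.sbm hx).ind (hπ.hol.at x) k).comp (Sum.map id ε.symm)
        (injective_id.sumMap ε.symm.injective)) ?_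
      rintro (c | b) <;> exact .of_forall fun y => rfl
  have := hM.ok.connY
  have := P.conn
  have := W.conn
  have := hπ.conn
  obtain ⟨B, d, hB, hSB, hIm, hCv, -, hd⟩ := hCV _ V (M.Y.prod P.P) Ψ _ hΨ prod_conn hπ.thin_pre
  obtain ⟨v₀, rfl⟩ := (W.bij q₀ a1.1 a1.2.1).exists
  obtain ⟨x₀, rfl⟩ := hπ.surj v₀
  replace hd := hd ⟨x₀, (key x₀ fun h => h ⟨a1, a2⟩).2 a3⟩
  have hoff : ∀ {x}, Ψ x ∉ B → π x ∉ S := fun h k => h (hSB (mem_image_of_mem _ k))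
  obtain ⟨Q₂, hQ₂, hV⟩ := hVT _ _ (M.Y.prod P.P) P.P (M.Y.p2 P.P) B hol_p2 hB
  obtain ⟨c, hc⟩ := (hQ₂.freq (φ x₀)).exists
  let T : M.Y.X → (M.Y.prod P.P).X := fun y => M.Y.pair P.P y c
  have hT' : HolM p (p + n * a) T := holM_id.pair (holM_const c)
  have hTB : Thin p (T ⁻¹' B) := ⟨hB.1.pre hT', fun y =>
    map_mem_closure (cont_p1 (V := M.Y) (W := P.P)) (hV (T y) hc) fun z hz k =>
      hz.2 ((prod_ext rfl hz.1 : z = T (M.Y.p1 P.P z)) ▸ k)⟩
  have hQ := R.thin.union hTB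
  have : Nonempty V.X := ⟨x₀⟩
  have hs : ∀ y, y ∉ R.Q ∪ T ⁻¹' B → ∃ s : Fin d → V.X, Injective s ∧ range s = Ψ ⁻¹' {T y} :=
    fun y hy => let ⟨_, _, k⟩ := hCv (T y) fun h => hy (.inr h); ⟨_, k.self_of_nhds⟩
  choose! s hs1 hs2 using hs
  have hfib : ∀ {x y}, y ∉ R.Q ∪ T ⁻¹' B → Ψ x = T y → π x ∉ S ∧ (W.γ (π x)).1 = y ∧ Ψ x ∉ B ∧
      ∀ b, U b (R.Jq (W.γ (π x))) = P.aff c (ε b) := fun {x y} hy h => by
    have h1 : Ψ x ∉ B := fun k => hy (.inr (show T y ∈ B from h ▸ k))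
    obtain ⟨h2, h3⟩ := pair_inj.1 h
    refine ⟨hoff h1, h2, h1, fun b => ?_⟩
    rw [hpt x (hoff h1)] at h3
    subst h3
    have h4 := P.ratio (v := Fin.cons 1 fun i => g i (π x)) (ne_iff.2 ⟨0, one_ne_zero⟩)
      (P.lb.cover _).choose_spec (ε b).succ 0
    simp only [Fin.cons_succ, Fin.cons_zero, div_one, g, Equiv.symm_apply_apply] at h4
    exact h4.symm
  have hsm : ∀ y, y ∉ R.Q ∪ T ⁻¹' B → ∀ k, Ψ (s y k) = T y := fun y hy k =>
    show s y k ∈ Ψ ⁻¹' {T y} from hs2 y hy ▸ mem_range_self k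
  refine ⟨⟨R.Q ∪ T ⁻¹' B, d, fun b => P.aff c (ε b), fun y k => W.γ (π (s y k)), hQ,
    subset_union_left, hd, fun y hy k => ?_, fun y hy => ?_, fun i y hy H hH => ?_⟩⟩
  · obtain ⟨h1, h2, h3, -⟩ := hfib hy (hsm y hy k)
    exact ⟨(hS' h1).1, h2, (hS' h1).2, (key _ h1).1 (hIm _ h3)⟩
  · obtain ⟨τ, h1, h2⟩ := hCv (T y) fun h => hy (.inr h)
    refine ⟨fun k y' => W.γ (π (τ k (T y'))), fun k =>
      tm_comp W ((hπ.hol.at _).cmp ((h1 k).cmp (hT'.at y))), ?_⟩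
    filter_upwards [hT'.cont.continuousAt.eventually h2, hQ.closed.isOpen_compl.mem_nhds hy]
      with y' k1 k2
    refine ⟨fun k => ?_, ?_⟩
    · obtain ⟨-, h3, -, h4⟩ := hfib k2 (show τ k (T y') ∈ Ψ ⁻¹' {T y'} from k1.2 ▸ mem_range_self k)
      exact ⟨h3, h4⟩
    · obtain ⟨π', h⟩ := perm (hs1 y' k2) ((hs2 y' k2).trans k1.2.symm)
      exact ⟨π', fun k => by rw [h k]⟩
  · have hd' : Dense (Ψ ⁻¹' B)ᶜ := ((hB.1.pre hΨ).thin fun h => by
      obtain ⟨y', k⟩ := (hQ.freq y).exists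
      exact (hfib k (hsm y' k ⟨0, hd⟩)).2.2.1 (h.ge (mem_univ _))).2
    have hU : ∀ᶠ z in 𝓝 (T y), M.Y.p1 P.P z ∈ R.U i :=
      cont_p1.continuousAt.eventually ((R.opn i).mem_nhds hy)
    have h0 := fun x => (hT p a m ρ M R hM n _ _ _ x (tm_comp W (hπ.hol.at x))).2.1 i O H hI.op hH
    obtain ⟨h1, -, h2⟩ := hNM _ d V (M.Y.prod P.P) Ψ B (fun x => H (R.Ji i (W.γ (π x)))) (T y) hΨ hB
      hd' hCv (fun x hx => by
        have h3 : (W.γ (π x)).1 ∈ R.U i := (pair_inj.1 hx).1 ▸ hy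
        refine (h0 x h3).2 (((hπ.thin_pre.freq x).and_eventually
          (hb.cont.continuousAt.eventually ((R.opn i).mem_nhds h3))).mono fun z k => ?_)
        exact ⟨(hS' k.1).1.2.2, chgO hI.op (hS' k.1).1 k.2 (hS' k.1).2⟩) (by
        filter_upwards [hU] with z k1 k2 x hx
        subst hx
        have h3 := hS' (hoff k2)
        exact (h0 x k1).1 h3.1.2.2 (chgO hI.op h3.1 k1 h3.2))
    refine P277Z.Lo.mer_congr (hMT _ _ _ _ B _ T y (hB.1 _) h1 (h2.mono fun z k c => (k c).1)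
      (hT'.at y) (hTB.freq y)) ((hQ.gen y).mono fun y' k => ?_)
    rw [← hs2 y' k, finprod_mem_range (hs1 y' k), finprod_eq_prod_of_fintype]

end Vale.Agent.P281Z.Ga
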