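import Vale.Agent.P281Z.Ga.Alg
import Vale.Agent.P281Z.Mf.Adj

/-!
# P281Z, block III, part A: derivatives of the actions, local frames
-/

open scoped Topology Matrix
open Set Filter Function
open Vale.Agent.P272.K

noncomputable section

namespace Vale.Agent.P281Z.Ga

open Gt

section der

variable {ρ a m : ℕ} {g X : Mt ρ} {j : Jt ρ a} {J₀ : Fin (a + 1) → Fin ρ}

theorem an_ent {E : Type} [NormedAddCommGroup E] [NormedSpace ℂ E] {G : E → Fin ρ → Fin ρ → ℂ}
    {x : E} (h : AnalyticAt ℂ G x) (α β : Fin ρ) : AnalyticAt ℂ (fun y => Matrix.of (G y) α β) x :=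
  analyticAt_pi_iff.1 (analyticAt_pi_iff.1 h α) β

theorem an_actM (j : Jt ρ a) (g : Fin ρ → Fin ρ → ℂ) :
    AnalyticAt ℂ (fun g : Fin ρ → Fin ρ → ℂ => act (Matrix.of g) j) g :=
  an_act (an_ent analyticAt_id) analyticAt_const

theorem der_act_one (X : Mt ρ) (j : Jt ρ a) :
    HasDerivAt (fun s : ℂ => act (1 + s • X) j) (inf X j) 0 := by
  have h : HasDerivAt (fun s : ℂ => (Matrix.of.symm 1 + s • Matrix.of.symm X : Fin ρ → Fin ρ → ℂ))
      (Matrix.of.symm X) 0 := by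
    simpa using ((hasDerivAt_id (0 : ℂ)).smul_const (Matrix.of.symm X)).const_add (Matrix.of.symm 1)
  exact HasFDerivAt.comp_hasDerivAt_of_eq (0 : ℂ) (an_actM j _).differentiableAt.hasFDerivAt h
    (by ext; simp)

theorem inf_fst (X : Mt ρ) (j : Jt ρ a) : (inf X j).1 = X *ᵥ j.1 := by
  have h : HasDerivAt (fun s : ℂ => (act (1 + s • X) j).1) (X *ᵥ j.1) 0 := by
    simpa [act, Matrix.add_mulVec, Matrix.smul_mulVec] using
      ((hasDerivAt_id (0 : ℂ)).smul_const (X *ᵥ j.1)).const_add j.1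
  exact HasDerivAt.unique (hasFDerivAt_fst.comp_hasDerivAt _ (der_act_one X j)) h

theorem inf_zero (j : Jt ρ a) : inf 0 j = 0 := map_zero _

theorem inf_add (X Y : Mt ρ) (j : Jt ρ a) : inf (X + Y) j = inf X j + inf Y j := map_add _ _ _

theorem inf_smul (t : ℂ) (X : Mt ρ) (j : Jt ρ a) : inf (t • X) j = t • inf X j :=
  ContinuousLinearMap.map_smul _ t (Matrix.of.symm X)

theorem fderiv_actM (g X : Mt ρ) (j : Jt ρ a) :
    fderiv ℂ (fun g : Fin ρ → Fin ρ → ℂ => act (Matrix.of g) j) (Matrix.of.symm g)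
      (Matrix.of.symm (g * X)) = act g (inf X j) := by
  have h : HasDerivAt (fun s : ℂ => (Matrix.of.symm g + s • Matrix.of.symm (g * X) :
      Fin ρ → Fin ρ → ℂ)) (Matrix.of.symm (g * X)) 0 := by
    simpa using ((hasDerivAt_id (0 : ℂ)).smul_const (Matrix.of.symm (g * X))).const_add
      (Matrix.of.symm g)
  have h1 := HasFDerivAt.comp_hasDerivAt_of_eq (0 : ℂ)
    (an_actM j (Matrix.of.symm g)).differentiableAt.hasFDerivAt h (by simp)
  refine h1.unique (((actL g).hasFDerivAt.comp_hasDerivAt _ (der_act_one X j)).congr_of_eventuallyEq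
    (.of_forall fun s => ?_))
  simp only [comp_apply, actL_apply, ← act_mul, mul_add, mul_one, mul_smul_comm]
  rfl

/-- the derivative of a moving jet in a moving frame -/
theorem der_act {G : ℂ → Mt ρ} {F : ℂ → Jt ρ a} {t : ℂ} {j' : Jt ρ a}
    (hG : ∀ α β, HasDerivAt (fun s => G s α β) ((G t * X) α β) t) (hF : HasDerivAt F j' t) :
    HasDerivAt (fun s => act (G s) (F s)) (act (G t) (inf X (F t) + j')) t := by
  have h0 : AnalyticAt ℂ (fun q : (Fin ρ → Fin ρ → ℂ) × Jt ρ a => act (Matrix.of q.1) q.2)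
      (Matrix.of.symm (G t), F t) :=
    an_act (an_ent analyticAt_fst) analyticAt_snd
  have h1 : HasDerivAt (fun s => (Matrix.of.symm (G s) : Fin ρ → Fin ρ → ℂ))
      (Matrix.of.symm (G t * X)) t := hasDerivAt_pi.2 fun α => hasDerivAt_pi.2 fun β => hG α β
  have h2 := h0.differentiableAt.hasFDerivAt
  have h3 := (h2.comp (Matrix.of.symm (G t)) (f := fun e => (e, F t))
    (hasFDerivAt_prodMk_left (𝕜 := ℂ) (Matrix.of.symm (G t)) (F t))).fderiv
  have h4 := (h2.comp (F t) (hasFDerivAt_prodMk_right (𝕜 := ℂ) (Matrix.of.symm (G t)) (F t))).unique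
    (actL (G t)).hasFDerivAt
  refine (h2.comp_hasDerivAt t (h1.prodMk hF)).congr_deriv ?_
  rw [act_add, ← fderiv_actM, ← actL_apply, ← h4, ← Prod.fst_add_snd (_, j'), map_add]
  exact congrArg₂ (· + ·) (congrArg (fun L : _ →L[ℂ] Jt ρ a => L _) h3).symm rfl

theorem der_sc (l : ℂ) (hl : l ≠ 0) (j : Jt ρ a) :
    HasDerivAt (fun s => sc m s j) (l⁻¹ • eu m (sc m l j)) l := by
  refine (((hasDerivAt_pow m l).smul_const j.1).prodMk
    ((hasDerivAt_pow ((a + 1) * m + 1) l).smul_const j.2)).congr_deriv (Prod.ext ?_ ?_)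
  · simp only [eu, sc, Prod.smul_fst, smul_smul]
    cases m with
    | zero => simp
    | succ m => congr 1; simp only [Nat.add_sub_cancel, pow_succ]; field_simp
  · simp only [eu, sc, Prod.smul_snd, smul_smul]
    congr 1
    simp only [Nat.add_sub_cancel, pow_succ]
    field_simp

/-- the kernel of the differential of the normalization -/
theorem nrm_ker (h : gd J₀ j) {δ : Jt ρ a} :
    fderiv ℂ (nrm J₀ m) j δ = 0 ↔ ∃ c : ℂ, δ = c • eu m j := by
  have a1 : HasFDerivAt (nrm J₀ m) (fderiv ℂ (nrm J₀ m) j) j :=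
    (an_nrm (m := m) J₀ analyticAt_id h).differentiableAt.hasFDerivAt
  constructor
  · intro k
    have a2 : HasFDerivAt (kap J₀) (fderiv ℂ (kap J₀) j) j :=
      (an_kap J₀ analyticAt_id h.1).differentiableAt.hasFDerivAt
    have h0 : AnalyticAt ℂ (fun q : ℂ × Jt ρ a => sc m q.1 q.2) (kap J₀ j, nrm J₀ m j) :=
      an_sc analyticAt_fst analyticAt_snd
    have h2 := h0.differentiableAt.hasFDerivAt
    have h3 := (h2.comp j (f := fun y => (kap J₀ y, nrm J₀ m y)) (a2.prodMk a1)).unique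
      ((hasFDerivAt_id j).congr_of_eventuallyEq
      (Filter.mem_of_superset ((isOpen_gd J₀).mem_nhds h) fun _ k => sc_nrm k))
    have h4 := (h2.comp_hasDerivAt (kap J₀ j) (f := fun s => (s, nrm J₀ m j))
      ((hasDerivAt_id _).prodMk (hasDerivAt_const _ _))).unique (der_sc _ h.kap (nrm J₀ m j))
    rw [sc_nrm h] at h4
    refine ⟨fderiv ℂ (kap J₀) j δ * (kap J₀ j)⁻¹, ?_⟩
    rw [mul_smul, ← h4, ← map_smul]
    refine (congrArg (fun L : _ →L[ℂ] Jt ρ a => L δ) h3).symm.trans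
      (congrArg (fderiv ℂ (fun q : ℂ × Jt ρ a => sc m q.1 q.2) _) (Prod.ext ?_ ?_))
    · simp
    · simpa using k
  · rintro ⟨c, rfl⟩
    have h1 := der_sc (m := m) 1 one_ne_zero j
    rw [sc_one, inv_one, one_smul] at h1
    have h2 := (HasFDerivAt.comp_hasDerivAt_of_eq (1 : ℂ) a1 h1 (sc_one j).symm).unique
      ((hasDerivAt_const _ (nrm J₀ m j)).congr_of_eventuallyEq
        (Filter.mem_of_superset (isOpen_ne.mem_nhds one_ne_zero) fun _ k => nrm_sc k j))
    rw [map_smul]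
    exact smul_eq_zero_of_right _ h2

end der

variable {p a m ρ n : ℕ} {M : Fb (p + a) p}

theorem jac_ne {k : ℕ} {V : Mf k} {e e₁ : Chart k V.X} {x : V.X} (he : At e x) (he₁ : At e₁ x) :
    (jacM e e₁ x).det ≠ 0 := by
  rw [← dfM_id he he₁]
  exact (imm_iff_det (holM_id.at x) he he₁).1 (imm_id x)

theorem jac_self {k : ℕ} {V : Mf k} {e : Chart k V.X} {x : V.X} (he : At e x) :
    jacM e e x = 1 := (dfM_id he he).symm.trans (dfM_id_self he)

theorem rj_ne {e e₁ : Chart (p + a) M.X.X} {e' e₁' : Chart p M.Y.X} {x : M.X.X} (he : At e x)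
    (he₁ : At e₁ x) (he' : At e' (M.f x)) (he₁' : At e₁' (M.f x)) : rj e e₁ e' e₁' x ≠ 0 :=
  div_ne_zero (jac_ne he he₁) (jac_ne he' he₁')

theorem at_cx (x : M.X.X) : At (cx x) x := P277Z.at_chart x

namespace JS

variable (R : JS M m ρ) {q : Pt M n} {i i' : R.ι} {e : Fin n → Chart (p + a) M.X.X}

theorem Jq_eq (h : Fp q) (k : Fin n) : R.Jq q k = R.J (q.2 k) := by rw [J, h k]; rfl

/-- change of the chart -/
theorem chg {e e₁ : Chart (p + a) M.X.X} {x : M.X.X} (hi : M.f x ∈ R.U i) (he : At e x)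
    (he₁ : At e₁ x) (hx : x ∈ off M.G) : R.j i e x = sc m (jacM e e₁ x).det (R.j i e₁ x) := by
  rw [R.law i i e e₁ x hi hi he he₁ hx, R.self i _ hi, act_one, rj, jac_self (R.atc i _ hi),
    Matrix.det_one, div_one]

/-- the jets in the frame `i'` and in the preferred charts, from the jets in fixed charts -/
theorem loc (h : Fp q) (hi : q.1 ∈ R.U i) (hi' : q.1 ∈ R.U i') (he : ∀ k, At (e k) (q.2 k))
    (hx : ∀ k, q.2 k ∈ off M.G) : R.Ji i' q = fun k =>
      sc m (rj (cx (q.2 k)) (e k) (R.ch i') (R.ch i) (q.2 k))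
        (act (R.T i' i q.1) (R.j i (e k) (q.2 k))) := funext fun k => by
  rw [← h k] at hi hi' ⊢
  exact R.law i' i _ _ _ hi' hi (at_cx _) (he k) (hx k)

theorem rj_loc (h : Fp q) (hi : q.1 ∈ R.U i) (hi' : q.1 ∈ R.U i') (he : ∀ k, At (e k) (q.2 k))
    (k : Fin n) : rj (cx (q.2 k)) (e k) (R.ch i') (R.ch i) (q.2 k) ≠ 0 :=
  rj_ne (at_cx _) (he k) (R.atc _ _ ((h k).symm ▸ hi')) (R.atc _ _ ((h k).symm ▸ hi))

variable {O : Set (Fin n → Jt ρ a)} {U : (Fin n → Jt ρ a) → ℂ}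

theorem mem_loc (hO : Op m O) (h : Fp q) (hi : q.1 ∈ R.U i) (hi' : q.1 ∈ R.U i')
    (he : ∀ k, At (e k) (q.2 k)) (hx : ∀ k, q.2 k ∈ off M.G) :
    R.Ji i' q ∈ O ↔ (fun k => R.j i (e k) (q.2 k)) ∈ O := by
  rw [R.loc h hi hi' he hx]
  exact hO.law (R.rj_loc h hi hi' he) (R.detT _ _ _ hi' hi)

theorem mem_Jq (hO : Op m O) (h : Fp q) (hi : q.1 ∈ R.U i) (hx : ∀ k, q.2 k ∈ off M.G) :
    R.Jq q ∈ O ↔ R.Ji i q ∈ O := R.mem_loc hO h hi (R.fr_mem _) (fun _ => at_cx _) hx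

theorem iv_loc (hO : Op m O) (hU : IV m O U) (h : Fp q) (hi : q.1 ∈ R.U i)
    (he : ∀ k, At (e k) (q.2 k)) (hx : ∀ k, q.2 k ∈ off M.G)
    (hj : (fun k => R.j i (e k) (q.2 k)) ∈ O) :
    U (R.Jq q) = U fun k => R.j i (e k) (q.2 k) := by
  rw [Jq, R.loc h hi (R.fr_mem _) he hx]
  exact hU.law hO (R.rj_loc h hi (R.fr_mem _) he) (R.detT _ _ _ (R.fr_mem _) hi) hj

theorem hv_loc (hO : Op m O) (hU : HV m O U) (h : Fp q) (hi : q.1 ∈ R.U i)
    (he : ∀ k, At (e k) (q.2 k)) (hx : ∀ k, q.2 k ∈ off M.G)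
    (hj : (fun k => R.j i (e k) (q.2 k)) ∈ O) :
    U (R.Ji i q) = U fun k => R.j i (e k) (q.2 k) := by
  rw [R.loc h hi hi he hx]
  simp only [R.self i _ hi, act_one]
  exact hU.sc hO (R.rj_loc h hi hi he) hj

end JS

end Vale.Agent.P281Z.Ga
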