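import Vale.Agent.P281Z.Ga.Sk
import Vale.Agent.P281Z.Ga.Loc

/-!
# P281Z, block III, part A: flat multiframes
-/

open scoped Topology Matrix
open Set Filter Function
open Vale.Agent.P272.K
open Vale.Agent.P277Z (Hol)
open Vale.Agent.P277Z.Slc (Ind dd)

noncomputable section

namespace Vale.Agent.P281Z.Ga

open Gt

namespace Pa1

variable {p a m ρ n : ℕ} {M : Fb (p + a) p} {R : JS M m ρ}

/-- the first group of slots -/
def s1 (k : Fin n) : Fin (n + n + 1) := (Fin.castAdd n k).castSucc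

/-- the second group of slots -/
def s2 (k : Fin n) : Fin (n + n + 1) := (Fin.natAdd n k).castSucc

/-- two groups and one more -/
def ct {α : Type} (u u' : Fin n → α) (x : α) : Fin (n + n + 1) → α := Fin.snoc (Fin.append u u') x

section ct

variable {α : Type} (u u' : Fin n → α) (x : α)

@[simp] theorem ct1 (k : Fin n) : ct u u' x (s1 k) = u k := by simp [ct, s1]

@[simp] theorem ct2 (k : Fin n) : ct u u' x (s2 k) = u' k := by
  rw [ct, s2, Fin.snoc_castSucc, Fin.append_right]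

@[simp] theorem ct3 : ct u u' x (Fin.last _) = x := by simp [ct]

theorem cases {P : Fin (n + n + 1) → Prop} (h1 : ∀ k, P (s1 k)) (h2 : ∀ k, P (s2 k))
    (h3 : P (Fin.last _)) (k) : P k := k.lastCases h3 fun k => k.addCases h1 h2

end ct

theorem der_sel {n' : ℕ} {U : (Fin n' → Jt ρ a) → ℂ} (σ : Fin n' → Fin n) {j : Fin n → Jt ρ a}
    (h : AnalyticAt ℂ U fun i => j (σ i)) (δ : Fin n → Jt ρ a) :
    fderiv ℂ (fun j : Fin n → Jt ρ a => U fun i => j (σ i)) j δ =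
      fderiv ℂ U (fun i => j (σ i)) fun i => δ (σ i) :=
  congrArg (fun L : _ →L[ℂ] ℂ => L δ) (h.differentiableAt.hasFDerivAt.comp j
    (ContinuousLinearMap.pi fun i => ContinuousLinearMap.proj (R := ℂ)
      (φ := fun _ : Fin n => Jt ρ a) (σ i)).hasFDerivAt).fderiv

variable (J₀ : Fin (a + 1) → Fin ρ) (m) (bs : Fin (ρ + 1) → Fin n) (O : Set (Fin n → Jt ρ a))
  (U : Fin (n * a) → (Fin n → Jt ρ a) → ℂ)

/-- the last slot is good for the frame of a group -/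
def A (s : Fin n → Fin (n + n + 1)) : Set (Fin (n + n + 1) → Jt ρ a) :=
  {j | (fun l => j (s (bs l))) ∈ O1 J₀ ∧ gd J₀ (fj J₀ m (fun l => s (bs l)) (Fin.last _) j)}

/-- the good jets -/
def O2 : Set (Fin (n + n + 1) → Jt ρ a) :=
  ({j | (fun k => j (s1 k)) ∈ O} ∩ {j | (fun k => j (s2 k)) ∈ O}) ∩ (A m J₀ bs s1 ∩ A m J₀ bs s2)

/-- the coordinates -/
def U2 (b : (Fin (n * a) ⊕ Fin (n * a)) ⊕ Fin a) (j : Fin (n + n + 1) → Jt ρ a) : ℂ :=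
  b.elim (Sum.elim (fun b => U b fun k => j (s1 k)) fun b => U b fun k => j (s2 k))
    (wc J₀ (fj J₀ m (fun l => s1 (bs l)) (Fin.last _) j))

variable {J₀ m bs O U}

theorem der_upd {Φ : (Fin n → Jt ρ a) → ℂ} {j : Fin n → Jt ρ a} (h : AnalyticAt ℂ Φ j) (k : Fin n)
    (δ : Jt ρ a) : fderiv ℂ Φ j (Pi.single k δ) = fderiv ℂ (fun t => Φ (update j k t)) (j k) δ := by
  have h0 : HasFDerivAt Φ (fderiv ℂ Φ j) (update j k (j k)) := by
    rw [update_eq_self]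
    exact h.differentiableAt.hasFDerivAt
  have h1 := (h0.comp (j k) (hasFDerivAt_update (𝕜 := ℂ) j (j k))).fderiv
  refine Eq.trans (congrArg _ (funext fun l => ?_)) (congrArg (fun L : _ →L[ℂ] ℂ => L δ) h1).symm
  by_cases e : l = k
  · simp [e]
  · simp [e]

theorem vert (hD : DER) (hM : Std M m) {x : M.X.X} {i : R.ι} {g : Mt ρ} {ξ : Cm (p + a)}
    (hi : M.f x ∈ R.U i) (hQ : M.f x ∉ R.Q) (hx : x ∈ off M.G)
    (hg : gd J₀ (act g (R.j i (cx x) x))) (h1 : df M.f (cx x) (R.ch i) x ξ = 0)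
    (h2 : ∀ l, fderiv ℂ (fun t => wc J₀ (act g t) l) (R.j i (cx x) x) (R.Dj i (cx x) x ξ) = 0) :
    ξ = 0 := by
  obtain ⟨-, d2, d3, -⟩ := hD p a m ρ M R hM i (cx x) x hi hQ (at_cx x) hx
  have ha := R.hol _ _ x hi (at_cx x) hx
  have a1 : ∀ l, AnalyticAt ℂ (fun t => wc J₀ (act g t) l) (R.j i (cx x) x) := fun l =>
    analyticAt_pi_iff.1 (an_wc (F := act g) J₀ ((actL g).analyticAt _) hg.1) l
  have k := d2 J₀ (fun _ => g) (fun _ _ => P277Z.hol_const _ _) hg.1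
  refine (d3 (fun l x' => wc J₀ (act g (R.j i (cx x) x')) l) fun l => ha.cmp (a1 l)).1
    (fun e => hg.kap (k.symm.trans e)) _ h1 fun l => ?_
  have c1 := (a1 l).differentiableAt.hasFDerivAt
  have c2 := (HasFDerivAt.comp (cx x x) (by rwa [(at_cx x).left_inv])
    (ha _ (at_cx x)).differentiableAt.hasFDerivAt).fderiv
  exact (congrArg (fun L : _ →L[ℂ] ℂ => L ξ) c2).trans (h2 l)

theorem et2 (hF : FRM) (hD : DER) (hM : Std M m) (hI : R.Inv O U) {q : Pt M (n + n + 1)}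
    (hq : q ∈ R.Nc _) (hO : R.Jq q ∈ O2 m J₀ bs O) (e1 : R.Et U (sel s1 q))
    (e2 : R.Et U (sel s2 q)) : R.Et (U2 m J₀ bs U) q := fun ξ h1 h2 => by
  have k1 := e1 (fun k => ξ (s1 k)) (fun k => h1 _) fun b =>
    (der_sel s1 ((hI.iv b).an hI.op hO.1.1) _).symm.trans (h2 (.inl (.inl b)))
  have k2 := e2 (fun k => ξ (s2 k)) (fun k => h1 _) fun b =>
    (der_sel s2 ((hI.iv b).an hI.op hO.1.2) _).symm.trans (h2 (.inl (.inr b)))
  refine funext (cases (congrFun k1) (congrFun k2) ?_)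
  obtain ⟨-, -, -, -, f5⟩ := hF ρ a m J₀
  obtain ⟨f6, -, f7⟩ := f5 _ (fun l => s1 (bs l)) (Fin.last _)
  have hx := hq.1 (Fin.last _)
  refine vert hD hM (hx ▸ R.fr_mem q.1) (hx ▸ hq.2.1) (hq.2.2 _) hO.2.1.2 (hx ▸ h1 _) fun l => ?_
  have k3 : (fun k => R.Dj (R.fr q.1) (cx (q.2 k)) (q.2 k) (ξ k)) = Pi.single (Fin.last _)
      (R.Dj (R.fr q.1) (cx (q.2 (Fin.last _))) (q.2 (Fin.last _)) (ξ (Fin.last _))) := by
    refine funext (cases (fun k => ?_) (fun k => ?_) (by rw [Pi.single_eq_same]))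
    · rw [show ξ (s1 k) = 0 from congrFun k1 k, map_zero, s1,
        Pi.single_eq_of_ne (Fin.castSucc_ne_last _)]
    · rw [show ξ (s2 k) = 0 from congrFun k2 k, map_zero, s2,
        Pi.single_eq_of_ne (Fin.castSucc_ne_last _)]
  have k4 := h2 (.inr l)
  rw [k3] at k4
  refine Eq.trans ?_ ((der_upd ((f7 l).an f6 hO.2.1) _ _).symm.trans k4)
  simp only [fj, update_self, s1, update_of_ne (Fin.castSucc_ne_last _)]
  rfl

theorem inv2 (hF : FRM) (hD : DER) (hM : Std M m) (hI : R.Inv O U)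
    (hO : ∀ j ∈ O, (fun l => j (bs l)) ∈ O1 J₀) : R.Inv (O2 m J₀ bs O) (U2 m J₀ bs U) := by
  obtain ⟨-, -, -, f4, f5⟩ := hF ρ a m J₀
  refine ⟨by simp; ring, ((hI.op.sel _).inter (hI.op.sel _)).inter ((f5 _ _ _).1.inter (f5 _ _ _).1),
    fun b => ?_, ?_⟩
  · rcases b with (b | b) | b
    exacts [((hI.iv b).sel s1).mono fun j h => ⟨h.1.1, rfl⟩,
      ((hI.iv b).sel s2).mono fun j h => ⟨h.1.2, rfl⟩,
      ((f5 _ (fun l => s1 (bs l)) _).2.2 b).mono fun j h => ⟨h.2.1, rfl⟩]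
  · obtain ⟨q, h1, h2, h3⟩ := hI.ex
    let q' : Pt M (n + n + 1) := (q.1, ct q.2 q.2 (q.2 (bs (Fin.last _))))
    have e1 : sel s1 q' = q := Prod.ext rfl (funext fun k => ct1 _ _ _ k)
    have e2 : sel s2 q' = q := Prod.ext rfl (funext fun k => ct2 _ _ _ k)
    have k0 : R.Jq q' = ct (R.Jq q) (R.Jq q) (R.Jq q (bs (Fin.last _))) :=
      funext (cases (fun k => by simp [q', JS.Jq, JS.Ji]) (fun k => by simp [q', JS.Jq, JS.Ji])
        (by simp [q', JS.Jq, JS.Ji]))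
    have k1 : q' ∈ R.Nc _ := ⟨cases (fun k => by simpa [q'] using h1.1 k)
      (fun k => by simpa [q'] using h1.1 k) (by simpa [q'] using h1.1 _), h1.2.1, cases (by simpa [q'] using h1.2.2)
        (by simpa [q'] using h1.2.2) (by simpa [q'] using h1.2.2 _)⟩
    have k2 : R.Jq q' ∈ O2 m J₀ bs O := by
      simp only [k0, O2, A, fj, mem_inter_iff, mem_ofPred_eq, ct1, ct2, ct3]
      exact ⟨⟨h2, h2⟩, ⟨hO _ h2, (f4 _ (hO _ h2)).2.1⟩, hO _ h2, (f4 _ (hO _ h2)).2.1⟩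
    exact ⟨q', k1, k2, et2 hF hD hM hI k1 k2 (e1.symm ▸ h3) (e2.symm ▸ h3)⟩

theorem zq_mono {Q Q' : Set M.Y.X} {v c : ℕ} {z : Fin v → M.Y.X → ℂ} {d : Fin n → ℕ}
    {B : Fin (v + 1) → (Fin n → Jt ρ a) → ℂ} (h : R.Zq Q z c d B) (k : Q ⊆ Q') : R.Zq Q' z c d B :=
  ⟨h.si, fun j => ⟨fun y hy => (h.mr j).hol y fun e => hy (k e), (h.mr j).mer⟩,
    fun j q h1 h2 => h.rel j q h1 fun e => h2 (k e), h.ne⟩

theorem nc_ct {y : M.Y.X} {u u' : Fin n → M.X.X} {x : M.X.X} (h : (y, u) ∈ R.Nc n)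
    (h' : (y, u') ∈ R.Nc n) (hx : M.f x = y) (hG : x ∈ off M.G) : (y, ct u u' x) ∈ R.Nc _ :=
  ⟨cases (fun k => by simpa using h.1 k) (fun k => by simpa using h'.1 k) (by simpa using hx),
    h.2.1, cases (by simpa using h.2.2) (by simpa using h'.2.2) (by simpa using hG)⟩

/-- the second family of invariants -/
def F2 (m : ℕ) (J₀ : Fin (a + 1) → Fin ρ) (bs : Fin (ρ + 1) → Fin n)
    (b : Fin ρ ⊕ (Fin (a + 1) → Fin ρ)) (j : Fin (n + n + 1) → Jt ρ a) : ℂ :=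
  crd b (nrm J₀ m (fj J₀ m (fun l => s2 (bs l)) (Fin.last _) j))

theorem iv2 (hF : FRM) (b) : IV m (O2 m J₀ bs O) (F2 m J₀ bs b) :=
  (((hF ρ a m J₀).2.2.2.2 _ (fun l => s2 (bs l)) _).2.1 b).mono fun _ h => ⟨h.2.2, rfl⟩

theorem key (hF : FRM) (hI : R.Inv O U) (hI2 : R.Inv (O2 m J₀ bs O) (U2 m J₀ bs U))
    (hO : ∀ j ∈ O, (fun l => j (bs l)) ∈ O1 J₀) {y : M.Y.X} {u u' : Fin n → M.X.X} {x : M.X.X}
    {i : R.ι} {e : Chart (p + a) M.X.X} (hi : y ∈ R.U i) (h : (y, u) ∈ R.Nc n)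
    (h' : (y, u') ∈ R.Nc n) (k : R.Ji i (y, u) ∈ O) (k' : R.Ji i (y, u') ∈ O) (hx : M.f x = y)
    (hG : x ∈ off M.G) (he : At e x)
    (g : gd J₀ (act (gm J₀ m fun l => R.Ji i (y, u) (bs l)) (R.j i e x)))
    (g' : gd J₀ (act (gm J₀ m fun l => R.Ji i (y, u') (bs l)) (R.j i e x))) :
    R.Jq (y, ct u u' x) ∈ O2 m J₀ bs O ∧ (fun b => U2 m J₀ bs U b (R.Jq (y, ct u u' x))) =
      Sum.elim (Sum.elim (fun b => U b (R.Jq (y, u))) fun b => U b (R.Jq (y, u')))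
        (wc J₀ (act (gm J₀ m fun l => R.Ji i (y, u) (bs l)) (R.j i e x))) ∧
      ∀ b, F2 m J₀ bs b (R.Jq (y, ct u u' x)) =
        crd b (nrm J₀ m (act (gm J₀ m fun l => R.Ji i (y, u') (bs l)) (R.j i e x))) := by
  have c := nc_ct h h' hx hG
  have e1 : (fun k => R.j i (ct (fun k => cx (u k)) (fun k => cx (u' k)) e k) (ct u u' x k)) =
      ct (R.Ji i (y, u)) (R.Ji i (y, u')) (R.j i e x) :=
    funext (cases (fun k => by simp [JS.Ji]) (fun k => by simp [JS.Ji]) (by simp))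
  have e2 : ∀ k, At (ct (fun k => cx (u k)) (fun k => cx (u' k)) e k) (ct u u' x k) :=
    cases (fun k => by simpa using at_cx _) (fun k => by simpa using at_cx _) (by simpa using he)
  have e3 : ct (R.Ji i (y, u)) (R.Ji i (y, u')) (R.j i e x) ∈ O2 m J₀ bs O := by
    simp only [O2, A, fj, mem_inter_iff, mem_ofPred_eq, ct1, ct2, ct3]
    exact ⟨⟨k, k'⟩, ⟨hO _ k, g⟩, hO _ k', g'⟩
  have e4 : ∀ V, IV m (O2 m J₀ bs O) V → V (R.Jq (y, ct u u' x)) =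
      V (ct (R.Ji i (y, u)) (R.Ji i (y, u')) (R.j i e x)) := fun V hV =>
    (R.iv_loc hI2.op hV c.1 hi e2 c.2.2 (e1.symm ▸ e3)).trans (congrArg V e1)
  refine ⟨(R.mem_loc hI2.op c.1 hi (R.fr_mem y) e2 c.2.2).2 (e1.symm ▸ e3), funext fun b => ?_,
    fun b => (e4 _ (iv2 hF b)).trans (by simp only [F2, fj, ct2, ct3])⟩
  rw [e4 _ (hI2.iv b)]
  rcases b with (b | b) | b
  · simp only [U2, Sum.elim_inl, ct1]
    exact (R.iv_loc hI.op (hI.iv b) h.1 hi (fun _ => at_cx _) h.2.2 k).symm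
  · simp only [U2, Sum.elim_inl, Sum.elim_inr, ct2]
    exact (R.iv_loc hI.op (hI.iv b) h'.1 hi (fun _ => at_cx _) h'.2.2 k').symm
  · simp only [U2, Sum.elim_inr, fj, ct1, ct3]

theorem flat (hF : FRM) (hD : DER) (hM : Std M m) (hI : R.Inv O U)
    (hO : ∀ j ∈ O, (fun l => j (bs l)) ∈ O1 J₀) {v : ℕ} {z : Fin v → M.Y.X → ℂ} {x : M.X.X}
    {i : R.ι} {e : Chart (p + a) M.X.X} {c : Fin (n * a) → ℂ} {u u' : M.Y.X → Fin n → M.X.X}
    (hu : ContinuousAt u (M.f x)) (hu' : ContinuousAt u' (M.f x))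
    (h : ∀ᶠ y in 𝓝 (M.f x), y ∈ R.U i ∧ ((y, u y) ∈ R.Nc n ∧ R.Ji i (y, u y) ∈ O ∧
      R.Et U (y, u y) ∧ ∀ b, U b (R.Jq (y, u y)) = c b) ∧ (y, u' y) ∈ R.Nc n ∧
      R.Ji i (y, u' y) ∈ O ∧ R.Et U (y, u' y) ∧ ∀ b, U b (R.Jq (y, u' y)) = c b)
    (hG : x ∈ off M.G) (he : At e x)
    (g : ∀ᶠ x' in 𝓝 x, gd J₀ (act (gm J₀ m fun l => R.Ji i (M.f x', u (M.f x')) (bs l))
      (R.j i e x')) ∧ gd J₀ (act (gm J₀ m fun l => R.Ji i (M.f x', u' (M.f x')) (bs l))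
        (R.j i e x')))
    (hR : ∀ q ∈ R.Nc _, q.1 = M.f x → R.Jq q ∈ O2 m J₀ bs O → R.Et (U2 m J₀ bs U) q → ∀ b,
      Rep (fun q' => (fun j => z j q'.1, fun b => U2 m J₀ bs U b (R.Jq q')))
        (fun q' => F2 m J₀ bs b (R.Jq q')) q) :
    ∃ F : Cm v × Cm a → Jt ρ a, AnalyticAt ℂ F (fun j => z j (M.f x),
      wc J₀ (act (gm J₀ m fun l => R.Ji i (M.f x, u (M.f x)) (bs l)) (R.j i e x))) ∧
      ∀ᶠ x' in 𝓝 x, nrm J₀ m (act (gm J₀ m fun l => R.Ji i (M.f x', u' (M.f x')) (bs l))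
        (R.j i e x')) = F (fun j => z j (M.f x'),
          wc J₀ (act (gm J₀ m fun l => R.Ji i (M.f x', u (M.f x')) (bs l)) (R.j i e x'))) := by
  have hf := hM.ok.fibn.hol.cont.continuousAt (x := x)
  have hI2 := inv2 hF hD hM hI hO
  have g2 := ((hf.eventually h).and (g.and ((at_near he).and
    ((snc_open_off hM.ok.snc).mem_nhds hG)))).mono fun x' k => And.intro
      (nc_ct k.1.2.1.1 k.1.2.2.1 rfl k.2.2.2) (And.intro (And.intro k.1.2.1.2.2.2 k.1.2.2.2.2.2)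
      (key hF hI hI2 hO k.1.1 k.1.2.1.1 k.1.2.2.1 k.1.2.1.2.1 k.1.2.2.2.1 rfl k.2.2.2 k.2.2.1
        k.2.1.1 k.2.1.2))
  obtain ⟨b1, ⟨c1, c2⟩, b2, b3, -⟩ := g2.self_of_nhds
  choose F a1 a2 using hR _ b1 rfl b2 (et2 hF hD hM hI b1 b2
    (by simpa only [sel, ct1] using h.self_of_nhds.2.1.2.2.1)
    (by simpa only [sel, ct2] using h.self_of_nhds.2.2.2.2.1))
  have t : Tendsto (fun x' => ((M.f x', ct (u (M.f x')) (u' (M.f x')) x') : Pt M (n + n + 1)))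
      (𝓝 x) (𝓝[{q | Fp q}] (M.f x, ct (u (M.f x)) (u' (M.f x)) x)) :=
    tendsto_nhdsWithin_iff.2 ⟨hf.prodMk (continuousAt_pi.2 (cases
      (fun k => by simp only [ct1]; exact continuousAt_pi.1 (hu.comp hf) k)
      (fun k => by simp only [ct2]; exact continuousAt_pi.1 (hu'.comp hf) k)
      (by simp only [ct3]; exact continuousAt_id))), g2.mono fun _ k => k.1.1⟩
  let L : Cm v × Cm a → Cm v × ((Fin (n * a) ⊕ Fin (n * a)) ⊕ Fin a → ℂ) :=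
    fun t => (t.1, Sum.elim (Sum.elim c c) t.2)
  have hL : ∀ t, AnalyticAt ℂ L t := fun t => analyticAt_fst.prod (AnalyticAt.pi fun b => by
    cases b
    exacts [analyticAt_const, analyticAt_pi_iff.1 analyticAt_snd _])
  simp only [b3, c1, c2] at a1
  refine ⟨fun t => (fun α => F (.inl α) (L t), fun J => F (.inr J) (L t)),
    an_jt (fun α => AnalyticAt.fun_comp (f := L) (a1 _) (hL _))
      fun J => AnalyticAt.fun_comp (f := L) (a1 _) (hL _), ?_⟩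
  filter_upwards [g2, eventually_all.2 fun b => t.eventually (a2 b)] with x' k1 k2
  simp only [k1.2.2.2.1, k1.2.2.2.2, k1.2.1.1, k1.2.1.2] at k2
  exact Prod.ext (funext fun α => k2 (.inl α)) (funext fun J => k2 (.inr J))

variable (S : R.MS O U)

theorem mem (hI : R.Inv O U) {i : R.ι} {y : M.Y.X} (hi : y ∈ R.U i) (hy : y ∉ S.Q) (k) :
    R.Ji i (S.σ y k) ∈ O :=
  let ⟨a1, a2, a3, _⟩ := S.mem y hy k
  (R.mem_Jq hI.op a1.1 (a2.symm ▸ hi) a1.2.2).1 a3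

theorem hv (hF : FRM) (hO : ∀ j ∈ O, (fun l => j (bs l)) ∈ O1 J₀) (α β) :
    HV m O fun j => gm J₀ m (fun l => j (bs l)) α β :=
  (((hF ρ a m J₀).2.1 α β).sel bs).mono fun j h => ⟨hO j h, rfl⟩

theorem sheets (hI : R.Inv O U) {i : R.ι} {y : M.Y.X} (hi : y ∈ R.U i) (hy : y ∉ S.Q) :
    ∃ u : Fin S.e → M.Y.X → Fin n → M.X.X, (∀ k, Tm p (fun y' => ((y', u k y') : Pt M n)) y) ∧
      ∀ᶠ y' in 𝓝 y, (∃ π : Equiv.Perm (Fin S.e), ∀ k, S.σ y' k = (y', u (π k) y')) ∧ y' ∈ R.U i ∧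
        ∀ k, (y', u k y') ∈ R.Nc n ∧ R.Ji i (y', u k y') ∈ O ∧ R.Et U (y', u k y') ∧
          ∀ b, U b (R.Jq (y', u k y')) = S.c b := by
  obtain ⟨τ, t1, t2⟩ := S.loc y hy
  refine ⟨fun k y' => (τ k y').2, fun k => ⟨holM_id.at y, (t1 k).x, ?_⟩, ?_⟩
  · filter_upwards [t2, (t1 k).fp] with y' b1 b2 l using (b2 l).trans (b1.1 k).1
  filter_upwards [t2, (R.opn i).mem_nhds hi, S.thin.closed.isOpen_compl.mem_nhds hy]
    with y' ⟨b1, π, b2⟩ b3 b4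
  have e : ∀ k, (y', (τ k y').2) = τ k y' := fun k => Prod.ext (b1 k).1.symm rfl
  simp only [e]
  refine ⟨⟨π, b2⟩, b3, fun k => ?_⟩
  have b5 := S.mem y' b4 (π.symm k)
  have b6 := mem S hI b3 b4 (π.symm k)
  rw [b2, π.apply_symm_apply] at b5 b6
  exact ⟨b5.1, b6, b5.2.2.2, (b1 k).2⟩

/-- the frames of the sheets -/
def gs (J₀ : Fin (a + 1) → Fin ρ) (bs : Fin (ρ + 1) → Fin n) (i : R.ι) (y : M.Y.X) (k : Fin S.e) :
    Mt ρ := gm J₀ m fun l => R.Ji i (S.σ y k) (bs l)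

theorem law (hF : FRM) (hI : R.Inv O U) (hO : ∀ j ∈ O, (fun l => j (bs l)) ∈ O1 J₀) {i i' : R.ι}
    {y : M.Y.X} (hi : y ∈ R.U i) (hi' : y ∈ R.U i') (hy : y ∉ S.Q) (k) :
    gs S J₀ bs i y k * R.T i i' y = gs S J₀ bs i' y k := by
  obtain ⟨a1, a2, -⟩ := S.mem y hy k
  have k1 := (hF ρ a m J₀).2.2.1 _ (hO _ (mem S hI hi' hy k)) _ _ (R.detT _ _ _ hi hi') fun l =>
    R.rj_loc a1.1 (a2.symm ▸ hi') (a2.symm ▸ hi) (fun _ => at_cx _) (bs l)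
  have k2 := R.loc a1.1 (a2.symm ▸ hi') (a2.symm ▸ hi) (fun _ => at_cx _) a1.2.2
  rw [a2] at k2
  rw [gs, k2]
  exact k1

theorem good (hF : FRM) (hI : R.Inv O U) (hO : ∀ j ∈ O, (fun l => j (bs l)) ∈ O1 J₀) {i : R.ι}
    {y : M.Y.X} (hi : y ∈ R.U i) (hy : y ∉ S.Q) (k) : (gs S J₀ bs i y k).det ≠ 0 ∧
      ∃ x, M.f x = y ∧ x ∈ off M.G ∧ gd J₀ (act (gs S J₀ bs i y k) (R.j i (cx x) x)) := by
  obtain ⟨a1, a2, -⟩ := S.mem y hy k
  obtain ⟨b1, b2, -⟩ := (hF ρ a m J₀).2.2.2.1 _ (hO _ (mem S hI hi hy k))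
  exact ⟨b1, _, (a1.1 (bs (Fin.last _))).trans a2, a1.2.2 _, b2⟩

theorem mer (hF : FRM) (hO : ∀ j ∈ O, (fun l => j (bs l)) ∈ O1 J₀) {i : R.ι} {y : M.Y.X}
    (hi : y ∈ R.U i) (Ψ : MvPolynomial (Fin ρ × Fin ρ) ℂ) : P277Z.Mer p
      (fun y' => ∏ k, MvPolynomial.eval (fun b => gs S J₀ bs i y' k b.1 b.2) Ψ) y := by
  have h := S.mer i y hi _ (HV.eval (fun b : Fin ρ × Fin ρ => hv hF hO b.1 b.2) Ψ)
  exact h

theorem loc (hF : FRM) (hD : DER) (hT : TST) (hM : Std M m) (hI : R.Inv O U)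
    (hO : ∀ j ∈ O, (fun l => j (bs l)) ∈ O1 J₀) {v : ℕ} {z : Fin v → M.Y.X → ℂ} {i : R.ι}
    {y : M.Y.X} (hi : y ∈ R.U i) (hy : y ∉ S.Q)
    (hR : ∀ q ∈ R.Nc _, q.1 = y → R.Jq q ∈ O2 m J₀ bs O → R.Et (U2 m J₀ bs U) q → ∀ b,
      Rep (fun q' => (fun j => z j q'.1, fun b => U2 m J₀ bs U b (R.Jq q')))
        (fun q' => F2 m J₀ bs b (R.Jq q')) q) : ∃ h : Fin S.e → M.Y.X → Mt ρ,
    (∀ k α β, Hol p (fun y' => h k y' α β) y) ∧
    (∀ᶠ y' in 𝓝 y, ∃ π : Equiv.Perm (Fin S.e), ∀ k, gs S J₀ bs i y' k = h (π k) y') ∧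
    ∀ x c, M.f x = y → x ∈ off M.G → At c x → (∀ k, gd J₀ (act (h k y) (R.j i c x))) →
      ∀ k k', ∃ F : Cm v × Cm a → Jt ρ a,
        AnalyticAt ℂ F (fun j => z j y, wc J₀ (act (h k y) (R.j i c x))) ∧ ∀ᶠ x' in 𝓝 x,
          nrm J₀ m (act (h k' (M.f x')) (R.j i c x')) =
            F (fun j => z j (M.f x'), wc J₀ (act (h k (M.f x')) (R.j i c x'))) := by
  obtain ⟨u, t1, t2⟩ := sheets S hI hi hy
  have t4 := t2.self_of_nhds.2.2
  have t5 : ∀ k α β, Hol p (fun y' => gm J₀ m (fun l => R.Ji i (y', u k y') (bs l)) α β) y :=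
    fun k α β => ((hT p a m ρ M R hM n p _ _ y (t1 k)).2.1 i O _ hI.op (hv hF hO α β) hi).1
      (t4 k).1.2.2 (t4 k).2.1
  refine ⟨fun k y' => gm J₀ m fun l => R.Ji i (y', u k y') (bs l), t5,
    t2.mono fun y' h => h.1.imp fun π e k => by rw [gs, e k], fun x e hx hG he hg k k' => ?_⟩
  subst hx
  have g0 : ∀ k, AnV (p + a) (fun x' => act (gm J₀ m fun l => R.Ji i (M.f x', u k (M.f x')) (bs l))
      (R.j i e x')) x := fun k c hc =>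
    an_act (fun α β => hM.ok.fibn.hol.hol (t5 k α β) c hc) (R.hol i e x hi he hG c hc)
  have g1 := fun k => (g0 k).cont.eventually ((isOpen_gd J₀).mem_nhds (hg k))
  exact flat hF hD hM hI hO (continuousAt_pi.2 fun l => ((t1 k).x l).cont)
    (continuousAt_pi.2 fun l => ((t1 k').x l).cont) (t2.mono fun _ h => ⟨h.2.1, h.2.2 k, h.2.2 k'⟩)
    hG he ((g1 k).and (g1 k')) hR

end Pa1

open Pa1 in
theorem pa1_of (h1 : IMMU) (h2 : FRM) (h3 : LEV) (h4 : MSX) (h5 : UNI) (h6 : TST) (h7 : DER) :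
    PA1 := by
  intro p a m ρ M R hM hf
  obtain ⟨J₀, n, bs, O, U, hI, hO⟩ := h1 p a m ρ M R hM hf
  obtain ⟨S⟩ := h4 p a m ρ M R hM n _ O U hI
  obtain ⟨Q, v, z, n₁, c, d, B, hQ, -, hB, hz, hR⟩ := h3 p a m ρ M R hM _ _ _ _ _
    (F2 m J₀ bs) (inv2 h2 h7 hM hI hO) (iv2 h2)
  obtain ⟨n', c', k', B', p1, p2, p3, p4⟩ := h5 p a m ρ M R hM _ _ _ _ _ _ _ (J₀ 0).pos
    (zq_mono hB (subset_union_right (s := S.Q)))
  exact ⟨J₀, v, z, ⟨S.Q ∪ Q, S.e, gs S J₀ bs, S.thin.union hQ, S.sub.trans subset_union_left,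
    S.pos, fun i y hi hy k => (good S h2 hI hO hi (fun e => hy (.inl e)) k).1,
    fun i i' y hi hi' hy => law S h2 hI hO hi hi' fun e => hy (.inl e),
    fun i y hi hy k => (good S h2 hI hO hi (fun e => hy (.inl e)) k).2,
    fun i y hi => mer S h2 hO hi, fun i y hi hy => loc S h2 h7 h6 hM hI hO hi (fun e => hy (.inl e))
      fun q a1 a2 => hR q a1 fun e => hy (.inr (a2 ▸ e))⟩,
    n', c', k', B', p1, p2, p3, p4, fun y hy => hz y fun e => hy (.inr e)⟩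

end Vale.Agent.P281Z.Ga
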