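import Vale.Agent.P281Z.Ga.Sk
import Vale.Agent.P281Z.Ga.Loc

/-!
# P281Z, block III, part A: from the flat multiframes to the algebraic data
-/

open scoped Topology Matrix
open Set Filter Function
open Vale.Agent.P272.K
open Vale.Agent.P277Z (Hol)
open Vale.Agent.P277Z.Slc (Ind)

noncomputable section

namespace Vale.Agent.P281Z.Ga

open Gt

/-- the total degree is bounded below by the weight -/
theorem SI.cnt {ρ a n m c : ℕ} {d : Fin n → ℕ} {Φ : (Fin n → Jt ρ a) → ℂ} (h : SI m c d Φ)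
    {j : Fin n → Jt ρ a} (hj : Φ j ≠ 0) : m * (ρ * c) ≤ ∑ k, d k := by
  by_contra k
  obtain ⟨r, hr⟩ := Nat.exists_eq_add_of_lt (not_le.1 k)
  have h1 : ∀ l : ℂ, l ≠ 0 → l ^ (r + 1) * Φ (fun k => ((j k).1, l • (j k).2)) = Φ j := fun l hl => by
    have k1 := h.act (l ^ m • 1) fun k => ((j k).1, l • (j k).2)
    have k2 := h.sc (fun _ => l) j
    rw [Finset.prod_pow_eq_pow_sum] at k2
    simp only [smul_act, act_one, smul_smul, ← pow_mul, ← pow_succ, mul_comm m (a + 1),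
      Matrix.det_smul, Matrix.det_one, mul_one, Fintype.card_fin] at k1
    rw [mul_assoc, hr, add_assoc, pow_add l (∑ k, d k), mul_assoc] at k1
    exact mul_left_cancel₀ (pow_ne_zero _ hl) (k1.symm.trans k2)
  have h2 : Continuous fun l : ℂ => l ^ (r + 1) * Φ fun k => ((j k).1, l • (j k).2) :=
    (continuous_pow _).mul (h.sh.cont.comp (by fun_prop))
  have h3 := tendsto_nhds_unique (tendsto_nhdsWithin_of_tendsto_nhds (s := {0}ᶜ) (h2.tendsto 0))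
    (tendsto_const_nhds.congr' (eventually_nhdsWithin_of_forall fun l hl => (h1 l hl).symm))
  exact hj (by simpa using h3.symm)

theorem push_grp {e ρ m : ℕ} (k : Fin (e * ρ)) :
    ∑ g : Fin e, push (fun β => finProdFinEquiv (g, β)) (fun _ : Fin ρ => m) k = m := by
  obtain ⟨⟨g, β⟩, rfl⟩ := finProdFinEquiv.surjective k
  rw [Finset.sum_eq_single g]
  · simp [push, Finset.filter_eq']
  · exact fun g' _ e => by simp [push, e]
  · simp

variable {p a m ρ n : ℕ} {M : Fb (p + a) p} {R : JS M m ρ} {C : NS M}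

theorem nice_nc (h : R.Q ⊆ C.Q) {q : Pt M n} (hq : q ∈ C.N n) : q ∈ R.Nc n :=
  ⟨hq.1, fun k => hq.2.1 (h k), fun k => C.offG _ (hq.2.2 k)⟩

theorem jdw_ne {q : Pt M n} (hq : q ∈ C.N n) (k : Fin n) :
    jdw C.w (cx (q.2 k)) (R.ch (R.fr q.1)) (q.2 k) ≠ 0 :=
  C.et _ (hq.2.2 k) _ _ (at_cx _) (R.atc _ _ ((hq.1 k).symm ▸ R.fr_mem _))

theorem jq_ne {q : Pt M n} (hq : q ∈ C.N n) : R.jq C.w q ≠ 0 :=
  Finset.prod_ne_zero_iff.2 fun k _ => jdw_ne hq k

theorem ex_nice (hF : FGEN) (hM : Std M m) {y : M.Y.X} (hy : y ∉ C.Q)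
    {d : Fin n → ℕ} {Φ : (Fin n → Jt ρ a) → ℂ} (hΦ : SH m d Φ)
    (k : ∃ x, (y, x) ∈ R.Nc n ∧ Φ (R.Jq (y, x)) ≠ 0) :
    ∃ x, (y, x) ∈ C.N n ∧ Φ (R.Jq (y, x)) ≠ 0 :=
  let ⟨x₀, k1, _⟩ := k
  let ⟨x, h1, h2, h3⟩ := (hF p a m ρ M R hM n (R.fr y) y C.S Unit (fun _ => d) (fun _ => Φ)
    (R.fr_mem y) k1.2.1 C.thinS.closed (fun x e => e ▸ C.fib x (e.symm ▸ hy)) (fun _ => hΦ)
    (fun _ => k) x₀ k1.1).exists
  ⟨x, ⟨h1.1, hy, h2⟩, h3 ()⟩

theorem dt_eq {y : M.Y.X} {x : Fin ρ → M.X.X} (hx : ∀ β, M.f (x β) = y) :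
    dt (fun α x => (R.J x).1 α / jdw C.w (cx x) (R.ch (R.fr y)) x ^ m) x =
      (∏ β, (jdw C.w (cx (x β)) (R.ch (R.fr y)) (x β))⁻¹ ^ m) * b0 (R.Jq (y, x)) := by
  rw [← si_b0.sc]
  refine congrArg Matrix.det (Matrix.ext fun α β => ?_)
  simp [sc, R.Jq_eq (q := (y, x)) hx, div_eq_inv_mul]

theorem parta_of (h1 : JSX) (h2 : PA1) (h3 : WX) (h4 : PMT) (h5 : RFL) (h6 : SPN) (h7 : SPB)
    (h8 : FGEN) (h9 : VGEN) (h10 : BLK) (h11 : FL3) (h12 : FLP) : PARTA := by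
  intro p a m ρ M hM _ hf hS
  obtain ⟨R⟩ := h1 p a m ρ M hM hS
  obtain ⟨J₀, v, z, S, n, c, k, B, hn, hc, hk, hB, hz⟩ := h2 p a m ρ M R hM hf
  obtain ⟨cc, C, hC⟩ := h3 p a m ρ M R hM J₀ v z S
  obtain ⟨p1, p2⟩ := h4 p a m ρ M R hM J₀ v z S
  have hQ : R.Q ⊆ C.Q := S.sub.trans hC.sub
  obtain ⟨e, he⟩ := Nat.exists_eq_add_one_of_ne_zero S.pos.ne'
  have := hM.ok.conn
  have : Nonempty M.Y.X := ⟨M.f (Classical.arbitrary _)⟩
  let Φ := fun j (u : Fin n → Jt ρ a) => B j u * B 0 u ^ e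
  have hΦ : ∀ j, SI m (S.e * c) (fun _ => m * (k * S.e)) (Φ j) := fun j =>
    ((hB.si j).mul ((hB.si 0).pow e)).cast (by rw [he]; ring) (funext fun _ => by rw [he]; ring)
  have hP : SI m (S.e * 1) (fun _ => m) (bP (ρ := ρ) (a := a) S.e) := (si_bP _).cast (by simp) rfl
  have hθ : ∀ y ∉ C.Q, ∏ k, (S.g (R.fr y) y k).det ≠ 0 := fun y hy =>
    Finset.prod_ne_zero_iff.2 fun k _ => S.det _ y (R.fr_mem y) (fun h => hy (hC.sub h)) k
  have hN : ∀ c', ∀ q : Pt M 1, Fp q → S.nn c' (R.fr q.1) (fun k => cx (q.2 k)) q = S.N c' (q.2 0) :=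
    fun c' q hq => by
      rw [JS.GS.N, JS.GS.nn, JS.GS.nn, ← hq 0]
      rfl
  let D : AD M m :=
    { toNS := C, v := v, z := z, ρ := ρ, c₀ := S.e, n₁ := n, k₁ := k * S.e, c₁ := c, i₁ := S.e
      P := R.gl C.w m (S.tf 1 (bP S.e))
      B := fun j => R.gl C.w (m * (k * S.e)) (S.tf c (Φ j))
      s := fun i => R.gl C.w (m * S.e) (S.nn (cc i))
      pos := ⟨(J₀ 0).pos, S.pos, hn, Nat.mul_pos hk S.pos, hc, S.pos⟩
      cnt := by
        obtain ⟨q, -, hq⟩ := hB.ne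
        have k1 := (hB.si 0).cnt hq
        rw [Finset.sum_const, Finset.card_fin, smul_eq_mul, mul_left_comm n] at k1
        have k2 := Nat.le_of_mul_le_mul_left k1 (by have := hM.two; omega)
        calc c * (S.e * ρ) = S.e * (ρ * c) := by ring
          _ ≤ S.e * (n * k) := Nat.mul_le_mul_left _ k2
          _ = _ := by ring
      zmr := fun j => ⟨fun y hy => (hB.mr j).hol y fun h => hy (hC.sub h), (hB.mr j).mer⟩
      zind := let ⟨y, hy⟩ := C.thinQ.dense.nonempty; ⟨y, hy, hz y fun h => hy (hC.sub h)⟩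
      rfP := h5 p a m ρ M R hM _ _ _ C _ S.thin hC.sub (p1 _ _ _ _ hP)
      rfB := fun j => h5 p a m ρ M R hM _ _ _ C _ S.thin hC.sub (p1 _ _ _ _ (hΦ j))
      rfs := fun i => h5 p a m ρ M R hM _ _ _ C _ S.thin hC.sub (p2 _)
      span := fun y hy => ⟨_, _, hθ y hy, h6 p a m ρ M R hM C hQ y hy, by
        obtain ⟨x, k1, k2⟩ := ex_nice h8 hM hy si_b0.sh
          (h7 p a m ρ M R hM _ y (R.fr_mem y) fun h => hy (hQ h))
        refine ⟨x, k1, ?_⟩
        rw [dt_eq k1.1]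
        exact mul_ne_zero (Finset.prod_ne_zero_iff.2 fun β _ =>
          pow_ne_zero _ (inv_ne_zero (jdw_ne k1 β))) k2, fun x hx => by
        rw [Finset.prod_congr rfl fun g _ => dt_eq (x := (grp g (y, x)).2) fun β => hx.1 _,
          Finset.prod_mul_distrib, ← Fintype.prod_prod_type', JS.gl, JS.GS.tf, pow_one,
          mul_div_assoc, div_eq_inv_mul, JS.jq, ← inv_pow, ← Finset.prod_inv_distrib,
          ← Finset.prod_pow, ← finProdFinEquiv.prod_comp]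
        rfl⟩
      rel := fun j q hq => by
        have k1 : B j.succ (fun k => R.j (R.fr q.1) (cx (q.2 k)) (q.2 k)) =
            z j q.1 * B 0 fun k => R.j (R.fr q.1) (cx (q.2 k)) (q.2 k) :=
          hB.rel j q (nice_nc hQ hq) fun h => hq.2.1 (hC.sub h)
        simp only [JS.gl, JS.GS.tf, Φ, k1]
        ring
      neB := by
        obtain ⟨Q, k1, -, k2⟩ := h9 p a m ρ M R hM n _ (hB.si 0).op hB.ne
        obtain ⟨y, hy⟩ := (k1.union C.thinQ).dense.nonempty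
        obtain ⟨x, k3, k4⟩ := ex_nice h8 hM (fun h => hy (.inr h)) (hB.si 0).sh
          (k2 y fun h => hy (.inl h))
        exact ⟨_, k3, div_ne_zero (mul_ne_zero (pow_ne_zero _ (hθ y k3.2.1))
          (mul_ne_zero k4 (pow_ne_zero _ k4))) (pow_ne_zero _ (jq_ne k3))⟩
      rat := fun i q hq => by
        rw [JS.gl, JS.gl, hN _ q hq.1, hN _ q hq.1, hC.eq _ (hq.2.2 0), ← mul_div_assoc,
          div_mul_cancel₀ _ (hC.ne _ (hq.2.2 0))]
      nes := fun q hq => div_ne_zero (hN _ q hq.1 ▸ hC.ne _ (hq.2.2 0)) (pow_ne_zero _ (jq_ne hq))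
      blk := fun r r' k1 k2 => by
        choose A a1 a2 using fun j =>
          h10 p a m ρ M R hM J₀ v z S C n c _ (Φ j) r r' hC.sub (hΦ j) hc k1 k2
        exact ⟨∑ j, A j, fun y hy ψ hψ K hK hL j u u1 u2 => (a2 j y hy ψ hψ K hK hL u u1 u2).trans
          (mul_le_mul_of_nonneg_right (Finset.single_le_sum (fun j _ => a1 j) (Finset.mem_univ j))
            (pow_nonneg hK _))⟩ }
  obtain ⟨x, hx, f1, f2⟩ := h11 p a m ρ M R hM J₀ v z S cc C hC fun y hy j => (hB.mr j).hol y hy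
  have hd : ∀ n, dg n x ∈ C.N n := fun _ => ⟨fun _ => rfl, fun h => hx (C.sub x h), fun _ => hx⟩
  have hi : ∀ y ∉ D.Q, Ind p D.z y := fun y hy => hz y fun h => hy (hC.sub h)
  refine ⟨D, h12 p a m _ M D _ hM hi D.rfP.hol ⟨_, hd _, f1 _ 1 m _ _
    (fun g => si_b0.sel fun β => finProdFinEquiv (g, β)) push_grp⟩,
    h12 p a m _ M D _ hM hi (D.rfB 0).hol ⟨_, hd _, ?_⟩,
    h12 p a m _ M D _ hM hi (D.rfs 0).hol ⟨_, hd _, f2 _⟩⟩
  have k1 := f1 n c (m * (k * S.e)) (fun _ _ => m * k) (fun _ => B 0) (fun _ => hB.si 0)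
    fun _ => by simp only [Finset.sum_const, Finset.card_fin, smul_eq_mul]; ring
  rwa [show (fun j => ∏ _k : Fin S.e, B 0 j) = Φ 0 from funext fun j => by
    rw [Finset.prod_const, Finset.card_fin, he, pow_succ']] at k1

end Vale.Agent.P281Z.Ga
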