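import Vale.Agent.P281Z.Ga.Sk
import Vale.Agent.P281Z.Gt.FinalA

/-!
# P281Z, block III, part A: the jets on a piece of a fibre
-/

open scoped Manifold ContDiff Topology Matrix
open Set Filter
open Vale.Agent.P272.K Vale.Agent.P285.H281.FD
open Vale.Agent.P277Z (Hol at_chart)
open Vale.Agent.P277Z.Slc (dd)

noncomputable section

namespace Vale.Agent.P281Z.Ga

open Gt

namespace Pj

section alg

variable {ρ a : ℕ}

theorem pl_mul (B : Matrix (Fin (a + 1)) (Fin (a + 1)) ℂ) (v : Fin (a + 1) → Cm ρ) :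
    pl (fun k => ∑ l, B k l • v l) = B.det • pl v := funext fun J => by
  rw [Pi.smul_apply, smul_eq_mul, pl, pl, ← Matrix.det_transpose B, mul_comm, ← Matrix.det_mul]
  refine congrArg Matrix.det (Matrix.ext fun k l => ?_)
  simp [Matrix.mul_apply, Finset.sum_apply, mul_comm]

theorem pl_tri (μ : ℂ) (α : Fin a → ℂ) (A : Matrix (Fin a) (Fin a) ℂ) (s : Cm ρ)
    (t : Fin a → Cm ρ) :
    pl (Fin.cons (μ • s) fun k => α k • s + μ • ∑ l, A k l • t l) =
      (μ ^ (a + 1) * A.det) • pl (Fin.cons s t) := by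
  have h := pl_mul (Matrix.of (Fin.cons (Fin.cons μ 0) fun k => Fin.cons (α k) fun l => μ * A k l))
    (Fin.cons s t)
  have h1 : (Matrix.of (Fin.cons (Fin.cons μ 0) fun k => Fin.cons (α k) fun l => μ * A k l) :
      Matrix (Fin (a + 1)) (Fin (a + 1)) ℂ).det = μ ^ (a + 1) * A.det := by
    rw [Matrix.det_succ_row_zero, Fin.sum_univ_succ, Finset.sum_eq_zero fun j _ => by simp,
      show Matrix.submatrix _ Fin.succ (Fin.succAbove 0) = μ • A from
        Matrix.ext fun k l => by simp, Matrix.det_smul]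
    simp [pow_succ]
    ring
  rw [← h1, ← h]
  refine congrArg pl (funext (Fin.cases ?_ fun k => ?_))
  · simp [Fin.sum_univ_succ]
  · simp [Fin.sum_univ_succ, Finset.smul_sum, smul_smul]

theorem act_one (j : Jt ρ a) : act 1 j = j := by
  refine Prod.ext (Matrix.one_mulVec _) (funext fun J => ?_)
  show ∑ J' : Fin (a + 1) → Fin ρ, (∏ k, (1 : Mt ρ) (J k) (J' k)) * j.2 J' = j.2 J
  rw [Finset.sum_eq_single J (fun J' _ h => ?_) fun h => absurd (Finset.mem_univ _) h]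
  · simp
  · obtain ⟨k, hk⟩ := Function.ne_iff.1 h
    rw [Finset.prod_eq_zero (Finset.mem_univ k) (Matrix.one_apply_ne (i := J k) (j := J' k) hk.symm), zero_mul]

end alg

section chain

variable {n a : ℕ} {X : Type} [TopologicalSpace X] [ChartedSpace (Cm n) X]
  [IsManifold 𝓘(ℂ, Cm n) ω X] {E : Type} [NormedAddCommGroup E] [NormedSpace ℂ E]
  {ψ : Cm a → X} {u : Cm a} {e : Chart n X} {F : X → E}

theorem an_chart (h : HolA a n ψ u) (he : At e (ψ u)) : AnalyticAt ℂ (fun z => e (ψ z)) u :=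
  h.an (at_chart u) he

omit [IsManifold 𝓘(ℂ, Cm n) ω X] [NormedAddCommGroup E] [NormedSpace ℂ E] in
theorem ev_eq (h : HolA a n ψ u) (he : At e (ψ u)) (F : X → E) :
    (fun z => F (e.symm (e (ψ z)))) =ᶠ[𝓝 u] fun z => F (ψ z) :=
  (h.cont.eventually (at_near he)).mono fun _ hz => congrArg F hz.left_inv

theorem an_comp (h : HolA a n ψ u) (hF : AnV n F (ψ u)) : AnalyticAt ℂ (fun z => F (ψ z)) u :=
  ((hF _ (at_chart _)).fun_comp (f := fun z => chartAt (Cm n) (ψ u) (ψ z))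
    (an_chart h (at_chart _))).congr (ev_eq h (at_chart _) F)

theorem chain (h : HolA a n ψ u) (he : At e (ψ u)) (hF : AnV n F (ψ u)) (t : Cm a) :
    fderiv ℂ (fun z => F (ψ z)) u t =
      fderiv ℂ (fun z => F (e.symm z)) (e (ψ u)) (fderiv ℂ (fun z => e (ψ z)) u t) := by
  rw [← (ev_eq h he F).fderiv_eq, fderiv_fun_comp u (g := fun z => F (e.symm z))
    (f := fun z => e (ψ z)) (hF e he).differentiableAt (an_chart h he).differentiableAt]
  rfl

end chain

variable {p a m ρ : ℕ} {M : Fb (p + a) p} {R : JS M m ρ} {i : R.ι} {y : M.Y.X} {r : ℝ}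
  {ψ : Cm a → M.X.X}

/-- the comparison at one point, in one chart -/
theorem pt (hf : HolM (p + a) p M.f) (hy : y ∈ R.U i) (hQ : y ∉ R.Q) (h : Pc y r ψ) {u : Cm a}
    (hu : u ∈ Metric.ball (0 : Cm a) r) {e : Chart (p + a) M.X.X} (he : At e (ψ u)) :
    ∃ l : ℂ, l ≠ 0 ∧ (∀ w : Fin a → M.X.X → ℂ, (∀ k, Hol (p + a) (w k) (ψ u)) →
      jw w ψ u = l * jdw w e (R.ch i) (ψ u)) ∧
      (∀ (μ : ℂ) (α : Fin a → ℂ), pl (Fin.cons (μ • (R.j i e (ψ u)).1) fun k =>
        α k • (R.j i e (ψ u)).1 + μ • fderiv ℂ (fun z => (R.j i e (ψ z)).1) u (Pi.single k 1)) =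
          (μ ^ (a + 1) * l) • (R.j i e (ψ u)).2) ∧
      ∃ g : Cm (p + a) →L[ℂ] Cm a, jdw (fun k x => g (e x) k) e (R.ch i) (ψ u) ≠ 0 := by
  have hyu := h.fib u hu
  have he' : At (R.ch i) (M.f (ψ u)) := hyu.symm ▸ R.atc i y hy
  obtain ⟨ξ, c, hc, hξ, hv, hw, hj⟩ := R.der i e (ψ u) (hyu.symm ▸ hy) (hyu.symm ▸ hQ) he (h.off u hu)
  have h0 : ∀ t, fderiv ℂ (fun z => e (ψ z)) u t ∈ Submodule.span ℂ (range ξ) := fun t => by
    refine (hv _).1 ((chain (h.hol u hu) he ((hf.at _).anV he') t).symm.trans ?_)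
    have k : (fun z => R.ch i (M.f (ψ z))) =ᶠ[𝓝 u] fun _ => R.ch i y :=
      (Metric.isOpen_ball.eventually_mem hu).mono fun z hz => congrArg _ (h.fib z hz)
    rw [k.fderiv_eq, fderiv_fun_const]
    rfl
  choose A hA using fun k : Fin a =>
    (Submodule.mem_span_range_iff_exists_fun ℂ).1 (h0 (Pi.single k 1))
  have hd : (Matrix.of A).det ≠ 0 := fun k => by
    obtain ⟨t, ht, h1⟩ := Matrix.exists_vecMul_eq_zero_iff.2 k
    refine ht (h.imm u hu _ e (at_chart u) he (?_ : fderiv ℂ (fun z => e (ψ z)) u t =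
      fderiv ℂ (fun z => e (ψ z)) u 0))
    have h2 : ∀ l, ∑ k, t k * A k l = 0 := fun l => congrFun h1 l
    rw [map_zero, pi_eq_sum_univ' t, map_sum]
    simp only [map_smul, ← hA, Finset.smul_sum, smul_smul]
    rw [Finset.sum_comm]
    simp only [← Finset.sum_smul, h2, zero_smul, Finset.sum_const_zero]
  refine ⟨(Matrix.of A).det / c, div_ne_zero hd hc, fun w k => ?_, fun μ α => ?_, ?_⟩
  · rw [hw w k, ← mul_assoc, div_mul_cancel₀ _ hc, ← Matrix.det_transpose (Matrix.of A), mul_comm,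
      ← Matrix.det_mul, jw, ← LinearMap.det_toMatrix']
    refine congrArg Matrix.det (Matrix.ext fun b l => ?_)
    have k1 := chain (F := w b) (h.hol u hu) he (k b) (Pi.single l 1)
    rw [← hA, map_sum] at k1
    rw [LinearMap.toMatrix'_apply, fderiv_pi fun b =>
      (an_comp (F := w b) (h.hol u hu) (k b)).differentiableAt]
    simpa [Matrix.mul_apply, dd, mul_comm] using k1
  · have k0 := R.hol i e (ψ u) (hyu.symm ▸ hy) he (h.off u hu)
    have k1 : ∀ k, fderiv ℂ (fun z => (R.j i e (ψ z)).1) u (Pi.single k 1) = ∑ l,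
        Matrix.of A k l • (fderiv ℂ (fun z => R.j i e (e.symm z)) (e (ψ u)) (ξ l)).1 := fun k => by
      rw [fderiv.fst (an_comp (h.hol u hu) k0).differentiableAt, ContinuousLinearMap.comp_apply,
        chain (h.hol u hu) he k0, ← hA, map_sum, map_sum]
      simp
    simp only [k1]
    rw [pl_tri, hj, smul_smul, mul_assoc, div_mul_cancel₀ _ hc]
  · obtain ⟨g, hg⟩ := (Fintype.linearCombination ℂ ξ).exists_leftInverse_of_injective
      (LinearMap.ker_eq_bot.2 hξ.fintypeLinearCombination_injective)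
    have k0 : ∀ k, Hol (p + a) (fun x => LinearMap.toContinuousLinearMap g (e x) k) (ψ u) :=
      ((anV_chart he).cmp ((LinearMap.toContinuousLinearMap g).analyticAt _)).hol
    refine ⟨LinearMap.toContinuousLinearMap g, ?_⟩
    rw [hw _ k0, show Matrix.of _ = 1 from Matrix.ext fun k l => ?_, Matrix.det_one, mul_one]
    · exact hc
    have k1 : (fun z => LinearMap.toContinuousLinearMap g (e (e.symm z)) k) =ᶠ[𝓝 (e (ψ u))]
        ((ContinuousLinearMap.proj k).comp (LinearMap.toContinuousLinearMap g)) :=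
      (e.eventually_right_inverse he.mem_target).mono fun z hz => by simp [hz]
    have k2 := LinearMap.congr_fun hg (Pi.single l 1)
    rw [Matrix.of_apply, dd, k1.fderiv_eq, ContinuousLinearMap.fderiv]
    simpa [Matrix.one_apply, Pi.single_apply] using congrFun k2 k

end Pj

open Pj in
/-- **PJ** -/
theorem pj_of (h : JDW) : PJ := fun p a m ρ M R hM i y hy hQ r ψ hψ => by
  have hf := hM.ok.fibn.hol
  choose! l h1 h2 h3 h4 using fun (u : Cm a) (e : Chart (p + a) M.X.X)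
    (k : u ∈ Metric.ball (0 : Cm a) r ∧ At e (ψ u)) => pt hf hy hQ hψ k.1 k.2
  refine ⟨fun u => l u (cx (ψ u)) ^ m • (R.j i (cx (ψ u)) (ψ u)).1, fun u => l u (cx (ψ u)),
    fun u hu => ?_⟩
  have he := at_chart (n := p + a) (ψ u)
  have hk := And.intro hu he
  obtain ⟨g, hg⟩ := h4 _ _ hk
  have hU : ∀ z ∈ Metric.ball (0 : Cm a) r, M.f (ψ z) ∈ R.U i := fun z hz =>
    (hψ.fib z hz).symm ▸ hy
  have hw : ∀ x, At (cx (ψ u)) x → ∀ k, Hol (p + a) (fun x => g (cx (ψ u) x) k) x := fun x hx =>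
    ((anV_chart hx).cmp (g.analyticAt _)).hol
  have a1 : AnalyticAt ℂ (fun z => jdw (fun k x => g (cx (ψ u) x) k) (cx (ψ u)) (R.ch i) (ψ z)) u :=
    an_comp (F := jdw _ _ _) (hψ.hol u hu)
      (Fnl.jdw_hol (hf.at _) (hw _ he) he (R.atc i _ (hU u hu)))
  have a2 : AnalyticAt ℂ (jw (fun k x => g (cx (ψ u) x) k) ψ) u :=
    P277Z.Lo.Jc.jd_hol (g := fun k z => g (cx (ψ u) (ψ z)) k) (at_chart u)
      (fun k => (hψ.hol u hu).hol (hw _ he k)) _ (at_chart u)
  have a3 : ∀ᶠ z in 𝓝 u, l z (cx (ψ u)) = jw (fun k x => g (cx (ψ u) x) k) ψ z /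
      jdw (fun k x => g (cx (ψ u) x) k) (cx (ψ u)) (R.ch i) (ψ z) ∧
      l z (cx (ψ z)) ^ m • (R.j i (cx (ψ z)) (ψ z)).1 =
        l z (cx (ψ u)) ^ m • (R.j i (cx (ψ u)) (ψ z)).1 := by
    filter_upwards [Metric.isOpen_ball.eventually_mem hu,
      (hψ.hol u hu).cont.eventually (at_near he), a1.continuousAt.eventually_ne hg] with z z1 z2 z3
    have b1 := h2 z _ ⟨z1, z2⟩ _ (hw _ z2)
    have b2 := h2 z _ ⟨z1, at_chart _⟩ _ (hw _ z2)
    have b3 := R.atc i _ (hU z z1)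
    rw [(h p a M _ _ _ _ _ _ hf (hw _ z2) (at_chart _) z2 b3 b3).2, b1, ← mul_assoc] at b2
    refine ⟨eq_div_of_mul_eq z3 b1.symm, ?_⟩
    rw [mul_right_cancel₀ z3 b2, R.law i i _ _ _ (hU z z1) (hU z z1) (at_chart _) z2 (hψ.off z z1),
      R.self i _ (hU z z1), act_one, mul_pow, mul_smul]
    rfl
  have a4 : AnalyticAt ℂ (fun z => l z (cx (ψ u)) ^ m) u :=
    ((a2.div a1 hg).congr (a3.mono fun z hz => hz.1.symm)).pow m
  have a5 : AnalyticAt ℂ (fun z => (R.j i (cx (ψ u)) (ψ z)).1) u :=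
    analyticAt_fst.fun_comp (an_comp (hψ.hol u hu) (R.hol i _ _ (hU u hu) he (hψ.off u hu)))
  have a6 : (fun z => l z (cx (ψ z)) ^ m • (R.j i (cx (ψ z)) (ψ z)).1) =ᶠ[𝓝 u]
      fun z => l z (cx (ψ u)) ^ m • (R.j i (cx (ψ u)) (ψ z)).1 := a3.mono fun z hz => hz.2
  refine ⟨(a4.smul a5).congr a6.symm, h1 _ _ hk, Prod.ext rfl ?_, h2 _ _ hk⟩
  have a7 := h3 _ _ hk (l u (cx (ψ u)) ^ m)
    fun k => fderiv ℂ (fun z => l z (cx (ψ u)) ^ m) u (Pi.single k 1)
  rw [← pow_mul, ← pow_succ, mul_comm m] at a7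
  refine a7.symm.trans (congrArg pl (congrArg _ (funext fun k => ?_)))
  rw [a6.fderiv_eq, fderiv_fun_smul a4.differentiableAt a5.differentiableAt, add_comm]
  rfl

end Vale.Agent.P281Z.Ga
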