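import Vale.Agent.P281Z.Ga.Sk
import Vale.Agent.P277Z.Lo.Base

/-!
# P281Z, block III, part A: semi-invariants and norms give relative forms
-/

open scoped Manifold ContDiff Topology Matrix
open Set Filter
open Vale.Agent.P272.K Vale.Agent.P285.H281.FD
open Vale.Agent.P277Z (Hol Mer)

noncomputable section

namespace Vale.Agent.P281Z.Ga

open Gt

namespace PmtH

/-- interpolation in a finite dimensional space of functions -/
theorem interp {X : Type} (V : Submodule ℂ (X → ℂ)) [FiniteDimensional ℂ V] :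
    ∃ (L : ℕ) (t : Fin L → X) (f : Fin L → X → ℂ), (∀ l, f l ∈ V) ∧
      ∀ P ∈ V, ∀ x, P x = ∑ l, P (t l) * f l x := by
  let ev : X → Module.Dual ℂ V := fun x => (LinearMap.proj x).comp V.subtype
  have h : Submodule.span ℂ (range ev) = ⊤ := by
    refine Submodule.span_eq_top_of_ne_zero fun z hz => ?_
    by_contra hn
    refine hz (Subtype.ext (funext fun x => ?_))
    by_contra h0
    exact hn ⟨ev x, mem_range_self x, h0⟩
  let b := Module.finBasis ℂ V
  have h1 : ∀ i, ∃ (n : ℕ) (c : Fin n → ℂ) (t : Fin n → X), ∑ k, c k • ev (t k) = b.coord i := by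
    intro i
    obtain ⟨n, c, g, hg⟩ := Submodule.mem_span_set'.1 (h ▸ Submodule.mem_top (x := b.coord i))
    choose t ht using fun k => (g k).2
    exact ⟨n, c, t, by simpa only [ht] using hg⟩
  choose n c t ht using h1
  let e := (Fintype.equivFin (Σ i, Fin (n i))).symm
  refine ⟨_, fun l => t (e l).1 (e l).2, fun l => c (e l).1 (e l).2 • (b (e l).1 : X → ℂ),
    fun l => V.smul_mem _ (b _).2, fun P hP x => ?_⟩
  rw [e.sum_comp fun s : Σ i, Fin (n i) => P (t s.1 s.2) * (c s.1 s.2 • (b s.1 : X → ℂ)) x,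
    Fintype.sum_sigma]
  have h2 := congrArg (ev x) (b.sum_repr ⟨P, hP⟩)
  rw [map_sum] at h2
  refine h2.symm.trans (Finset.sum_congr rfl fun i _ => ?_)
  have h3 : b.repr ⟨P, hP⟩ i = ∑ k, c i k * P (t i k) := by
    have h4 := LinearMap.congr_fun (ht i) ⟨P, hP⟩
    rw [LinearMap.sum_apply] at h4
    exact h4.symm
  rw [map_smul, h3, smul_eq_mul, Finset.sum_mul]
  refine Finset.sum_congr rfl fun k _ => ?_
  change c i k * P (t i k) * (b i : X → ℂ) x = P (t i k) * (c i k * (b i : X → ℂ) x)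
  ring

/-- products of linear forms are determined by finitely many values -/
theorem polar (ρ e : ℕ) : ∃ (L : ℕ) (t : Fin L → Cm ρ) (f : Fin L → Cm ρ → ℂ),
    (∀ l, (∀ v, AnalyticAt ℂ (f l) v) ∧ ∀ (s : ℂ) v, f l (s • v) = s ^ e * f l v) ∧
      ∀ (A : Fin e → Cm ρ) v, ∏ k, A k ⬝ᵥ v = ∑ l, (∏ k, A k ⬝ᵥ t l) * f l v := by
  let mo : (Fin e → Fin ρ) → Cm ρ → ℂ := fun μ v => ∏ k, v (μ k)
  have : FiniteDimensional ℂ (Submodule.span ℂ (range mo)) :=
    FiniteDimensional.span_of_finite ℂ (finite_range mo)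
  obtain ⟨L, t, f, h1, h2⟩ := interp (Submodule.span ℂ (range mo))
  refine ⟨L, t, f, fun l => ?_, fun A v => h2 (fun v => ∏ k, A k ⬝ᵥ v) ?_ v⟩
  · refine Submodule.span_induction (p := fun g _ => (∀ v, AnalyticAt ℂ g v) ∧
      ∀ (s : ℂ) v, g (s • v) = s ^ e * g v) ?_ ?_ ?_ ?_ (h1 l)
    · rintro _ ⟨μ, rfl⟩
      refine ⟨fun v => Finset.analyticAt_fun_prod _ fun k _ =>
        (ContinuousLinearMap.proj (R := ℂ) (φ := fun _ : Fin ρ => ℂ) (μ k)).analyticAt v,
        fun s v => ?_⟩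
      simp only [mo, Pi.smul_apply, smul_eq_mul, Finset.prod_mul_distrib, Finset.prod_const,
        Finset.card_univ, Fintype.card_fin]
    · exact ⟨fun v => analyticAt_const, fun s v => by simp⟩
    · rintro g g' - - ⟨a1, a2⟩ ⟨b1, b2⟩
      exact ⟨fun v => (a1 v).add (b1 v), fun s v => by
        simp only [Pi.add_apply, a2, b2, mul_add]⟩
    · rintro c g - ⟨a1, a2⟩
      exact ⟨fun v => (analyticAt_const (v := c)).smul (a1 v), fun s v => by
        simp only [Pi.smul_apply, a2, smul_eq_mul]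
        ring⟩
  · have h : (fun v : Cm ρ => ∏ k, A k ⬝ᵥ v) =
        ∑ μ : Fin e → Fin ρ, (∏ k, A k (μ k)) • mo μ := by
      funext v
      simp only [dotProduct, Finset.sum_apply, Pi.smul_apply, smul_eq_mul, mo,
        ← Finset.prod_mul_distrib]
      rw [Finset.prod_univ_sum, Fintype.piFinset_univ]
    rw [h]
    exact Submodule.sum_mem _ fun μ _ =>
      Submodule.smul_mem _ _ (Submodule.subset_span (mem_range_self μ))

theorem hol_eval {n : ℕ} {W : Type} [TopologicalSpace W] [ChartedSpace (Cm n) W] {σ : Type}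
    {h : σ → W → ℂ} {x : W} (hh : ∀ b, Hol n (h b) x) (Ψ : MvPolynomial σ ℂ) :
    Hol n (fun y => MvPolynomial.eval (fun b => h b y) Ψ) x := by
  induction Ψ using MvPolynomial.induction_on with
  | C c => simpa only [MvPolynomial.eval_C] using P277Z.Lo.hol_const c
  | add P Q hP hQ => simpa only [map_add] using P277Z.Lo.hol_add hP hQ
  | mul_X P b hP =>
    simpa only [map_mul, MvPolynomial.eval_X] using P277Z.Lo.hol_mul hP (hh b)

variable {p a m ρ v : ℕ} {M : Fb (p + a) p} {R : JS M m ρ} {J₀ : Fin (a + 1) → Fin ρ}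
  {z : Fin v → M.Y.X → ℂ} (S : R.GS J₀ z)

theorem coef (i : R.ι) (Ψ : MvPolynomial (Fin ρ × Fin ρ) ℂ) (F : Mt ρ → ℂ)
    (hF : ∀ g : Mt ρ, MvPolynomial.eval (fun b => g b.1 b.2) Ψ = F g) (y : M.Y.X)
    (hy : y ∈ R.U i) : Mer p (fun y' => ∏ k, F (S.g i y' k)) y ∧
      (y ∉ S.Q → Hol p (fun y' => ∏ k, F (S.g i y' k)) y) := by
  refine ⟨by simpa only [hF] using S.mer i y hy Ψ, fun hq => ?_⟩
  obtain ⟨h, h1, h2, -⟩ := S.loc i y hy hq
  have h3 : Hol p (fun y' => ∏ k, F (h k y')) y :=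
    P277Z.Lo.hol_prod _ fun k _ => by
      simpa only [hF] using hol_eval (fun b : Fin ρ × Fin ρ => h1 k b.1 b.2) Ψ
  refine h3.congr (h2.mono ?_)
  rintro y' ⟨π, hπ⟩
  simp only [hπ]
  exact (Equiv.prod_comp π fun k => F (h k y')).symm

theorem tf {n c κ : ℕ} {Φ : (Fin n → Jt ρ a) → ℂ} (hΦ : SI m (S.e * c) (fun _ => κ) Φ) :
    R.PM S.Q κ (S.tf c Φ) where
  law i i' e e₁ q hq hi hi' hQ he := by
    have h1 : (fun k => R.j i (e k) (q.2 k)) = fun k => sc m (rj (e k) (e₁ k) (R.ch i) (R.ch i')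
        (q.2 k)) (act (R.T i i' q.1) (R.j i' (e₁ k) (q.2 k))) := funext fun k => by
      rw [← hq k]
      exact R.law i i' _ _ _ (hq k ▸ hi) (hq k ▸ hi') (he k).1 (he k).2.1 (he k).2.2
    have h2 : ∏ k, (S.g i' q.1 k).det = (∏ k, (S.g i q.1 k).det) * (R.T i i' q.1).det ^ S.e := by
      simp only [← S.law i i' q.1 hi hi' hQ, Matrix.det_mul, Finset.prod_mul_distrib,
        Finset.prod_const, Finset.card_univ, Fintype.card_fin]
    rw [JS.GS.tf, JS.GS.tf, h1, hΦ.sc, hΦ.act, h2, Finset.prod_pow, pow_mul]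
    ring
  rep i := by
    refine ⟨1, fun _ y => ∏ k, (S.g i y k).det ^ c, fun _ => Φ, fun _ => hΦ.toSH,
      fun _ y hy => coef S i ((Matrix.of fun α β => MvPolynomial.X (α, β)).det ^ c)
        (fun g => g.det ^ c) (fun g => ?_) y hy, fun e q => ?_⟩
    · rw [map_pow, RingHom.map_det]
      congr 2
      ext α β
      exact MvPolynomial.eval_X _
    · rw [Fin.sum_univ_one, JS.GS.tf, ← Finset.prod_pow]

theorem nn (c : Cm ρ) : R.PM S.Q (m * S.e) (S.nn c) where
  law i i' e e₁ q hq hi hi' hQ he := by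
    have h1 := R.law i i' _ _ _ (hq 0 ▸ hi) (hq 0 ▸ hi') (he 0).1 (he 0).2.1 (he 0).2.2
    rw [hq 0] at h1
    rw [JS.GS.nn, JS.GS.nn, h1, Fin.prod_univ_one]
    simp only [sc, act, Matrix.mulVec_smul, Matrix.mulVec_mulVec, S.law i i' q.1 hi hi' hQ,
      dotProduct_smul, smul_eq_mul, Finset.prod_mul_distrib, Finset.prod_const, Finset.card_univ,
      Fintype.card_fin, pow_mul]
  rep i := by
    obtain ⟨L, t, f, h1, h2⟩ := polar ρ S.e
    refine ⟨L, fun l y => ∏ k, c ⬝ᵥ (S.g i y k *ᵥ t l), fun l j => f l (j 0).1,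
      fun l => ⟨fun j => ((h1 l).1 _).comp (f := fun j : Fin 1 → Jt ρ a => (j 0).1)
        (((ContinuousLinearMap.fst ℂ _ _).comp (ContinuousLinearMap.proj (R := ℂ)
          (φ := fun _ : Fin 1 => Jt ρ a) 0)).analyticAt j), fun s j => ?_⟩,
      fun l y hy => coef S i (∑ α, ∑ β, MvPolynomial.C (c α * t l β) * MvPolynomial.X (α, β))
        (fun g => c ⬝ᵥ (g *ᵥ t l)) (fun g => ?_) y hy, fun e q => ?_⟩
    · rw [Fin.prod_univ_one, pow_mul]
      exact (h1 l).2 _ _
    · simp only [map_sum, map_mul, MvPolynomial.eval_C, MvPolynomial.eval_X, dotProduct,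
        Matrix.mulVec, Finset.mul_sum]
      exact Finset.sum_congr rfl fun α _ => Finset.sum_congr rfl fun β _ => by ring
    · simp only [JS.GS.nn, Matrix.dotProduct_mulVec]
      exact h2 _ _

end PmtH

/-- **PMT** -/
theorem pmt : PMT := fun _ _ _ _ _ _ _ _ _ _ S =>
  ⟨fun _ _ _ _ h => PmtH.tf S h, PmtH.nn S⟩

end Vale.Agent.P281Z.Ga
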