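import Vale.Agent.P281Z.Ga.Sk
import Vale.Agent.P277Z.Lo.Jac

/-!
# P281Z, block III, part A: relative forms in the coordinates `w`
-/

open scoped Manifold ContDiff Topology
open Set Filter
open Vale.Agent.P272.K
open Vale.Agent.P277Z (Hol Mer gen gen_of_nhds at_chart)
open Vale.Agent.P277Z.Lo
open Vale.Agent.P277Z.Slc (LEq)

noncomputable section

namespace Vale.Agent.P281Z.Ga

open Gt

namespace Rfl

section loc

variable {d n : ℕ} {T W : Type} [TopologicalSpace T] [ChartedSpace (Cm d) T]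
  [IsManifold 𝓘(ℂ, Cm d) ω T] [TopologicalSpace W] [ChartedSpace (Cm n) W]
  [IsManifold 𝓘(ℂ, Cm n) ω W] {t : T}

theorem mer_prod {ι : Type} (s : Finset ι) {f : ι → T → ℂ} (h : ∀ i, Mer d (f i) t) :
    Mer d (fun y => ∏ i ∈ s, f i y) t := by
  classical
  induction s using Finset.induction_on with
  | empty => simpa using mer_of_hol (hol_const 1)
  | insert a s ha ih => simpa [Finset.prod_insert ha] using mer_mul (h a) ih

theorem mer_sum {ι : Type} (s : Finset ι) {f : ι → T → ℂ} (h : ∀ i, Mer d (f i) t) :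
    Mer d (fun y => ∑ i ∈ s, f i y) t := by
  classical
  induction s using Finset.induction_on with
  | empty => simpa using mer_of_hol (hol_const 0)
  | insert a s ha ih => simpa [Finset.sum_insert ha] using mer_add (h a) ih

theorem mer_pow {a : T → ℂ} (h : Mer d a t) (k : ℕ) : Mer d (fun y => a y ^ k) t := by
  simpa using mer_prod (Finset.range k) fun _ => h

theorem gen_off {S : Set W} (hS : An n S) {γ : T → W} (hγ : HolA d n γ t)
    (h : ∃ᶠ s in 𝓝 t, γ s ∉ S) : ∀ᶠ s in gen {t}, γ s ∉ S := by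
  obtain ⟨k, g, h1, h2⟩ := hS (γ t)
  obtain ⟨i, hi⟩ : ∃ i, ¬ ∀ᶠ s in 𝓝 t, g i (γ s) = 0 := by
    by_contra! k
    exact h (((eventually_all.2 k).and (hγ.cont.eventually h2)).mono fun s hs =>
      not_not.2 (hs.2.2 hs.1))
  filter_upwards [hol_gen_ne (hγ.hol (h1 i)) hi, gen_of_nhds (hγ.cont.eventually h2)] with s k1 k2
  exact fun k => k1 (k2.1 k i)

end loc

variable {p a m ρ n : ℕ} {M : Fb (p + a) p} {R : JS M m ρ} {κ : ℕ} {Q : Set M.Y.X} {C : NS M}
  {A : R.ι → (Fin n → Chart (p + a) M.X.X) → Pt M n → ℂ}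

theorem gl_eq (hJ : JDW) (hf : HolM (p + a) p M.f) (hQ : Q ⊆ C.Q) (hA : R.PM Q κ A) {q : Pt M n}
    (hq : q ∈ C.N n) {i : R.ι} (hi : q.1 ∈ R.U i) {e : Fin n → Chart (p + a) M.X.X}
    (he : ∀ k, At (e k) (q.2 k)) :
    R.gl C.w κ A q = A i e q / (∏ k, jdw C.w (e k) (R.ch i) (q.2 k)) ^ κ := by
  have h1 := fun k => hJ p a M C.w (q.2 k) (e k) (cx (q.2 k)) (R.ch i) (R.ch (R.fr q.1)) hf
    (fun l => (C.mr l).hol _ (hq.2.2 k)) (he k) (at_chart _) (hq.1 k ▸ R.atc _ _ hi)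
    (hq.1 k ▸ R.atc _ _ (R.fr_mem _))
  rw [hA.law i (R.fr q.1) e (fun k => cx (q.2 k)) q hq.1 hi (R.fr_mem _) (fun h => hq.2.1 (hQ h))
    fun k => ⟨he k, at_chart _, C.offG _ (hq.2.2 k)⟩,
    Finset.prod_congr rfl fun k _ => (h1 k).2, Finset.prod_mul_distrib, mul_pow,
    mul_div_mul_left _ _ (pow_ne_zero _ (Finset.prod_ne_zero_iff.2 fun k _ => (h1 k).1))]
  rfl

theorem jdw_hol (hf : HolM (p + a) p M.f) {x : M.X.X} (hx : x ∉ C.S) {e : Chart (p + a) M.X.X}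
    {e' : Chart p M.Y.X} (he : At e x) (he' : At e' (M.f x)) : Hol (p + a) (jdw C.w e e') x :=
  Jc.jd_hol he fun i => by
    refine Fin.addCases (fun c => ?_) (fun c => ?_) i
    · simpa using hf.hol (hol_chart he' c)
    · simpa using (C.mr c).hol x hx

theorem jdw_mer (hf : HolM (p + a) p M.f) {x : M.X.X} {e : Chart (p + a) M.X.X}
    {e' : Chart p M.Y.X} (he : At e x) (he' : At e' (M.f x)) : Mer (p + a) (jdw C.w e e') x :=
  Jc.jd_mer he fun i => by
    refine Fin.addCases (fun c => ?_) (fun c => ?_) i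
    · simpa using mer_of_hol (hf.hol (hol_chart he' c))
    · simpa using (C.mr c).mer x

section test

variable {d : ℕ} {T : Type} [TopologicalSpace T] [ChartedSpace (Cm d) T] {γ : T → Pt M n} {t : T}

theorem near (h : Tm d γ t) : ∀ᶠ s in 𝓝 t, (γ s).1 ∈ R.U (R.fr (γ t).1) ∧
    ∀ k, At (cx ((γ t).2 k)) ((γ s).2 k) :=
  (h.b.cont.eventually ((R.opn _).mem_nhds (R.fr_mem _))).and
    (eventually_all.2 fun k => (h.x k).cont.eventually (at_near (at_chart _)))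

end test

theorem bs (hJ : JDW) (hM : M.Ok) (hQ : Q ⊆ C.Q) (hA : R.PM Q κ A) : C.BS κ (R.gl C.w κ A) := by
  intro q hq hq' e e' ζ he he' hζ
  obtain ⟨i, hi, rfl⟩ := R.cov _ _ he'
  obtain ⟨L, b, Φ, h1, h2, h3⟩ := hA.rep i
  choose K hK using fun k => R.bd i (e k) (q.2 k) (ζ k) (hq k ▸ hi) (he k) (hζ k)
  have hc : IsCompact (univ.pi fun k => Metric.closedBall (0 : Jt ρ a) (K k)) :=
    isCompact_univ_pi fun k => isCompact_closedBall _ _
  choose B hB using fun l => hc.exists_bound_of_continuousOn (f := Φ l)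
    fun j _ => ((h1 l).an j).continuousAt.continuousWithinAt
  have c2 : ∀ k, ContinuousAt (fun q' : Pt M n => q'.2 k) q := fun k => by fun_prop
  have h4 : ∀ l, ∀ᶠ q' : Pt M n in 𝓝 q, ‖b l q'.1‖ < ‖b l q.1‖ + 1 := fun l =>
    (((hol_cont ((h2 l _ hi).2 fun h => hq' (hQ h))).comp continuousAt_fst).norm).eventually
      (gt_mem_nhds (lt_add_one _))
  refine ⟨∑ l, (‖b l q.1‖ + 1) * B l, ?_⟩
  filter_upwards [eventually_all.2 h4, eventually_all.2 fun k => (c2 k).eventually (hK k),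
    eventually_all.2 fun k => (c2 k).eventually (at_near (he k)),
    continuousAt_fst.eventually ((R.opn i).mem_nhds hi)] with q' k1 k2 k3 k4 k5 k6
  have k7 : ∀ k, jdw C.w (e k) (R.ch i) (q'.2 k) ≠ 0 := fun k =>
    C.et _ (k5.2.2 k) _ _ (k3 k) (k5.1 k ▸ R.atc _ _ k4)
  have k8 : ∀ k, ∏ l, ‖ζ k l (q'.2 k)‖ ^ ((κ : ℝ) * M.δ l) =
      ‖((∏ l, ‖ζ k l (q'.2 k)‖ ^ (M.δ l : ℝ) : ℝ) : ℂ) ^ κ‖ := fun k => by
    rw [norm_pow, Complex.norm_of_nonneg (by positivity), ← Finset.prod_pow]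
    exact Finset.prod_congr rfl fun l _ => by
      rw [mul_comm, Real.rpow_mul_natCast (norm_nonneg _)]
  rw [gl_eq hJ hM.fibn.hol hQ hA k5 k4 k3, Finset.prod_mul_distrib, Finset.prod_pow, ← norm_prod,
    ← norm_pow, ← mul_assoc, ← norm_mul,
    div_mul_cancel₀ _ (pow_ne_zero _ (Finset.prod_ne_zero_iff.2 fun k _ => k7 k)),
    Finset.prod_congr rfl fun k _ => k8 k, ← norm_prod, ← norm_mul, h3, Finset.sum_mul]
  refine (norm_sum_le _ _).trans (Finset.sum_le_sum fun l _ => ?_)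
  rw [mul_assoc, mul_comm (Φ l _), ← (h1 l).sc, norm_mul]
  exact mul_le_mul (k1 l).le (hB l _ fun k _ => mem_closedBall_zero_iff.2 (k2 k (k6 k)))
    (norm_nonneg _) (by positivity)

end Rfl

open Rfl in
theorem rfl_of (hT : TST) (hM : MERT) (hJ : JDW) : RFL := by
  intro p a m ρ M R hs n κ Q C A hQ hC hA
  have hf := hs.ok.fibn.hol
  refine ⟨fun q hq d T _ _ _ _ _ γ t hγ e => ?_, fun d T _ _ _ _ _ γ t hγ hN => ?_,
    bs hJ hs.ok hC hA⟩
  · subst e
    obtain ⟨L, b, Φ, h1, h2, h3⟩ := hA.rep (R.fr (γ t).1)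
    have h4 : ∀ k, At (R.ch (R.fr (γ t).1)) (M.f ((γ t).2 k)) := fun k =>
      hq.1 k ▸ R.atc _ _ (R.fr_mem _)
    refine (hol_div (hol_sum Finset.univ fun l _ => hol_mul
      (hγ.b.hol ((h2 l _ (R.fr_mem _)).2 fun h => hq.2.1 (hC h)))
      (((hT p a m ρ M R hs n d T γ t hγ).1 _ _ _ _ (h1 l) (R.fr_mem _) fun _ => at_chart _).1
        fun k => C.offG _ (hq.2.2 k)))
      (hol_pow (hol_prod Finset.univ fun k _ =>
        (hγ.x k).hol (jdw_hol hf (hq.2.2 k) (at_chart _) (h4 k))) κ)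
      (pow_ne_zero _ (Finset.prod_ne_zero_iff.2 fun k _ =>
        C.et _ (hq.2.2 k) _ _ (at_chart _) (h4 k)))).congr ?_
    filter_upwards [near (R := R) hγ, hγ.fp,
      hγ.b.cont.eventually (C.thinQ.closed.isOpen_compl.mem_nhds hq.2.1), eventually_all.2 fun k =>
        (hγ.x k).cont.eventually (C.thinS.closed.isOpen_compl.mem_nhds (hq.2.2 k))]
      with s k1 k2 k3 k4
    rw [gl_eq hJ hf hC hA ⟨k2, k3, k4⟩ k1.1 k1.2, h3]
  · obtain ⟨L, b, Φ, h1, h2, h3⟩ := hA.rep (R.fr (γ t).1)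
    have h4 : ∀ k, At (R.ch (R.fr (γ t).1)) (M.f ((γ t).2 k)) := fun k =>
      hγ.fp.self_of_nhds k ▸ R.atc _ _ (R.fr_mem _)
    refine mer_congr (mer_div (mer_sum Finset.univ fun l => mer_mul
      (hM p _ d T Q (b l) _ t (hQ.an _) (h2 l _ (R.fr_mem _)).1
        (((R.opn _).eventually_mem (R.fr_mem _)).mono fun y hy => (h2 l y hy).2) hγ.b
        (hN.mono fun s hs h => hs.2.1 (hC h)))
      (((hT p a m ρ M R hs n d T γ t hγ).1 _ _ _ _ (h1 l) (R.fr_mem _) fun _ => at_chart _).2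
        (hN.mono fun s hs k => C.offG _ (hs.2.2 k))))
      (mer_pow (mer_prod Finset.univ fun k =>
        hM (p + a) M.X.X d T C.S (jdw C.w (cx ((γ t).2 k)) (R.ch (R.fr (γ t).1)))
          (fun s => (γ s).2 k) t (C.thinS.an _) (jdw_mer hf (at_chart _) (h4 k))
          (((at_near (at_chart _)).and (hf.cont.continuousAt.eventually (at_near (h4 k)))).mono
            fun y hy h => jdw_hol hf h hy.1 hy.2) (hγ.x k) (hN.mono fun s hs => hs.2.2 k)) κ)) ?_
    filter_upwards [gen_of_nhds (near (R := R) hγ), gen_of_nhds hγ.fp,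
      gen_off C.thinQ.an hγ.b (hN.mono fun s hs => hs.2.1),
      eventually_all.2 fun k => gen_off C.thinS.an (hγ.x k) (hN.mono fun s hs => hs.2.2 k)]
      with s k1 k2 k3 k4
    rw [gl_eq hJ hf hC hA ⟨k2, k3, k4⟩ k1.1 k1.2, h3]

end Vale.Agent.P281Z.Ga
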