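import Vale.Agent.P281Z.Ga.Sk
import Vale.Agent.P281Z.Sc.Sy

/-!
# P281Z, block III, part A: meromorphic functions are independent off a thin set
-/

open scoped Manifold ContDiff Topology
open Set Filter
open Vale.Agent.P272.K Vale.Agent.P285.H281.FD
open Vale.Agent.P277Z (Hol Mer Nz at_chart hol_const)
open Vale.Agent.P277Z.Slc (Ind dd dd_congr)

noncomputable section

namespace Vale.Agent.P281Z.Ga

open Gt

namespace Rkt

theorem grow0 (hG : GROW) {n : ℕ} {V : Mf n} {g h : V.X → ℂ} {x : V.X} (hg : Mer n g x)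
    (hh : Hol n h x) (k : ∀ᶠ y in 𝓝 x, h y ≠ 0 → Hol n g y) :
    ∃ (K : ℕ) (g' : V.X → ℂ), Hol n g' x ∧ ∀ᶠ y in 𝓝 x, h y ≠ 0 → g' y = h y ^ K * g y := by
  by_cases h0 : Nz h x
  · exact hG n V.X g h x hg hh h0 k
  · exact ⟨0, fun _ => 0, hol_const 0 x, (not_not.1 h0).mono fun y a b => (b a).elim⟩

theorem dd_frac {n : ℕ} {V : Mf n} {a b z : V.X → ℂ} {x : V.X} (ha : Hol n a x) (hb : Hol n b x)
    (h0 : b x ≠ 0) (h : ∀ᶠ y in 𝓝 x, a y = b y * z y) {e : Chart n V.X} (he : At e x) (v : Cm n) :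
    b x * dd a e x v - a x * dd b e x v = b x ^ 2 * dd z e x v := by
  have h1 : dd z e x = dd (fun y => a y / b y) e x := dd_congr (by
    filter_upwards [h, hb.ne_near h0] with y k1 k2
    rw [k1, mul_div_cancel_left₀ _ k2]) he
  rw [h1, dd_div ha hb h0 he, mul_inv_cancel_left₀ (pow_ne_zero 2 h0)]

end Rkt

theorem rkt_of (hG : GROW) : RKT := by
  rintro n v V S z hV hS hz ⟨y₀, k1, k2⟩
  refine ⟨S ∪ {y | ¬ Ind n z y}, An.thin (.of_fin fun x => ?_)
    fun c => (c.ge (mem_univ y₀)).elim k1 fun k => k k2, subset_union_left,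
    fun y hy => not_not.1 fun c => hy (.inr c)⟩
  obtain ⟨m, h, h1, h2⟩ := hS.1 x
  choose K g h3 h4 using fun l j => Rkt.grow0 hG ((hz j).mer x) (h1 l)
    (h2.mono fun y a b => (hz j).hol y fun c => b (a.1 c l))
  have he := at_chart (n := n) x
  generalize chartAt (Cm n) x = e at he
  let A : Fin m → (Fin v → Fin n) → V.X → Matrix (Fin v) (Fin v) ℂ := fun l τ y => .of fun k j =>
    h l y ^ K l j * dd (g l j) e y (Pi.single (τ k) 1) -
      g l j y * dd (fun y => h l y ^ K l j) e y (Pi.single (τ k) 1)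
  refine ⟨Fin m × (Fin v → Fin n), inferInstance, fun i y => h i.1 y * (A i.1 i.2 y).det,
    fun i => (h1 _).mul (hol_det' fun k j => (((h1 _).pow _).mul (hol_dd (h3 _ j) he _)).sub
      ((h3 _ j).mul (hol_dd ((h1 _).pow _) he _))), ?_⟩
  filter_upwards [h2, at_near he, eventually_all.2 fun l => (h1 l).near, eventually_all.2 fun l =>
    eventually_all.2 fun j => (h3 l j).near.and (h4 l j).eventually_nhds] with y a1 a2 a3 a4
  by_cases hy : y ∈ S
  · exact iff_of_true (.inl hy) fun i => by rw [a1.1 hy, zero_mul]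
  have key : ∀ l τ, h l y ≠ 0 → ((A l τ y).det = 0 ↔
      (Matrix.of fun k j => dd (z j) e y (Pi.single (τ k) 1)).det = 0) := fun l τ hl => by
    have h5 : A l τ y = .of fun k j => (h l y ^ K l j) ^ 2 *
        Matrix.of (fun k j => dd (z j) e y (Pi.single (τ k) 1)) k j := by
      ext k j
      exact Rkt.dd_frac (a4 l j).1 ((a3 l).pow _) (pow_ne_zero _ hl) (by
        filter_upwards [(a4 l j).2, (a3 l).ne_near hl] with w b1 b2 using b1 b2) a2 _
    rw [h5, Matrix.det_mul_row, mul_eq_zero,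
      or_iff_right (Finset.prod_ne_zero_iff.2 fun j _ => pow_ne_zero _ (pow_ne_zero _ hl))]
  rw [mem_union, or_iff_right hy, mem_ofPred_eq, ind_iff_minor (fun j => (hz j).hol y hy) a2,
    not_exists]
  refine ⟨fun k i => ?_, fun k τ c => ?_⟩
  · by_cases c : h i.1 y = 0
    · rw [c, zero_mul]
    · rw [(key _ _ c).2 (not_not.1 (k _)), mul_zero]
  · obtain ⟨l, hl⟩ := not_forall.1 (mt a1.2 hy)
    exact c ((key l τ hl).1 ((mul_eq_zero.1 (k (l, τ))).resolve_left hl))

end Vale.Agent.P281Z.Ga
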