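import Vale.Agent.P281Z.Ga.Sk
import Vale.Agent.P281Z.Gl.Thn

/-!
# P281Z, block III, part A: algebraic relations on a fibre
-/

open scoped Manifold ContDiff Topology
open Set Filter Function
open Vale.Agent.P272.K
open Vale.Agent.P277Z (Hol Mer)

noncomputable section

namespace Vale.Agent.P281Z.Ga

open Gt

namespace Sg

/-- the theorem of Siegel for any index type -/
theorem sieg (hS : SIEG) {n : ℕ} (V : Mf n) {S : Set V.X} {α : Type} (e : α ≃ Fin (n + 1))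
    {g : α → V.X → ℂ} (h : Thin n S) (hg : ∀ i, Mr n S (g i)) : ∃ σ : MvPolynomial α ℂ, σ ≠ 0 ∧
      ∀ x ∉ S, MvPolynomial.eval (fun i => g i x) σ = 0 := by
  obtain ⟨σ, a, b⟩ := hS n V S (fun i => g (e.symm i)) h fun i => hg _
  refine ⟨MvPolynomial.rename e.symm σ, fun k => a (MvPolynomial.rename_injective _
    e.symm.injective (k.trans (map_zero _).symm)), fun x hx => ?_⟩
  rw [MvPolynomial.eval_rename]
  exact b x hx

/-- a model of the power of a general fibre -/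
theorem model {p a n : ℕ} {M : Fb (p + a) p} {Q : Set M.Y.X} (W : Pw M n (p + n * a) Q)
    (hf : HolM (p + a) p M.f) {y : M.Y.X} (hy : y ∉ Q) (hs : ∀ x, M.f x = y → Sbm (p + a) p M.f x) :
    ∃ (F : Mf (n * a)) (u : F.X → W.V.X), HolM (n * a) (p + n * a) u ∧ (∀ t, (W.γ (u t)).1 = y) ∧
      (∀ x, Fp ((y, x) : Pt M n) → ∃ t, W.γ (u t) = (y, x)) ∧
      Topology.IsInducing fun t => (W.γ (u t)).2 := by
  obtain ⟨F, u, hu⟩ := fib_emb (f := fun v => (W.γ v).1) (y := y) (d := n * a) rfl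
    (fun v => (W.tm v).b) fun v hv => Thn.sbm W hf (hv.symm ▸ hy) fun x k => hs x (k.trans hv)
  have h1 : ∀ t, (W.γ (u t)).1 = y := hu.fib
  refine ⟨F, u, hu.hol, h1, fun x hx => ?_, (((Thn.cont W).comp hu.hol.cont).snd.isClosedEmbedding
    fun t t' k => hu.inj (Thn.inj W ((h1 t').symm ▸ hy)
      (Prod.ext ((h1 t).trans (h1 t').symm) k))).isInducing⟩
  obtain ⟨v, c, -⟩ := W.bij (y, x) hx hy
  obtain ⟨t, rfl⟩ := hu.ex (y := v) (congrArg Prod.fst c)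
  exact ⟨t, c⟩

end Sg

/-- **SG** -/
theorem sg_of (hP : PW) (hS : SIEG) (hZ : THZ) (hT : TST) (hF : FGEN) : SG := by
  intro p a m ρ M R hM n ι _ O V hι hO hV y hy
  by_cases h0 : ∃ x, (y, x) ∈ R.Nc n ∧ R.Jq (y, x) ∈ O
  swap
  · exact ⟨1, one_ne_zero, fun x b c => (h0 ⟨x, b, c⟩).elim⟩
  obtain ⟨W⟩ := hP p a n M R.Q hM.ok hM.kahX hM.kahY R.thin fun y h => ⟨R.reg y h, R.conn y h⟩
  have hf := hM.ok.fibn.hol
  obtain ⟨F, u, hu, h1, h2, h3⟩ := Sg.model W hf hy fun x => (R.reg y hy).sbm hf hM.ok.snc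
  have h4 : ∀ t, W.γ (u t) = (y, (W.γ (u t)).2) := fun t => Prod.ext (h1 t) rfl
  have h5 : ∀ t, ∃ᶠ s in 𝓝 t, W.γ (u s) ∈ R.Nc n ∧ R.Jq (W.γ (u s)) ∈ O := fun t => by
    obtain ⟨c, d, D, d1, d2⟩ := hO
    obtain ⟨x, b1, b2⟩ := h0
    rw [h3.nhds_eq_comap, frequently_comap]
    refine (hF p a m ρ M R hM n (R.fr y) y ∅ Unit (fun _ => d) (fun _ => D) (R.fr_mem y) hy
      isClosed_empty (fun x k => subset_closure ⟨k, id⟩) (fun _ => d1.toSH)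
      (fun _ => ⟨x, b1, (d2 _).1 b2⟩) _ fun k => (Thn.fp W (u t) k).trans (h1 t)).mono
        fun x' ⟨k1, _, k2⟩ => ?_
    obtain ⟨s, k3⟩ := h2 x' k1.1
    exact ⟨s, congrArg Prod.snd k3, k3 ▸ ⟨k1, (d2 _).2 (k2 ())⟩⟩
  have h6 : ∀ t, Tm (n * a) (fun s => W.γ (u s)) t := fun t =>
    ⟨(W.tm _).b.cmp (hu.at t), fun j => ((W.tm _).x j).cmp (hu.at t),
      .of_forall fun s => Thn.fp W _⟩
  obtain ⟨σ, s1, s2⟩ := Sg.sieg hS F
    (S := u ⁻¹' {v | ¬ (W.γ v ∈ R.Nc n ∧ R.Jq (W.γ v) ∈ O)})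
    (Fintype.equivFinOfCardEq (by rw [Fintype.card_option, hι]))
    (g := fun b t => V b (R.Jq (W.γ (u t))))
    ⟨(hZ p a m ρ M R hM n O W hO (h0.elim fun x k => ⟨(y, x), k⟩)).an.pre hu, fun t =>
      mem_closure_iff_frequently.2 ((h5 t).mono fun s k => not_not.2 k)⟩ fun b =>
    ⟨fun t k => ((hT p a m ρ M R hM n _ F.X _ t (h6 t)).2.2 O _ hO (hV b)).1
      (not_not.1 k).1.2.2 (not_not.1 k).2, fun t =>
      ((hT p a m ρ M R hM n _ F.X _ t (h6 t)).2.2 O _ hO (hV b)).2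
        ((h5 t).mono fun s k => ⟨k.1.2.2, k.2⟩)⟩
  refine ⟨σ, s1, fun x b1 b2 => ?_⟩
  obtain ⟨t, k⟩ := h2 x b1.1
  exact k ▸ s2 t (not_not.2 (k ▸ ⟨b1, b2⟩))

end Vale.Agent.P281Z.Ga
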