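import Vale.Agent.P281Z.Ga.Sk
import Vale.Agent.P281Z.Md.Ext
import Vale.Agent.P281Z.Sc.Bd
import Vale.Agent.P281Z.Gt.Cf

/-!
# P281Z, block III, part A: the sections on a fibre in the coordinates `w`
-/

open scoped Manifold ContDiff Topology
open Set Filter Function
open Vale.Agent.P272.K Vale.Agent.P285.H281.FD
open Vale.Agent.P277Z (Hol at_chart gen_of_nhds)
open Vale.Agent.P277Z.Slc (LEq)
open Vale.Agent.P281Z.Md (Bnd)

noncomputable section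

namespace Vale.Agent.P281Z.Ga

open Gt

namespace SpnA

variable {d n : ℕ} {X Y : Type} [TopologicalSpace X] [ChartedSpace (Cm d) X]
  [IsManifold 𝓘(ℂ, Cm d) ω X] [TopologicalSpace Y] [ChartedSpace (Cm n) Y]
  [IsManifold 𝓘(ℂ, Cm n) ω Y] {κ : Type} [Fintype κ] {G : κ → Set Y} {i : X → Y} {L : Bd X}
  {σ : L.ι → X → ℂ} {c : κ → ℝ} {S : Set X}

/-- sections with bounded poles extend across a thin set -/
theorem secP_across (hi : Continuous i) (hG : Hyp n G) (hL : IsLB d L) (hS : Thin d S)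
    (h1 : ∀ a, ∀ x ∈ L.U a, x ∉ S → Hol d (σ a) x)
    (h2 : ∀ a b, ∀ x ∈ L.U a, x ∈ L.U b → x ∉ S → σ a x = L.g a b x * σ b x)
    (h3 : ∀ a, ∀ x ∈ L.U a, ∀ ζ : κ → Y → ℂ, (∀ l, LEq n (G l) (i x) (ζ l)) →
      Bnd Sᶜ (fun y => ‖σ a y‖ * ∏ l, ‖ζ l (i y)‖ ^ c l) x) :
    ∃ s, SecP d n i univ L G c s ∧ ∀ a, ∀ x ∈ L.U a, x ∉ S → s a x = σ a x := by
  have k0 : ∀ a, ∀ x ∈ L.U a, x ∉ S → Md.ext Sᶜ (σ a) x = σ a x := fun a x ha hx =>
    Md.ext_eq (hS.freq x) (h1 a x ha hx).cont (.of_forall fun _ _ => rfl)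
  have k1 : ∀ a, ∀ x ∈ L.U a, i x ∈ off G → Hol d (Md.ext Sᶜ (σ a)) x := fun a x ha hx => by
    obtain ⟨H, a1, a2⟩ := Md.riem (Md.gn_of_thin hS x) ((lb_near hL ha).mono fun y => h1 a y)
      (by simpa using (h3 a x ha (fun _ _ => 1) fun l =>
        ⟨mem_of_superset ((hG.closed l).isOpen_compl.mem_nhds (hx l)) fun _ k =>
          iff_of_false one_ne_zero k, fun _ _ => ⟨analyticAt_const, fun k => absurd k one_ne_zero⟩⟩))
    exact a1.congr (Md.ext_ev (.of_forall hS.freq) a1 a2)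
  refine ⟨_, ⟨fun a x _ => k1 a x, fun a b x _ ha hb hx => ?_, fun a x _ ha ζ hζ => ?_⟩, k0⟩
  · refine P277Z.eq_of_gen (k1 a x ha hx).cont ((lb_hol hL ha hb).mul (k1 b x hb hx)).cont ?_
    filter_upwards [hS.gen x, gen_of_nhds (lb_near hL ha), gen_of_nhds (lb_near hL hb)]
      with y a1 a2 a3
    rw [k0 a y a2 a1, k0 b y a3 a1, h2 a b y a2 a3 a1]
  · obtain ⟨C, hC⟩ := h3 a x ha ζ hζ
    refine ⟨C, ?_⟩
    filter_upwards [hC.eventually_nhds, (lb_near hL ha).eventually_nhds,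
      hi.continuousAt.eventually (off_iff hζ),
      hi.continuousAt.eventually (eventually_all.2 fun l => (hζ l).hol.near)] with y b1 b2 b3 b4 b5
    have b6 : ContinuousAt (fun z => ‖Md.ext Sᶜ (σ a) z‖ * ∏ l, ‖ζ l (i z)‖ ^ c l) y :=
      (k1 a y b2.self_of_nhds b5).cont.norm.mul (tendsto_finsetProd _ fun l _ =>
        ((b4 l).cont.comp hi.continuousAt).norm.rpow_const
          (.inl (norm_ne_zero_iff.2 (b3.1 b5 l))))
    refine isClosed_Iic.mem_of_frequently_of_tendsto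
      (((hS.freq y).and_eventually (b1.and b2)).mono fun z k => ?_) b6
    rw [k0 a z k.2.2 k.1]
    exact k.2.1 k.1

end SpnA

/-- **SPN** -/
theorem spn : SPN := by
  intro p a m ρ M R hM C hQ y hy g hg
  have hf := hM.ok.fibn.hol
  obtain ⟨F, u, hu, -⟩ := (C.reg y hy).fib rfl hf hM.ok.snc
  have he : ∀ z, At (R.ch (R.fr y)) (M.f (u z)) := fun z =>
    (hu.fib z).symm ▸ R.atc _ _ (R.fr_mem y)
  have e : u '' (u ⁻¹' C.S)ᶜ = {x | M.f x = y ∧ x ∉ C.S} := Set.ext fun x =>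
    ⟨fun ⟨z, b, c⟩ => c ▸ ⟨hu.fib z, b⟩, fun b =>
      let ⟨z, c⟩ := hu.ex b.1; ⟨z, (c.symm ▸ b.2 : u z ∉ C.S), c⟩⟩
  have hS : Thin a (u ⁻¹' C.S) := ⟨C.thinS.an.pre hu.hol, fun z => by
    rw [hu.cemb.isInducing.closure_eq_preimage_closure_image, e]
    exact hu.fib z ▸ C.fib _ ((hu.fib z).symm ▸ hy)⟩
  obtain ⟨t, h1, h2⟩ := SpnA.secP_across (c := fun l => m * M.δ l)
    (σ := fun e z => g (u z) * jdw C.w e (R.ch (R.fr y)) (u z) ^ m) hu.hol.cont (.of_snc hM.ok.snc)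
    (hu.hol.lb (lb_pow P277Z.Slc.isLB_can m)) hS
    (fun e z k1 k2 => (hg.hol a F.X u z (hu.hol.at z) (.of_forall hu.fib) k2).mul
      ((hu.hol.hol (CfA.hol_jdw hf k1 (he z) fun i => (C.mr i).hol _ k2)).pow m))
    (fun e e₁ z k1 k2 _ => by
      simp only [jdw]
      rw [P277Z.Lb.jd_chg _ k1 k2, mul_pow, mul_left_comm]
      rfl)
    fun e z k1 ζ hζ => by
      obtain ⟨K, hK⟩ := hg.bd _ (hu.fib z) (fun _ => e) _ (fun _ => ζ) (fun _ => k1) (he z)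
        fun _ => hζ
      have k2 : Tendsto (fun z => dg 1 (u z)) (𝓝 z) (𝓝 (dg 1 (u z)) ⊓ 𝓟 {q | q.1 = y}) :=
        tendsto_inf.2 ⟨((hf.cont.comp hu.hol.cont).prodMk
          (continuous_pi fun _ => hu.hol.cont)).continuousAt, tendsto_principal.2 (.of_forall hu.fib)⟩
      refine ⟨K, (k2.eventually hK).mono fun z' k3 k4 => ?_⟩
      simpa only [dg, Fin.prod_univ_one, norm_mul, norm_pow, mul_assoc] using
        k3 ⟨fun _ => rfl, fun k => hy (hu.fib z' ▸ k), fun _ => k4⟩ fun _ => C.offG _ k4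
  obtain ⟨c, hc⟩ := R.span _ y (R.fr_mem y) (fun k => hy (hQ k)) a F u hu t h1
  refine ⟨c, fun x hx k => ?_⟩
  obtain ⟨z, rfl⟩ := hu.ex k
  have h3 := (h2 (cx (u z)) z (at_chart _) hx).symm.trans (hc z _ (C.offG _ hx) (at_chart _))
  simp only [← mul_div_assoc, ← Finset.sum_div, JS.J, k]
  exact eq_div_of_mul_eq (pow_ne_zero m (C.et _ hx _ _ (at_chart _) (he z))) h3

end Vale.Agent.P281Z.Ga
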