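import Vale.Agent.P281Z.Ga.StaA
import Vale.Agent.P281Z.Ga.Fgen
import Vale.Agent.P281Z.Gi.Piece
import Vale.Agent.P281Z.Gi.Extb
import Vale.Agent.P281Z.Mf.An
import Vale.Agent.P281.H76.SncInt

/-!
# P281Z, block III, part A: the integrals over a fibre
-/

open scoped Manifold ContDiff Topology ENNReal Matrix
open Set Filter MeasureTheory Function
open Vale.Agent.P272.K
open Vale.Agent.P277Z (Hol at_chart)
open Vale.Agent.P277Z.Slc (LEq)

noncomputable section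

namespace Vale.Agent.P281Z.Ga

open Gt Gi.PcH

namespace Sa

variable {p a m ρ : ℕ}

theorem sc_sc (l l' : ℂ) (j : Jt ρ a) : sc m l (sc m l' j) = sc m (l * l') j := by
  simp only [sc, smul_smul, mul_pow]

theorem wt (hm : 0 < m) {N K : ℝ} (hN : 0 ≤ N) {u : Cm a} {t : Fin a → ℝ} (ht : ∀ i, 0 ≤ t i)
    (h0 : ∀ i, u i ≠ 0 ∨ t i = 0) (h : N * (∏ i, ‖u i‖ ^ t i) ^ m ≤ K) :
    ENNReal.ofReal N ^ (2 / m : ℝ) ≤
      ENNReal.ofReal K ^ (2 / m : ℝ) * ∏ i, ‖u i‖ₑ ^ (-(2 * t i)) := by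
  have hs : (0 : ℝ) ≤ 2 / m := by positivity
  have k : (m : ℝ) * (2 / m) = 2 := by field_simp
  have h1 := ENNReal.rpow_le_rpow (ENNReal.ofReal_le_ofReal h) hs
  rw [ENNReal.ofReal_mul hN, ENNReal.ofReal_pow (by positivity),
    ENNReal.ofReal_prod_of_nonneg fun _ _ => by positivity, ENNReal.mul_rpow_of_nonneg _ _ hs,
    ← ENNReal.rpow_natCast, ← ENNReal.rpow_mul, k, ← ENNReal.prod_rpow_of_nonneg zero_le_two] at h1
  refine le_trans (le_of_eq ?_) (mul_le_mul_left h1 _)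
  rw [mul_assoc, ← Finset.prod_mul_distrib, Finset.prod_eq_one fun i _ => ?_, mul_one]
  rw [← ENNReal.ofReal_rpow_of_nonneg (norm_nonneg _) (ht i), ofReal_norm, ← ENNReal.rpow_mul]
  rcases h0 i with b | b
  · rw [← ENNReal.rpow_add _ _ (enorm_ne_zero.2 b) enorm_ne_top, mul_comm, add_neg_cancel,
      ENNReal.rpow_zero]
  · simp [b]

variable {M : Fb (p + a) p} {R : JS M m ρ}

theorem anc {E : Type} [NormedAddCommGroup E] [NormedSpace ℂ E] {c : Chart (p + a) M.X.X}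
    (h : Co (p + a) c) {v : Cm (p + a)} (hv : v ∈ c.target) {F : M.X.X → E}
    (hF : AnV (p + a) F (c.symm v)) : AnalyticAt ℂ (fun v => F (c.symm v)) v := by
  have he := at_chart (n := p + a) (c.symm v)
  refine ((hF _ he).fun_comp (f := fun w => chartAt (Cm (p + a)) (c.symm v) (c.symm w))
    (h.inv v hv _ he)).congr ?_
  filter_upwards [(c.continuousAt_symm hv).eventually (at_near he)] with w hw
  rw [hw.left_inv]

open Classical in
theorem bnd {i : R.ι} {c e : Chart (p + a) M.X.X} {x : M.X.X} {ζ : M.κ → M.X.X → ℂ}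
    (hi : M.f x ∈ R.U i) (he : At e x) (h1 : ∀ l, LEq (p + a) (M.G l) x (ζ l))
    (c1 : Co (p + a) c) (c2 : x ∈ c.source) : ∃ K : ℝ, ∀ᶠ x' in 𝓝 x, x' ∈ off M.G →
      ‖(sc m (Dv c e (c x')) (R.j i e x')).1‖ *
        (∏ l : {l // x ∈ M.G l}, ‖ζ l x'‖ ^ (M.δ l : ℝ)) ^ m ≤ K := by
  obtain ⟨K, hK⟩ := R.bd i e x ζ hi he h1
  set B : M.X.X → ℝ := fun x' => ∏ l : {l // x ∉ M.G l}, ‖ζ l x'‖ ^ (M.δ l : ℝ) with hB
  have B0 : ∀ l : {l // x ∉ M.G l}, ‖ζ l x‖ ≠ 0 := fun l k => l.2 ((h1 l).mem.1 (norm_eq_zero.1 k))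
  have B1 : ContinuousAt B x := tendsto_finsetProd _ fun l _ =>
    (h1 l).hol.cont.norm.rpow_const (.inl (B0 l))
  have B2 : B x ≠ 0 := Finset.prod_ne_zero_iff.2 fun l _ =>
    (Real.rpow_pos_of_pos ((norm_nonneg _).lt_of_ne' (B0 l)) _).ne'
  have D1 : ContinuousAt (fun x' => Dv c e (c x')) x :=
    (ContinuousLinearMap.continuous_det.continuousAt.comp (c1.inv _ (c.map_source c2) e
      ((c.left_inv c2).symm ▸ he)).fderiv.continuousAt).comp (c.continuousAt c2)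
  refine ⟨((‖Dv c e (c x)‖ / B x) ^ m + 1) * K, ?_⟩
  filter_upwards [hK, B1.eventually_ne B2,
    ((D1.norm.div B1 B2).pow m).eventually (gt_mem_nhds (lt_add_one _))] with z q1 q2 q3 q4
  have k1 := (norm_fst_le _).trans (q1 q4)
  rw [← Fintype.prod_subtype_mul_prod_subtype (fun l => x ∈ M.G l)] at k1
  have k2 : ∀ (l : ℂ) (j : Jt ρ a), ‖(sc m l j).1‖ = ‖l‖ ^ m * ‖j.1‖ := fun l j => by
    rw [← norm_pow, ← norm_smul]
    rfl
  rw [k2, Complex.norm_real, Real.norm_of_nonneg (by positivity)] at k1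
  refine le_trans (le_of_eq ?_) (mul_le_mul q3.le k1 (by positivity) (by positivity))
  change _ = (_ / B z) ^ m * ((_ * B z) ^ m * _)
  rw [k2, div_pow, mul_pow]
  field_simp

theorem one (hD : DER) (hM : Std M m) {x : M.X.X} (hx : M.f x ∉ R.Q) :
    ∃ P : Pe m {x' | M.f x' = M.f x ∧ x' ∈ off M.G} R.J, x ∈ P.O := by
  classical
  obtain ⟨ζ, h1, -⟩ := hM.ok.snc x
  have he := at_chart (n := p + a) x
  have hi := R.fr_mem (M.f x)
  have he' := R.atc _ _ hi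
  set i := R.fr (M.f x) with hi'
  set e := chartAt (Cm (p + a)) x
  set e' := R.ch i with hch
  obtain ⟨c, j, c1, c2, c3, c4, c5⟩ := exists_c (R.reg _ hx x rfl e' he' ζ h1)
  obtain ⟨K, hK⟩ := bnd hi he h1 c1 c2
  have hf := hM.ok.fibn.hol.cont
  have m0 : 0 < m := lt_of_lt_of_le two_pos hM.two
  set u₀ : Cm a := fun k => c x (Fin.natAdd p k) with hu₀
  have ap : ∀ z ∈ c.source, Fin.append (e' (M.f z)) (fun k => c z (Fin.natAdd p k)) = c z :=
    fun z hz => funext fun k => by cases k using Fin.addCases <;> simp [c4 z hz]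
  set P : Cm a → Cm (p + a) := fun u => Fin.append (e' (M.f x)) (u + u₀) with hP
  have P1 : ∀ u, AnalyticAt ℂ P u := fun u => by
    rw [hP, app_eq]
    exact ((J p a).analyticAt _).add analyticAt_const
  set χ : M.X.X → Cm a := fun z => (fun k => c z (Fin.natAdd p k)) - u₀ with hχ
  have χ1 : ContinuousOn χ c.source := fun z hz => ((continuousAt_pi.2 fun k =>
    continuousAt_pi.1 (c.continuousAt hz) _).sub continuousAt_const).continuousWithinAt
  have χ2 : ∀ u, P u ∈ c.target → χ (c.symm (P u)) = u := fun u hu => by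
    simp only [hχ, c.right_inv hu]
    simp [hP, funext_iff]
  obtain ⟨O, o1, o2, o3⟩ := eventually_nhds_iff.1 ((hK.and (at_near he)).and
    (((hf.continuousAt.eventually (at_near he')).and (eventually_all.2 fun l => (h1 l).1)).and
    ((show ∀ᶠ z in 𝓝 x, z ∈ c.source from c.open_source.mem_nhds c2).and
    ((χ1.continuousAt (c.open_source.mem_nhds c2)).eventually_mem
      (show Metric.ball 0 1 ∈ 𝓝 (u₀ - u₀) from by
        rw [sub_self]
        exact Metric.ball_mem_nhds _ one_pos)))))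
  set B : Set (Cm a) := P ⁻¹' (c.target ∩ c.symm ⁻¹' (O ∩ off M.G)) with hB
  have B1 : IsOpen B := (c.isOpen_inter_preimage_symm (o2.inter (snc_open_off hM.ok.snc))).preimage
    (continuous_iff_continuousAt.2 fun u => (P1 u).continuousAt)
  have B2 : ∀ u ∈ B, M.f (c.symm (P u)) = M.f x := fun u hu =>
    e'.injOn (o1 _ hu.2.1).2.1.1.2 he'.2 (funext fun b => by
      rw [← c4 _ (c.map_target hu.1), c.right_inv hu.1]
      exact Fin.append_left _ _ _)
  have B3 : ∀ u ∈ B, Dv c e (P u) ≠ 0 := fun u hu k => LinearMap.det_eq_zero_iff_ker_ne_bot.1 k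
    (LinearMap.ker_eq_bot.2 (c1.inj hu.1 (o1 _ hu.2.1).1.2))
  have B4 : ∀ u ∈ B, AnV (p + a) (R.j i e) (c.symm (P u)) := fun u hu =>
    R.hol i e _ ((B2 u hu).symm ▸ hi) (o1 _ hu.2.1).1.2 hu.2.2
  refine ⟨⟨O, B, fun u => c.symm (P u), χ, fun u => sc m (Dv c e (P u)) (R.j i e (c.symm (P u))),
    o2, B1, fun u hu => ((c.continuousAt_symm hu.1).comp (P1 u).continuousAt).continuousWithinAt,
    χ1.mono fun z hz => (o1 z hz).2.2.1, fun u hu => ⟨hu.2.1, ⟨B2 u hu, hu.2.2⟩, χ2 u hu.1⟩,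
    fun z hz hz' => ?_, fun u hu => ?_, fun u hu => ?_, fun u hu J₀ g hg => ?_, ?_⟩, o3⟩
  · have k : P (χ z) = c z := by
      simp only [hP, hχ, sub_add_cancel]
      rw [← hz'.1, ap z (o1 z hz).2.2.1]
    have k' : c.symm (P (χ z)) = z := by rw [k, c.left_inv (o1 z hz).2.2.1]
    exact ⟨⟨k ▸ c.map_source (o1 z hz).2.2.1, by
      rw [mem_preimage, k']
      exact ⟨hz, hz'.2⟩⟩, k'⟩
  · obtain ⟨l, l0, l1⟩ := FgenH.loc (R := R) (i := i) ((B2 u hu).symm ▸ hi) (o1 _ hu.2.1).1.2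
      (at_chart _) hu.2.2
    refine ⟨_, mul_ne_zero (B3 u hu) l0, ?_⟩
    rw [l1, sc_sc, JS.J, B2 u hu]
  · have k1 := (anc c1 hu.1 (B4 u hu)).fun_comp (P1 u)
    have k2 : AnalyticAt ℂ (fun u => Dv c e (P u)) u := (Gi.ExtbA.an_jw (w := fun k z => e z k)
      (ψ := c.symm) (analyticAt_pi_iff.1 (c1.inv _ hu.1 e (o1 _ hu.2.1).1.2))).fun_comp (P1 u)
    exact ((k2.pow _).smul (analyticAt_fst.comp k1)).prod ((k2.pow _).smul (analyticAt_snd.comp k1))
  · have k1 : (act g (R.j i e (c.symm (P u)))).1 (J₀ 0) ≠ 0 := by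
      rw [act_sc] at hg
      exact right_ne_zero_of_mul hg
    have k2 := key (w := fun l z => wc J₀ (act g (R.j i e z)) l) c1 c4 hu.1 (o1 _ hu.2.1).1.2
      ((B4 u hu).cmp (an_wc k1)).hol
    rw [(hD p a m ρ M R hM i e _ ((B2 u hu).symm ▸ hi) ((B2 u hu).symm ▸ hx) (o1 _ hu.2.1).1.2
      hu.2.2).2.1 J₀ (fun _ => g) (fun _ _ _ _ => analyticAt_const) k1] at k2
    rw [act_sc, kap_sc (B3 u hu), mul_comm, ← k2, jw, Filter.EventuallyEq.fderiv_eq]
    filter_upwards [B1.mem_nhds hu] with v hv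
    rw [act_sc, wc_sc (B3 v hv)]
  · set t : Fin a → ℝ := extend j (fun l => (M.δ l : ℝ)) 0 with ht
    have t1 : ∀ k, 0 ≤ t k ∧ t k < 1 := fun k => by
      by_cases b : ∃ l, j l = k
      · obtain ⟨l, rfl⟩ := b
        rw [ht, c3.extend_apply]
        exact_mod_cast And.intro (hM.ok.bdry l).1
          ((hM.ok.bdry l).2.lt_of_ne fun b => hx (R.klt l b x l.2))
      · rw [ht, extend_apply' _ _ _ b]
        exact ⟨le_rfl, one_pos⟩
    have t2 : ∀ u ∈ B, ∀ l, u (j l) = ζ l (c.symm (P u)) := fun u hu l => by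
      rw [← c5 _ (c.map_target hu.1), c.right_inv hu.1]
      simp [hP, hu₀, c5 x c2, (h1 l).mem.2 l.2]
    have k1 : ENNReal.ofReal K ^ (2 / m : ℝ) ≠ ⊤ :=
      ENNReal.rpow_ne_top_of_nonneg (by positivity) ENNReal.ofReal_ne_top
    refine lt_of_le_of_lt (setLIntegral_mono' B1.measurableSet (g := fun u =>
      ENNReal.ofReal K ^ (2 / m : ℝ) * ∏ k, ‖u k‖ₑ ^ (-(2 * t k))) fun u hu => ?_) ?_
    · rw [← ofReal_norm]
      refine wt m0 (norm_nonneg _) (fun k => (t1 k).1) (fun k => ?_) ?_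
      · by_cases b : ∃ l, j l = k
        · obtain ⟨l, rfl⟩ := b
          exact .inl fun d => hu.2.2 l (((o1 _ hu.2.1).2.1.2 l).1 (t2 u hu l ▸ d))
        · exact .inr (extend_apply' _ _ _ b)
      · have k2 := (o1 _ hu.2.1).1.1 hu.2.2
        rw [c.right_inv hu.1, Fintype.prod_of_injective j c3 _ (fun k => ‖u k‖ ^ t k)
          (fun k b => by rw [ht, extend_apply' _ _ _ b, Pi.zero_apply, Real.rpow_zero])
          fun l => by rw [ht, c3.extend_apply, t2 u hu]] at k2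
        exact k2
    · rw [lintegral_const_mul' _ _ k1]
      exact ENNReal.mul_lt_top k1.lt_top ((lintegral_mono_set fun u hu =>
        χ2 u hu.1 ▸ (o1 _ hu.2.1).2.2.2).trans_lt (P281.H76.intN fun k => (t1 k).2).lt_top)

theorem sh1 (g : Mt ρ) (α : Fin ρ) : SH m (fun _ => m) fun j : Fin 1 → Jt ρ a =>
    (act g (j 0)).1 α :=
  ⟨fun j => (an_1 g α _).comp (f := fun j : Fin 1 → Jt ρ a => j 0)
    ((ContinuousLinearMap.proj (R := ℂ) (φ := fun _ : Fin 1 => Jt ρ a) 0).analyticAt j),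
    fun l j => by simp only [act_sc, Fin.prod_univ_one]; rfl⟩

theorem sh2 (g : Mt ρ) (J₀ : Fin (a + 1) → Fin ρ) : SH m (fun _ => (a + 1) * m + 1)
    fun j : Fin 1 → Jt ρ a => (act g (j 0)).2 J₀ :=
  ⟨fun j => (an_2 g J₀ _).comp (f := fun j : Fin 1 → Jt ρ a => j 0)
    ((ContinuousLinearMap.proj (R := ℂ) (φ := fun _ : Fin 1 => Jt ρ a) 0).analyticAt j),
    fun l j => by simp only [act_sc, Fin.prod_univ_one]; rfl⟩

theorem dns (hF : FGEN) (hM : Std M m) {J₀ : Fin (a + 1) → Fin ρ} {y : M.Y.X} (hy : y ∉ R.Q)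
    {g : Mt ρ} (hg : (R.Gd J₀ y g).Nonempty) {x : M.X.X} (hx : M.f x = y) :
    ∃ᶠ x' in 𝓝 x, x' ∈ R.Gd J₀ y g := by
  obtain ⟨z, rfl, z2, z3⟩ := hg
  refine ((continuous_apply (0 : Fin 1)).tendsto fun _ => x).frequently
    (p := fun x' => x' ∈ R.Gd J₀ (M.f z) g)
    ((hF p a m ρ M R hM 1 _ _ ∅ Bool (fun b _ => cond b m ((a + 1) * m + 1))
      (fun b j => cond b ((act g (j 0)).1 (J₀ 0)) ((act g (j 0)).2 J₀)) (R.fr_mem _) hy
      isClosed_empty (fun x h => subset_closure ⟨h, id⟩)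
      (fun b => by cases b; exacts [sh2 g J₀, sh1 g _])
      (fun b => ⟨fun _ => z, ⟨fun _ => rfl, hy, fun _ => z2⟩, by cases b; exacts [z3.2, z3.1]⟩)
      (fun _ => x) fun _ => hx).mono fun v hv => ⟨hv.1.1 0, hv.1.2.2 0, ?_⟩)
  rw [JS.J, show M.f (v 0) = M.f z from hv.1.1 0]
  exact ⟨hv.2.2 true, hv.2.2 false⟩

end Sa

open Sa in
/-- **STA** -/
theorem sta_of (hD : DER) (hF : FGEN) : STA := by
  intro p a m ρ M R hM J₀ y hy
  have m0 : 0 < m := lt_of_lt_of_le two_pos hM.two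
  have h1 : ∀ x : M.f ⁻¹' {y}, ∃ P : Pe m {x' | M.f x' = y ∧ x' ∈ off M.G} R.J, x.1 ∈ P.O := by
    rintro ⟨x, rfl⟩
    exact one hD hM hy
  choose P hP using h1
  obtain ⟨T, hT⟩ := (isClosed_singleton.preimage hM.ok.fibn.hol.cont).isCompact.elim_finite_subcover
    (fun x => (P x).O) (fun x => (P x).oO) fun x hx => mem_iUnion.2 ⟨⟨x, hx⟩, hP _⟩
  have cov : ∀ x ∈ {x' | M.f x' = y ∧ x' ∈ off M.G}, ∃ k, x ∈ (P (T.equivFin.symm k)).O :=
    fun x hx => by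
      obtain ⟨z, z1, z2⟩ := mem_iUnion₂.1 (hT hx.1)
      exact ⟨T.equivFin ⟨z, z1⟩, by rwa [Equiv.symm_apply_apply]⟩
  refine ⟨nu fun k => P (T.equivFin.symm k), nu_fin _, bdd (by positivity) (nu_lsc _) (nu_smul _)
    fun c hc => nu_ne _ m0 cov ?_, fun g hg α => nu_eq _ m0 cov (fun _ => and_assoc.symm)
      (fun x hx => dns hF hM hy hg hx.1) α⟩
  by_contra! k
  refine hc (R.ind _ y (R.fr_mem y) hy c fun e x x1 x2 x3 => ?_)
  subst x1
  obtain ⟨l, -, l1⟩ := FgenH.loc (R.fr_mem (M.f x)) x2 (at_chart x) x3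
  rw [l1]
  exact (dotProduct_smul _ _ _).trans (smul_eq_zero_of_right _ (k x ⟨rfl, x3⟩))

end Vale.Agent.P281Z.Ga
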