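import Vale.Agent.P281Z.Ga.Sk
import Mathlib.Analysis.SpecialFunctions.Exponential
import Mathlib.Analysis.Complex.Liouville

/-!
# P281Z, block III, part A: the stabilizer is discrete
-/

open scoped Topology ENNReal Matrix
open Set Filter

noncomputable section

namespace Vale.Agent.P281Z.Ga

namespace Stab

open scoped Matrix.Norms.Operator in
theorem flow {ρ : ℕ} (X : Mt ρ) : ∃ E : ℂ → Mt ρ, E 0 = 1 ∧
    ∀ t α β, HasDerivAt (fun s => E s α β) ((E t * X) α β) t :=
  ⟨fun t => NormedSpace.exp (t • X), by simp, fun t α β =>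
    (LinearMap.toContinuousLinearMap (Matrix.entryLinearMap ℂ ℂ α β)).hasFDerivAt.comp_hasDerivAt t
      (hasDerivAt_exp_smul_const X t)⟩

end Stab

theorem stab_of (hA : STA) (hB : STB) : STAB := by
  intro p a m ρ M R hM J₀ X g₁ y hy h1 h2
  obtain ⟨ν, n1, n2, n3⟩ := hA p a m ρ M R hM J₀ y hy
  obtain ⟨E, e0, e1⟩ := Stab.flow X
  obtain ⟨g₀, T, k1, k2, k3, k4⟩ := hB p a m ρ M R hM J₀ X g₁ E y hy h1 h2 e0 e1
  have h3 : ∀ α t, HasDerivAt (fun s => (g₀ * E s) α) ((g₀ * (E t * X)) α) t := fun α t =>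
    hasDerivAt_pi.2 fun β => by
      simp only [Matrix.mul_apply (M := g₀)]
      exact HasDerivAt.fun_sum fun γ _ => (e1 t γ β).const_mul _
  have h4 : g₀ * X = 0 := funext fun α => by
    have hd : Differentiable ℂ fun s => (g₀ * E s) α := fun t => (h3 α t).differentiableAt
    have hb : Bornology.IsBounded (range fun s => (g₀ * E s) α) := by
      refine (n2 _ (n1 (g₀ α))).closure.subset ?_
      rintro _ ⟨t, rfl⟩
      refine map_mem_closure (f := fun s => (g₀ * E s) α) hd.continuous (k2.dense_compl ℂ t)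
        fun s hs => (?_ : ν _ = _).le
      rw [← n3 _ (k4 s hs).1, (k4 s hs).2, n3 _ k3]
    have h5 := h3 α 0
    rw [funext fun s => hd.apply_eq_apply_of_bounded hb s 0, e0, one_mul] at h5
    exact h5.unique (hasDerivAt_const _ _)
  rw [← one_mul X, ← Matrix.nonsing_inv_mul g₀ (isUnit_iff_ne_zero.2 k1), mul_assoc, h4, mul_zero]

end Vale.Agent.P281Z.Ga
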