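import Vale.Agent.P281Z.Ga.Sk

/-!
# P281Z, block III, part A: the normalised jet along a sheet (statement)
-/

open scoped Topology
open Filter
open Vale.Agent.P272.K

namespace Vale.Agent.P281Z.Ga.Stb

/-- **FLOW**: along a sheet the normalised jet is constant -/
def FLOW : Prop := ForJ fun p a m ρ M R => ∀ (J₀ : Fin (a + 1) → Fin ρ) (X : Mt ρ) (g : ℂ → Mt ρ)
  (x : Cm 1 → M.X.X) (y : M.Y.X) (o : Cm a) (t : ℂ), y ∉ R.Q →
  (∀ s α β, HasDerivAt (fun s => g s α β) ((g s * X) α β) s) → HolA 1 (p + a) x (fun _ => t) →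
  (∀ᶠ s in 𝓝 t, (x fun _ => s) ∈ R.Gd J₀ y (g s) ∧ R.CC X (x fun _ => s) ∧
    wc J₀ (act (g s) (R.J (x fun _ => s))) = o) →
  ∀ᶠ s in 𝓝 t, nrm J₀ m (act (g s) (R.J (x fun _ => s))) =
    nrm J₀ m (act (g t) (R.J (x fun _ => t)))

end Vale.Agent.P281Z.Ga.Stb
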