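import Vale.Agent.P281Z.Ga.StbA
import Vale.Agent.P281Z.Ga.StbS
import Vale.Agent.P281Z.Gi.Cnst
import Vale.Agent.P281Z.Pb.Ps

/-!
# P281Z, block III, part A: the integrals are constant along a one parameter group
-/

open scoped Manifold ContDiff Topology ENNReal Matrix
open Set Filter Function MeasureTheory
open Vale.Agent.P272.K
open Vale.Agent.P277Z (Hol hol_const)
open Vale.Agent.P281Z.Gi.Cw (io io_hol io_near thin_null cons_ne)

noncomputable section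

namespace Vale.Agent.P281Z.Ga

open Gt

namespace Stb

theorem curve {ρ : ℕ} (P : PS (ρ * ρ)) {g : ℂ → Mt ρ}
    (h : ∀ α β, Differentiable ℂ fun s => g s α β) :
    HolM 1 (ρ * ρ) fun s : Cm 1 => io P (vec (g (s 0))) := fun s =>
  P.holA (s := fun s : Cm 1 => Fin.cons 1 (vec (g (s 0)))) (Fin.cases (hol_const 1 s) fun _ =>
    hol_of (((h _ _).analyticAt _).comp_of_eq ((ContinuousLinearMap.proj (R := ℂ)
      (φ := fun _ : Fin 1 => ℂ) 0).analyticAt s) rfl)) (cons_ne _)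

end Stb

open Stb in
theorem stb_of (hM : MERF) (hC : COV) (hF : FLOW) : STB := by
  intro p a m ρ M R hS J₀ X g₁ E y hy ⟨x₁, hx₁⟩ hX e0 e1
  obtain ⟨F, u, hu, -⟩ := (R.reg y hy).fib (d := a) rfl hS.ok.fibn.hol hS.ok.snc
  obtain ⟨P⟩ := Pb.psex (ρ * ρ)
  obtain ⟨S⟩ := Pb.psex a
  have := hu.conn.2 (R.conn y hy)
  have := P.conn
  have : ConnectedSpace (P.P.prod F).X := prod_conn
  obtain ⟨v₁, rfl⟩ := hu.ex (y := x₁) hx₁.1
  have a0 := s0_an R J₀ P hS.ok hu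
  have m1 := (s0_iff R J₀ P u g₁ v₁).2 hx₁
  have t0 : Thin _ (S0 R J₀ y P u) := a0.thin fun c => m1 (c.ge (mem_univ _))
  have t1 := Thin.pre_of_ex (f := fun z => P.P.pair F (io P (vec g₁)) (P.P.p2 F z)) a0
    ((holM_const _).pair hol_p2) ⟨P.P.pair F (io P (vec g₁)) v₁, m1⟩
  obtain ⟨B, hB, hb⟩ := core hM hC P S F t0 t1 (wc_mr R J₀ P hS.ok hu t0)
  have c0 : Continuous fun q => P.P.pair F q v₁ := (holM_id.pair (holM_const _)).cont
  have l1 : ∀ᶠ w in 𝓝 (P.P.pair S.P (io P (vec g₁)) (io S 0)),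
      P.P.pair F (P.P.p1 S.P w) v₁ ∉ S0 R J₀ y P u :=
    (t0.closed.isOpen_compl.preimage (c0.comp cont_p1)).mem_nhds m1
  have l2 : ∀ᶠ w in 𝓝 (P.P.pair S.P (io P (vec g₁)) (io S 0)), P.P.p2 S.P w ∈ range (io S) :=
    cont_p2.continuousAt.eventually (io_near S 0)
  obtain ⟨w, w1, w2, o₀, w3⟩ := ((hB.freq _).and_eventually (l1.and l2)).exists
  have w4 : io P (vec (mat (P.aff (P.P.p1 S.P w)))) = P.P.p1 S.P w := by
    rw [vec_mat]
    exact P.pt_aff (not_not.1 w2).1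
  generalize mat (P.aff (P.P.p1 S.P w)) = g at w4
  have c1 : Continuous fun s : ℂ => io P (vec (Matrix.scalar _ s - -g)) :=
    (io_hol P).cont.comp (continuous_pi fun k => by
      simp only [vec, Matrix.sub_apply, Matrix.scalar_apply, Matrix.diagonal_apply]
      split_ifs <;> fun_prop)
  have c2 : io P (vec (Matrix.scalar _ (0 : ℂ) - -g)) = P.P.p1 S.P w := by
    rw [map_zero, zero_sub, neg_neg, w4]
  obtain ⟨s₀, n1, n2, n3⟩ := ((freq_det (-g)).and_eventually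
    ((((holM_id.pair (holM_const (io S o₀))).cont.comp c1).continuousAt.eventually
      (hB.closed.isOpen_compl.mem_nhds (by rw [comp_apply, c2, w3]; exact w1))).and
    ((c0.comp c1).continuousAt.eventually
      (t0.closed.isOpen_compl.mem_nhds (by rw [comp_apply, c2]; exact w2))))).exists
  simp only [comp_apply] at n2 n3
  generalize Matrix.scalar _ s₀ - -g = g₀ at n1 n2 n3
  have d1 : ∀ s α β, HasDerivAt (fun s => (g₀ * E s) α β) ((g₀ * E s * X) α β) s :=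
    fun s α β => by
      simp only [Matrix.mul_assoc, Matrix.mul_apply (M := g₀)]
      exact HasDerivAt.fun_sum fun γ _ => (e1 s γ β).const_mul _
  have hκ := curve P (g := fun s => g₀ * E s) fun α β s => (d1 s α β).differentiableAt
  have g0 : g₀ * E 0 = g₀ := by rw [e0, mul_one]
  have n4 : P.P.pair S.P (io P (vec (g₀ * E 0))) (io S o₀) ∉ B := g0.symm ▸ n2
  have k1 : ∀ o, P.P.pair S.P (io P (vec (g₀ * E 0))) (io S o) ∉ B →
      {t | P.P.pair S.P (io P (vec (g₀ * E t))) (io S o) ∈ B}.Countable := fun o ho =>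
    cnt (Thin.pre_of_ex hB.an (hκ.pair (holM_const (io S o))) ⟨fun _ => 0, ho⟩)
  have k2 : {t | P.P.pair F (io P (vec (g₀ * E t))) v₁ ∈ S0 R J₀ y P u}.Countable :=
    cnt (Thin.pre_of_ex a0 (hκ.pair (holM_const v₁)) ⟨fun _ => 0, (g0.symm ▸ n3 :
      P.P.pair F (io P (vec (g₀ * E 0))) v₁ ∉ S0 R J₀ y P u)⟩)
  have k3 : ∀ q, P.P.pair S.P q (io S o₀) ∉ B → ∀ᵐ o, P.P.pair S.P q (io S o) ∉ B := fun q hq =>
    compl_mem_ae_iff.2 (thin_null (Thin.pre_of_ex hB.an ((holM_const q).pair (io_hol S)) ⟨o₀, hq⟩))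
  refine ⟨g₀, _, n1, (k1 o₀ n4).union k2, ⟨_, (s0_iff R J₀ P u g₀ v₁).1 n3⟩, fun t ht =>
    ⟨⟨_, (s0_iff R J₀ P u _ v₁).1 fun c => ht (.inr c)⟩, fun α => ?_⟩⟩
  refine Eq.trans (lintegral_congr_ae ?_) (congrArg (fun g => R.In J₀ y g α) g0)
  filter_upwards [k3 _ fun c => ht (.inl c), k3 _ n4] with o o1 o2
  refine Gi.Cnst.lc ((k1 o o2).isConnected_compl_of_one_lt_rank
    (by rw [Complex.rank_real_complex]; exact Nat.one_lt_ofNat)).isPreconnected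
    (f := fun t => ∑' x : {x // x ∈ R.Gd J₀ y (g₀ * E t) ∧ wc J₀ (act (g₀ * E t) (R.J x)) = o},
      ‖(nrm J₀ m (act (g₀ * E t) (R.J x.1))).1 α‖ₑ ^ (2 / m : ℝ)) (fun s hs => ?_) o1 o2
  obtain ⟨d, σ, s1, s2⟩ := hb _ (fun _ => s) o (hκ.at _) hs
  have s3 : ∀ᶠ r in 𝓝 s, Injective (fun k => u (σ k fun _ => r)) ∧
      (∀ k, u (σ k fun _ => r) ∈ R.Gd J₀ y g₁) ∧ ∀ x, (x ∈ R.Gd J₀ y (g₀ * E r) ∧
        wc J₀ (act (g₀ * E r) (R.J x)) = o) ↔ ∃ k, u (σ k fun _ => r) = x := by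
    filter_upwards [(an_c s).continuousAt.eventually s2] with r ⟨b1, b2, b3⟩
    refine ⟨hu.inj.comp b1, fun k => (s0_iff R J₀ P u g₁ _).1 (b2 k), fun x =>
      ⟨fun ⟨b4, b5⟩ => ?_, ?_⟩⟩
    · obtain ⟨v, rfl⟩ := hu.ex (y := x) b4.1
      exact ((b3 v).1 ⟨(s0_iff R J₀ P u _ v).2 b4, (wc_eq R J₀ P u _ v).trans b5⟩).imp
        fun k => congrArg u
    · rintro ⟨k, rfl⟩
      obtain ⟨b4, b5⟩ := (b3 _).2 ⟨k, rfl⟩
      exact ⟨(s0_iff R J₀ P u _ _).1 b4, (wc_eq R J₀ P u _ _).symm.trans b5⟩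
  have s4 := fun k => hF p a m ρ M R hS J₀ X (fun s => g₀ * E s) (fun r => u (σ k r)) y o s hy d1
    ((hu.hol.at _).cmp (s1 k)) (s3.mono fun r b =>
      ⟨((b.2.2 _).2 ⟨k, rfl⟩).1, hX _ (b.2.1 k), ((b.2.2 _).2 ⟨k, rfl⟩).2⟩)
  filter_upwards [s3, eventually_all.2 s4] with r b1 b2
  rw [Gi.Cnst.tsum_fib _ b1.1 b1.2.2
      fun x => ‖(nrm J₀ m (act (g₀ * E r) (R.J x))).1 α‖ₑ ^ (2 / m : ℝ),
    Gi.Cnst.tsum_fib _ s3.self_of_nhds.1 s3.self_of_nhds.2.2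
      fun x => ‖(nrm J₀ m (act (g₀ * E s) (R.J x))).1 α‖ₑ ^ (2 / m : ℝ)]
  exact tsum_congr fun k => by rw [b2 k]

end Vale.Agent.P281Z.Ga
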