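import Vale.Agent.P281Z.Ga.StbS
import Vale.Agent.P281Z.Ga.Alg
import Vale.Agent.P281Z.Ga.Fgen

/-!
# P281Z, block III, part A: the normalised jet is constant along a sheet
-/

open scoped Manifold ContDiff Topology Matrix
open Set Filter
open Vale.Agent.P272.K Vale.Agent.P285.H281.FD
open Vale.Agent.P277Z (Hol at_chart)
open Vale.Agent.P277Z.Slc (dd)

noncomputable section

namespace Vale.Agent.P281Z.Ga.Stb

namespace Fl

variable {ρ a m : ℕ}

theorem line (g Y : Mt ρ) :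
    HasDerivAt (fun τ : ℂ => Matrix.of.symm (g + τ • Y)) (Matrix.of.symm Y) 0 := by
  exact (((hasDerivAt_id (0 : ℂ)).smul_const (Matrix.of.symm Y)).const_add
    (Matrix.of.symm g)).congr_deriv (one_smul _ _)

theorem der_act {g : ℂ → Mt ρ} {X : Mt ρ} {j : ℂ → Jt ρ a} {v : Jt ρ a} {s : ℂ}
    (hg : ∀ α β, HasDerivAt (fun s => g s α β) ((g s * X) α β) s) (hj : HasDerivAt j v s) :
    HasDerivAt (fun r => act (g r) (j r)) (act (g s) (inf X (j s) + v)) s := by
  have hP : ∀ q, AnalyticAt ℂ (fun q : (Fin ρ → Fin ρ → ℂ) × Jt ρ a =>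
      act (Matrix.of q.1) q.2) q := fun q => an_act (fun α β => analyticAt_pi_iff.1
    (analyticAt_pi_iff.1 (analyticAt_fst (𝕜 := ℂ) (p := q)) α) β) analyticAt_snd
  have h0 := (hP (Matrix.of.symm (g s), j s)).differentiableAt.hasFDerivAt
  have h1 := h0.comp_hasDerivAt (f := fun r => (Matrix.of.symm (g r), j r)) s
    ((hasDerivAt_pi.2 fun α => hasDerivAt_pi.2 fun β => hg α β).prodMk hj)
  have h2 := (h0.comp (j s) (hasFDerivAt_prodMk_right _ _)).unique (actL (g s)).hasFDerivAt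
  have h3 := h0.comp_hasDerivAt_of_eq (0 : ℂ) ((line (g s) (g s * X)).prodMk
    (hasDerivAt_const 0 (j s))) (by simp)
  have h4 := (actL (g s)).hasFDerivAt.comp_hasDerivAt (0 : ℂ)
    (((hP (Matrix.of.symm 1, j s)).fun_comp (f := fun h => (h, j s))
      (analyticAt_id.prod analyticAt_const)).differentiableAt.hasFDerivAt.comp_hasDerivAt_of_eq
        (0 : ℂ) (line 1 X) (by simp))
  have h5 := h3.unique (h4.congr_of_eventuallyEq (.of_forall fun τ => by
    change act (g s + τ • (g s * X)) (j s) = act (g s) (act (1 + τ • X) (j s))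
    rw [← act_mul, mul_add, mul_one, Matrix.mul_smul]))
  refine h1.congr_deriv ?_
  rw [act_add]
  refine Eq.trans ?_ (congrArg₂ (· + ·) h5 (congrArg (· v) h2))
  refine Eq.trans (congrArg _ ?_) (map_add _ _ _)
  simp
  rfl

theorem euler {E : Type} [NormedAddCommGroup E] [NormedSpace ℂ E] {Φ : Jt ρ a → E} {A : Jt ρ a}
    (h : DifferentiableAt ℂ Φ A) (k : ∀ l ≠ 0, Φ (sc m l A) = Φ A) :
    fderiv ℂ Φ A (eu m A) = 0 := by
  have h1 : HasDerivAt (fun l : ℂ => sc m l A) (eu m A) 1 := by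
    simpa [sc, eu] using ((hasDerivAt_pow m (1 : ℂ)).smul_const A.1).prodMk
      ((hasDerivAt_pow ((a + 1) * m + 1) (1 : ℂ)).smul_const A.2)
  exact (h.hasFDerivAt.comp_hasDerivAt_of_eq (1 : ℂ) h1 (sc_one A).symm).unique
    ((hasDerivAt_const (1 : ℂ) (Φ A)).congr_of_eventuallyEq
      ((eventually_ne_nhds one_ne_zero).mono k))

end Fl

open Fl in
/-- **FLOW** -/
theorem flow_of (hD : DER) : FLOW := by
  intro p a m ρ M R hM J₀ X g x y o t hQ hg hx hP
  have hf := hM.ok.fibn.hol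
  have hk : ∀ s : ℂ, AnalyticAt ℂ (fun r : ℂ => (fun _ => r : Cm 1)) s := fun s =>
    AnalyticAt.pi fun _ => analyticAt_id
  have key : ∀ᶠ s in 𝓝 t,
      HasDerivAt (fun r => nrm J₀ m (act (g r) (R.J (x fun _ => r)))) 0 s := by
    filter_upwards [hP.eventually_nhds, (hk t).continuousAt.eventually hx.near] with s h1 h2
    obtain ⟨⟨rfl, a2, a3⟩, ⟨ξ, k, a4, a5⟩, -⟩ := h1.self_of_nhds
    set x₀ := x fun _ => s
    have hc : At (cx x₀) x₀ := at_chart x₀
    have hi := R.fr_mem (M.f x₀)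
    have hn : ∀ᶠ r in 𝓝 s, At (cx x₀) (x fun _ => r) :=
      (h2.cont.comp (hk s).continuousAt).eventually (at_near hc)
    obtain ⟨γ, b1⟩ : ∃ γ, HasDerivAt (fun r : ℂ => cx x₀ (x fun _ => r)) γ s :=
      ⟨_, ((h2.an (e := .refl _) ⟨chartedSpaceSelf_atlas.2 rfl, trivial⟩ hc).fun_comp
        (f := fun r : ℂ => (fun _ => r : Cm 1)) (hk s)).differentiableAt.hasDerivAt⟩
    have b2 : HasFDerivAt _ (R.Dj (R.fr (M.f x₀)) (cx x₀) x₀) (cx x₀ x₀) :=
      (R.hol _ _ x₀ hi hc a2 _ hc).differentiableAt.hasFDerivAt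
    have b3 := der_act (hg s) (b2.comp_hasDerivAt s b1)
    have b4 : R.j (R.fr (M.f x₀)) (cx x₀) ((cx x₀).symm (cx x₀ x₀)) = R.J x₀ :=
      congrArg _ hc.left_inv
    have b5 : ∀ᶠ r in 𝓝 s, ∃ l ≠ 0, act (g r) (R.J (x fun _ => r)) = sc m l (act (g r)
        (R.j (R.fr (M.f x₀)) (cx x₀) ((cx x₀).symm (cx x₀ (x fun _ => r))))) := by
      filter_upwards [h1, hn] with r c1 c2
      obtain ⟨l, c3, c4⟩ := FgenH.loc (R := R) (i := R.fr (M.f x₀)) (by rw [c1.1.1]; exact hi)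
        (at_chart _) c2 c1.1.2.1
      exact ⟨l, c3, by rw [At.left_inv c2, ← act_sc, ← c4, JS.J, c1.1.1]⟩
    have b6 : df M.f (cx x₀) (R.ch (R.fr (M.f x₀))) x₀ γ = 0 :=
      (((hf.at x₀).an hc (R.atc _ _ hi)).differentiableAt.hasFDerivAt.comp_hasDerivAt s b1).unique
        ((hasDerivAt_const s (R.ch (R.fr (M.f x₀)) (M.f x₀))).congr_of_eventuallyEq (by
          filter_upwards [h1, hn] with r c1 c2
          exact congrArg _ ((congrArg M.f (At.left_inv c2)).trans c1.1.1)))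
    have b7 : act (g s) (inf X (R.J x₀) + R.Dj (R.fr (M.f x₀)) (cx x₀) x₀ γ) =
        k • eu m (act (g s) (R.J x₀)) + act (g s) (R.Dj (R.fr (M.f x₀)) (cx x₀) x₀ (γ - ξ)) := by
      rw [← act_eu, ← act_smul, ← act_add, ← a5, map_sub]
      congr 1
      abel
    simp only [Function.comp_apply] at b3
    rw [b4, b7] at b3
    have c1 : DifferentiableAt ℂ (wc J₀) (act (g s) (R.J x₀)) :=
      (an_wc J₀ analyticAt_id a3.1).differentiableAt
    have c2 : DifferentiableAt ℂ (nrm J₀ m) (act (g s) (R.J x₀)) :=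
      (an_nrm J₀ analyticAt_id a3).differentiableAt
    have c3 := (c1.hasFDerivAt.comp_hasDerivAt_of_eq s b3 (by rw [b4])).unique
      ((hasDerivAt_const s o).congr_of_eventuallyEq (by
        filter_upwards [h1, b5] with r d1 ⟨l, d2, d3⟩
        exact (wc_sc d2 _).symm.trans (d3 ▸ d1.2.2)))
    rw [map_add, map_smul, euler c1 fun l hl => wc_sc hl _, smul_zero, zero_add] at c3
    obtain ⟨-, d2, d3, -⟩ := hD p a m ρ M R hM _ _ x₀ hi hQ hc a2
    have d1 : AnV (p + a) (fun x' => wc J₀ (act (g s) (R.j (R.fr (M.f x₀)) (cx x₀) x'))) x₀ :=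
      (R.hol _ _ x₀ hi hc a2).cmp (G := fun j => wc J₀ (act (g s) j))
        (an_wc J₀ (an_act (G := fun _ => g s) (fun _ _ => analyticAt_const) analyticAt_id) a3.1)
    have d4 : HasFDerivAt (wc J₀) (fderiv ℂ (wc J₀) (act (g s) (R.J x₀)))
        (actL (g s) (R.j (R.fr (M.f x₀)) (cx x₀) ((cx x₀).symm (cx x₀ x₀)))) := by
      rw [b4]
      exact c1.hasFDerivAt
    have d5 := d4.comp (cx x₀ x₀) ((actL (g s)).hasFDerivAt.comp (cx x₀ x₀) b2)
    have c4 : γ - ξ = 0 := (d3 _ d1.hol).1 ((d2 J₀ (fun _ => g s) (fun _ _ => P277Z.hol_const _ _)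
      a3.1).trans_ne a3.kap) _ (by rw [map_sub, b6]; exact sub_eq_zero.2 a4.symm) fun l =>
        (congrArg (· (γ - ξ)) (hasFDerivAt_pi'.1 d5 l).fderiv).trans (congrFun c3 l)
    rw [c4, map_zero, ← actL_apply _ 0, map_zero, add_zero] at b3
    refine ((c2.hasFDerivAt.comp_hasDerivAt_of_eq s b3 (by rw [b4])).congr_deriv
      (by rw [map_smul, euler c2 fun l hl => nrm_sc hl _, smul_zero])).congr_of_eventuallyEq ?_
    filter_upwards [b5] with r ⟨l, d2, d3⟩
    exact (congrArg _ d3).trans (nrm_sc d2 _)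
  obtain ⟨ε, h0, hb⟩ := Metric.eventually_nhds_iff_ball.1 key
  filter_upwards [Metric.ball_mem_nhds t h0] with s hs
  exact Metric.isOpen_ball.is_const_of_deriv_eq_zero (convex_ball _ _).isPreconnected
    (fun r hr => (hb r hr).differentiableAt.differentiableWithinAt) (fun r hr => (hb r hr).deriv)
    hs (Metric.mem_ball_self h0)

end Vale.Agent.P281Z.Ga.Stb
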