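import Vale.Agent.P281Z.Ga.Sk
import Vale.Agent.P281Z.Sc.Bd
import Vale.Agent.P277Z.Lo.Base

/-!
# P281Z, block III, part A: functions of the jets along test maps
-/

open scoped Manifold ContDiff Topology
open Set Filter
open Vale.Agent.P272.K Vale.Agent.P285.H281.FD
open Vale.Agent.P277Z (Hol Mer Nz gen at_chart gen_of_nhds)
open Vale.Agent.P277Z.Slc (LEq)
open Vale.Agent.P277Z.Lo (gen_pt gen_freq gen_freq' mer_ident mer_congr mer_div hol_gen_ne)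

set_option linter.unusedSectionVars false

noncomputable section

namespace Vale.Agent.P281Z.Ga

open Gt

namespace Ts

theorem act_id {ρ a : ℕ} (j : Jt ρ a) : act 1 j = j := by
  refine Prod.ext (Matrix.one_mulVec _) (funext fun J => ?_)
  refine (Finset.sum_eq_single J (fun J' _ h => ?_) (by simp)).trans (by simp)
  obtain ⟨k, hk⟩ := Function.ne_iff.1 h
  exact mul_eq_zero_of_left (Finset.prod_eq_zero (f := fun k => (1 : Mt ρ) (J k) (J' k))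
    (Finset.mem_univ k) (Matrix.one_apply_ne' hk)) _

variable {k : ℕ} {T : Type} [TopologicalSpace T] [ChartedSpace (Cm k) T]
  [IsManifold 𝓘(ℂ, Cm k) ω T] {t : T}

theorem anV_comp {n : ℕ} {X E : Type} [TopologicalSpace X] [ChartedSpace (Cm n) X]
    [IsManifold 𝓘(ℂ, Cm n) ω X] [NormedAddCommGroup E] [NormedSpace ℂ E] {F : X → E} {f : T → X}
    (hF : AnV n F (f t)) (hf : HolA k n f t) : AnV k (fun s => F (f s)) t := fun c hc => by
  have he := at_chart (n := n) (f t)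
  refine (((hf.anV he).cmp (hF _ he)) c hc).congr ?_
  filter_upwards [at_map hf.cont hc he] with z hz
  rw [hz.left_inv]

/-- quotients -/
theorem quot {P I : T → Prop} {D N E F : T → ℂ}
    (h : ∀ᶠ s in 𝓝 t, P s → ContinuousAt D s ∧ (I s ↔ D s ≠ 0) ∧ (I s → F s = N s / E s)) :
    ((∀ᶠ s in 𝓝 t, P s) → I t → E t ≠ 0 → Hol k N t → Hol k E t → Hol k F t) ∧
    ((∃ᶠ s in 𝓝 t, P s ∧ I s) → (∀ᶠ s in gen {t}, P s) → Mer k D t → Mer k N t → Mer k E t →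
      Mer k F t) := by
  refine ⟨fun h1 h2 h3 h4 h5 => (h4.div h5 h3).congr ?_, fun h1 h2 h3 h4 h5 => ?_⟩
  · have k := h.self_of_nhds h1.self_of_nhds
    filter_upwards [h, h1, k.1.eventually_ne (k.2.1.1 h2)] with s a b c
      using ((a b).2.2 ((a b).2.1.2 c)).symm
  · have h6 : ∀ᶠ s in gen {t}, D s ≠ 0 := (mer_ident h3).resolve_left fun k => by
      obtain ⟨s, ⟨a, b⟩, c, d⟩ := (h1.and_eventually (h.and (gen_pt.1 k))).exists
      exact mem_closure_iff_frequently.1 (closure_mono interior_subset d)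
        ((c a).1.eventually_ne ((c a).2.1.1 b))
    refine mer_congr (mer_div h4 h5) ?_
    filter_upwards [gen_of_nhds h, h2, h6] with s a b c using ((a b).2.2 ((a b).2.1.2 c)).symm

variable {p a m ρ n : ℕ} {M : Fb (p + a) p} (R : JS M m ρ) {γ : T → Pt M n} {i : R.ι}
  {e : Fin n → Chart (p + a) M.X.X} {d : Fin n → ℕ} {Φ : (Fin n → Jt ρ a) → ℂ}

theorem tm_near (h : Tm k γ t) : ∀ᶠ s in 𝓝 t, Tm k γ s := by
  filter_upwards [h.b.near, eventually_all.2 fun j => (h.x j).near, h.fp.eventually_nhds]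
    with s a b c using ⟨a, b, c⟩

theorem hol_sh (h : Tm k γ t) (hΦ : SH m d Φ) (hi : (γ t).1 ∈ R.U i)
    (he : ∀ l, At (e l) ((γ t).2 l)) (ho : ∀ l, (γ t).2 l ∈ off M.G) :
    Hol k (fun s => Φ fun l => R.j i (e l) ((γ s).2 l)) t :=
  AnV.cmp (F := fun s l => R.j i (e l) ((γ s).2 l)) (fun c hc => AnalyticAt.pi fun l =>
    anV_comp (f := fun s => (γ s).2 l) (R.hol i (e l) _ (h.fp.self_of_nhds l ▸ hi) (he l) (ho l))
      (h.x l) c hc) (hΦ.an _)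

theorem eqs (hM : M.Ok) (h : Tm k γ t) : ∃ ζ : Fin n → M.κ → M.X.X → ℂ,
    (∀ l l', LEq (p + a) (M.G l') ((γ t).2 l) (ζ l l')) ∧
    (∀ l, Hol k (fun s => ∏ l', ζ l l' ((γ s).2 l)) t) ∧
    ∀ᶠ s in 𝓝 t, ∀ l, (γ s).2 l ∈ off M.G ↔ ∏ l', ζ l l' ((γ s).2 l) ≠ 0 := by
  choose ζ hζ _ using fun l => hM.snc ((γ t).2 l)
  exact ⟨ζ, hζ, fun l => Hol.prod _ fun l' _ => (h.x l).hol (hζ l l').hol, eventually_all.2 fun l =>
    ((h.x l).cont.eventually (off_iff (hζ l))).mono fun s k => by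
      simpa only [Finset.prod_ne_zero_iff, Finset.mem_univ, forall_const] using k⟩

theorem gen_off (hM : M.Ok) (h : Tm k γ t) (ho : ∃ᶠ s in 𝓝 t, ∀ l, (γ s).2 l ∈ off M.G) :
    ∀ᶠ s in gen {t}, ∀ l, (γ s).2 l ∈ off M.G := by
  obtain ⟨ζ, -, h1, h2⟩ := eqs hM h
  refine eventually_all.2 fun l => ?_
  filter_upwards [gen_of_nhds h2, hol_gen_ne (h1 l) fun k => ho ((k.and h2).mono
    fun s a b => (a.2 l).1 (b l) a.1)] with s a b using (a l).2 b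

theorem mer_sh (hM : M.Ok) (h : Tm k γ t) (hΦ : SH m d Φ) (hi : (γ t).1 ∈ R.U i)
    (he : ∀ l, At (e l) ((γ t).2 l)) (ho : ∃ᶠ s in 𝓝 t, ∀ l, (γ s).2 l ∈ off M.G) :
    Mer k (fun s => Φ fun l => R.j i (e l) ((γ s).2 l)) t := by
  obtain ⟨ζ, h0, h1, h2⟩ := eqs hM h
  choose j' a1 a2 using fun l => R.mer i (e l) _ (ζ l) (h.fp.self_of_nhds l ▸ hi) (he l) (h0 l)
  refine ⟨fun s => Φ fun l => j' l ((γ s).2 l), fun s => ∏ l, (∏ l', ζ l l' ((γ s).2 l)) ^ d l,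
    AnV.cmp (F := fun s l => j' l ((γ s).2 l)) (fun c hc => AnalyticAt.pi fun l =>
      anV_comp (f := fun s => (γ s).2 l) (a1 l) (h.x l) c hc) (hΦ.an _),
    Hol.prod _ fun l _ => (h1 l).pow _,
    fun k => ho ((k.and h2).mono fun s a b => Finset.prod_ne_zero_iff.2
      (fun l _ => pow_ne_zero _ ((a.2 l).1 (b l))) a.1), ?_⟩
  filter_upwards [gen_off hM h ho, gen_of_nhds (eventually_all.2 fun l =>
    (h.x l).cont.eventually (a2 l))] with s a b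
  rw [mul_comm, ← hΦ.sc]
  exact congrArg Φ (funext fun l => (b l (a l)).symm)

/-- the jets in fixed charts and in a fixed frame -/
theorem law (h : Tm k γ t) (hi : (γ t).1 ∈ R.U i) : ∀ᶠ s in 𝓝 t, Tm k γ s ∧ (γ s).1 ∈ R.U i ∧
    (∀ l, At (cx ((γ t).2 l)) ((γ s).2 l)) ∧ ((∀ l, (γ s).2 l ∈ off M.G) → ∀ i', (γ s).1 ∈ R.U i' →
      ∃ c : Fin n → ℂ, (∀ l, c l ≠ 0) ∧ R.Ji i' (γ s) = fun l =>
        sc m (c l) (act (R.T i' i (γ s).1) (R.j i (cx ((γ t).2 l)) ((γ s).2 l)))) := by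
  filter_upwards [tm_near h, h.b.cont ((R.opn i).mem_nhds hi), eventually_all.2 fun l =>
    (h.x l).cont.eventually (at_near (at_chart (n := p + a) ((γ t).2 l)))] with s a1 a2 a3
  refine ⟨a1, a2, a3, fun ho i' hi' => ⟨fun l => rj (cx ((γ s).2 l)) (cx ((γ t).2 l)) (R.ch i')
    (R.ch i) ((γ s).2 l), fun l => div_ne_zero (jacM_det_ne_zero (at_chart _) (a3 l)) ?_,
    funext fun l => ?_⟩⟩
  · rw [a1.fp.self_of_nhds l]
    exact jacM_det_ne_zero (R.atc _ _ hi') (R.atc _ _ a2)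
  · have k := a1.fp.self_of_nhds l
    exact k ▸ R.law i' i _ _ _ (k ▸ hi') (k ▸ a2) (at_chart _) (a3 l) (ho l)

theorem main (hM : M.Ok) (h : Tm k γ t) (hi : (γ t).1 ∈ R.U i) {J : T → Fin n → Jt ρ a}
    {O : Set (Fin n → Jt ρ a)} {d' : Fin n → ℕ} {D N E H : (Fin n → Jt ρ a) → ℂ} (hD : SH m d D)
    (hN : SH m d' N) (hE : SH m d' E) (hO : ∀ j, j ∈ O ↔ D j ≠ 0)
    (hH : ∀ j ∈ O, E j ≠ 0 ∧ H j = N j / E j)
    (hJ : ∀ᶠ s in 𝓝 t, (∀ l, (γ s).2 l ∈ off M.G) → ∃ c c' : ℂ, c ≠ 0 ∧ c' ≠ 0 ∧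
      D (J s) = c * D (fun l => R.j i (cx ((γ t).2 l)) ((γ s).2 l)) ∧
      N (J s) = c' * N (fun l => R.j i (cx ((γ t).2 l)) ((γ s).2 l)) ∧
      E (J s) = c' * E fun l => R.j i (cx ((γ t).2 l)) ((γ s).2 l)) :
    ((∀ l, (γ t).2 l ∈ off M.G) → J t ∈ O → Hol k (fun s => H (J s)) t) ∧
    ((∃ᶠ s in 𝓝 t, (∀ l, (γ s).2 l ∈ off M.G) ∧ J s ∈ O) → Mer k (fun s => H (J s)) t) := by
  have he : ∀ l, At (cx ((γ t).2 l)) ((γ t).2 l) := fun l => at_chart _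
  have q := quot (k := k) (P := fun s => ∀ l, (γ s).2 l ∈ off M.G) (I := fun s => J s ∈ O)
    (D := fun s => D fun l => R.j i (cx ((γ t).2 l)) ((γ s).2 l))
    (N := fun s => N fun l => R.j i (cx ((γ t).2 l)) ((γ s).2 l))
    (E := fun s => E fun l => R.j i (cx ((γ t).2 l)) ((γ s).2 l)) (F := fun s => H (J s)) (by
      filter_upwards [hJ, law R h hi] with s a ⟨b1, b2, b3, _⟩ ho
      obtain ⟨c, c', c1, c2, c3, c4, c5⟩ := a ho
      exact ⟨(hol_sh R b1 hD b2 b3 ho).cont, by rw [hO, c3, mul_ne_zero_iff_left c1], fun k => by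
        rw [(hH _ k).2, c4, c5, mul_div_mul_left _ _ c2]⟩)
  refine ⟨fun ho k => q.1 (eventually_all.2 fun l => (h.x l).cont
      ((snc_open_off hM.snc).mem_nhds (ho l))) k ?_ (hol_sh R h hN hi he ho) (hol_sh R h hE hi he ho),
    fun ho => ?_⟩
  · obtain ⟨c, c', -, -, -, -, c5⟩ := hJ.self_of_nhds ho
    exact right_ne_zero_of_mul (c5 ▸ (hH _ k).1)
  · have k := ho.mono fun _ a => a.1
    exact q.2 ho (gen_off hM h k) (mer_sh R hM h hD hi he k) (mer_sh R hM h hN hi he k)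
      (mer_sh R hM h hE hi he k)

end Ts

open Ts

theorem tst : TST := by
  intro p a m ρ M R hM n k T _ _ _ _ _ γ t h
  refine ⟨fun i e d Φ hΦ hi he => ⟨hol_sh R h hΦ hi he, mer_sh R hM.ok h hΦ hi he⟩, ?_, ?_⟩
  · rintro i O H ⟨c, d, D, hD, hO⟩ ⟨d', N, E, hN, hE, hH⟩ hi
    refine main (J := fun s => R.Ji i (γ s)) R hM.ok h hi hD.toSH hN hE hO hH
      ((law R h hi).mono fun s ⟨_, b, _, b'⟩ ho => ?_)
    obtain ⟨c, c1, c2⟩ := b' ho i b
    simp only [R.self i _ b, act_id] at c2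
    rw [c2]
    exact ⟨_, _, Finset.prod_ne_zero_iff.2 fun l _ => pow_ne_zero _ (c1 l),
      Finset.prod_ne_zero_iff.2 fun l _ => pow_ne_zero _ (c1 l), hD.sc _ _, hN.sc _ _, hE.sc _ _⟩
  · rintro O U ⟨c, d, D, hD, hO⟩ ⟨c', d', N, E, hN, hE, hH⟩
    have hi := R.fr_mem (γ t).1
    refine main (J := fun s => R.Jq (γ s)) R hM.ok h hi hD.toSH hN.toSH hE.toSH hO hH
      ((law R h hi).mono fun s ⟨_, b, _, b'⟩ ho => ?_)
    obtain ⟨u, c1, c2⟩ := b' ho _ (R.fr_mem _)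
    have c3 := R.detT _ _ _ (R.fr_mem (γ s).1) b
    rw [JS.Jq, c2, hD.sc, hN.sc, hE.sc, hD.act, hN.act, hE.act]
    exact ⟨_, _, mul_ne_zero (Finset.prod_ne_zero_iff.2 fun l _ => pow_ne_zero _ (c1 l))
      (pow_ne_zero _ c3), mul_ne_zero (Finset.prod_ne_zero_iff.2 fun l _ => pow_ne_zero _ (c1 l))
      (pow_ne_zero _ c3), (mul_assoc _ _ _).symm, (mul_assoc _ _ _).symm, (mul_assoc _ _ _).symm⟩

end Vale.Agent.P281Z.Ga
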