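import Vale.Agent.P281Z.Ga.Sk
import Vale.Agent.P281Z.Mf.An

/-!
# P281Z, block III, part A: common denominators and uniform degrees
-/

open scoped Manifold ContDiff Topology Matrix
open Set Filter Function
open Vale.Agent.P272.K Vale.Agent.P285.H281.FD

noncomputable section

namespace Vale.Agent.P281Z.Ga

open Gt

namespace Un

variable {ρ a n n' m c : ℕ} {d : Fin n → ℕ} {Φ : (Fin n → Jt ρ a) → ℂ}

/-- the degrees after a choice of slots -/
def push (σ : Fin n → Fin n') (d : Fin n → ℕ) (k : Fin n') : ℕ := ∑ l with σ l = k, d l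

theorem si_sel (h : SI m c d Φ) (σ : Fin n → Fin n') :
    SI m c (push σ d) fun j => Φ fun l => j (σ l) := by
  refine ⟨⟨fun j => (h.an _).comp (AnalyticAt.pi fun l => (ContinuousLinearMap.proj (R := ℂ)
    (φ := fun _ : Fin n' => Jt ρ a) (σ l)).analyticAt j), fun l j => ?_⟩, fun g j => h.act g _⟩
  rw [h.sc fun k => l (σ k), ← Finset.prod_fiberwise Finset.univ σ]
  refine congrArg (· * _) (Finset.prod_congr rfl fun k _ => ?_)
  rw [push, ← Finset.prod_pow_eq_pow_sum]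
  exact Finset.prod_congr rfl fun i hi => by rw [(Finset.mem_filter.1 hi).2]

theorem si_prod {β : Type} [Fintype β] {c : β → ℕ} {d : β → Fin n → ℕ}
    {Φ : β → (Fin n → Jt ρ a) → ℂ} (h : ∀ b, SI m (c b) (d b) (Φ b)) :
    SI m (∑ b, c b) (fun k => ∑ b, d b k) fun j => ∏ b, Φ b j := by
  refine ⟨⟨fun j => Finset.analyticAt_fun_prod _ fun b _ => (h b).an j, fun l j => ?_⟩,
    fun g j => ?_⟩
  · simp only [fun b => (h b).sc l j, Finset.prod_mul_distrib, ← Finset.prod_pow_eq_pow_sum]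
    rw [Finset.prod_comm]
  · simp only [fun b => (h b).act g j, Finset.prod_mul_distrib, Finset.prod_pow_eq_pow_sum]

theorem si_mul {c' : ℕ} {d' : Fin n → ℕ} {Φ' : (Fin n → Jt ρ a) → ℂ} (h : SI m c d Φ)
    (h' : SI m c' d' Φ') : SI m (c + c') (fun k => d k + d' k) fun j => Φ j * Φ' j := by
  refine ⟨⟨fun j => (h.an j).mul (h'.an j), fun l j => ?_⟩, fun g j => ?_⟩
  · simp only [h.sc, h'.sc, pow_add, Finset.prod_mul_distrib, mul_mul_mul_comm]
  · simp only [h.act, h'.act, pow_add, mul_mul_mul_comm]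

theorem si_b0 : SI m 1 (fun _ => m) (b0 (ρ := ρ) (a := a)) := by
  refine ⟨⟨fun j => ?_, fun l j => Matrix.det_mul_row (fun k => l k ^ m) _⟩, fun g j => ?_⟩
  · refine AnalyticAt.congr (f := fun j => ∑ σ : Equiv.Perm (Fin ρ),
      ((Equiv.Perm.sign σ : ℤ) : ℂ) * ∏ i, (j i).1 (σ i)) (Finset.analyticAt_fun_sum _ fun σ _ =>
        analyticAt_const.mul (Finset.analyticAt_fun_prod _ fun i _ => ?_))
      (.of_forall fun j => (Matrix.det_apply' (Matrix.of fun α β => (j β).1 α)).symm)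
    exact (((ContinuousLinearMap.proj (σ i)).comp (ContinuousLinearMap.fst ℂ _ _)).comp
      (ContinuousLinearMap.proj (R := ℂ) (φ := fun _ : Fin ρ => Jt ρ a) i)).analyticAt j
  · rw [pow_one, b0, b0, ← Matrix.det_mul]
    rfl

theorem prod_upd {β : Type} [Fintype β] [DecidableEq β] {γ : β → Type} (f : ∀ b, γ b → ℂ)
    (o : ∀ b, γ b) (b₀ : β) (x : γ b₀) {z : ℂ} (h : f b₀ x = z * f b₀ (o b₀)) :
    ∏ b, f b (update o b₀ x b) = z * ∏ b, f b (o b) := by
  rw [← Finset.mul_prod_erase _ _ (Finset.mem_univ b₀), ← Finset.mul_prod_erase _ _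
    (Finset.mem_univ b₀), update_self, h, mul_assoc, Finset.prod_congr rfl fun b hb => by
      rw [update_of_ne (Finset.ne_of_mem_erase hb)]]

theorem sum_push [NeZero n] (d : Fin n → ℕ) (k : Fin n) :
    ∑ t : Fin n, push (fun l => l + t) d k = ∑ l, d l := by
  simp only [push, Finset.sum_filter]
  rw [Finset.sum_comm]
  simp only [← eq_sub_iff_add_eq', Finset.sum_ite_eq', Finset.mem_univ, if_true]

theorem nc_sel {p : ℕ} {M : Fb (p + a) p} {R : JS M m ρ} {q : Pt M n'} (h : q ∈ R.Nc n')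
    (σ : Fin n → Fin n') : sel σ q ∈ R.Nc n :=
  ⟨fun _ => h.1 _, h.2.1, fun _ => h.2.2 _⟩

end Un

open Un

/-- **ZCB** -/
theorem zcb_of (hV : VGEN) : ZCB := by
  intro p a m ρ M R hM β _ Q v n c z d B v' s _ _ h
  classical
  let E := Fintype.equivFin (Σ b, Fin (n b))
  let I : Fin (v' + 1) → ∀ b, Fin (v b + 1) :=
    Fin.cons (fun _ => 0) fun j => update (fun _ => 0) (s j).1 (s j).2.succ
  refine ⟨_, _, _, fun i j => ∏ b, B b (I i b) fun l => j (E ⟨b, l⟩),
    fun i => si_prod fun b => si_sel ((h b).si _) _, fun j => (h _).mr _, fun j q h1 h2 =>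
      prod_upd (fun b i => B b i fun l => R.Jq q (E ⟨b, l⟩)) _ _ _
        ((h _).rel _ _ (nc_sel h1 fun l => E ⟨_, l⟩) h2), ?_⟩
  choose T t1 _ t3 using fun b => hV p a m ρ M R hM _ {j | B b 0 j ≠ 0}
    ⟨_, _, _, (h b).si 0, fun _ => Iff.rfl⟩ (h b).ne
  have := hM.ok.conn
  have : Nonempty M.Y.X := Nonempty.map M.f inferInstance
  obtain ⟨y, hy⟩ := (R.thin.union (Thin.iUnion t1)).dense.nonempty
  choose x x1 x2 using fun b => t3 b y fun k => hy (.inr (mem_iUnion.2 ⟨b, k⟩))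
  refine ⟨(y, fun k => x (E.symm k).1 (E.symm k).2), ⟨fun _ => (x1 _).1 _, fun k => hy (.inl k),
    fun _ => (x1 _).2.2 _⟩, Finset.prod_ne_zero_iff.2 fun b _ k => x2 b (Eq.trans ?_ k)⟩
  refine congrArg (B b 0) (funext fun l => ?_)
  simp only [JS.Jq, JS.Ji]
  rw [E.symm_apply_apply]

/-- **UNI** -/
theorem uni_of (hF : FGEN) (hS : SPB) : UNI := by
  intro p a m ρ M R hM Q v n c z d B hρ h
  classical
  have : NeZero (n + ρ) := ⟨by omega⟩
  have : NeZero m := ⟨by have := hM.two; omega⟩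
  let C : Fin (v + 1) → (Fin (n + ρ) → Jt ρ a) → ℂ := fun i j =>
    (B i fun l => j (Fin.castAdd ρ l)) * b0 fun l => j (Fin.natAdd n l)
  have hC := fun i (t : Fin (n + ρ)) => si_sel (Φ := C i) (si_mul (si_sel (h.si i) _)
    (si_sel si_b0 _)) fun l => l + t
  refine ⟨n + ρ, ∑ _ : Fin m × Fin (n + ρ), (c + 1), ∑ l, d l + ρ * m,
    fun i j => ∏ u : Fin m × Fin (n + ρ),
      C (update (fun _ => (0 : Fin (v + 1))) 0 i u) fun l => j (l + u.2),
    by omega, Finset.sum_pos (fun _ _ => by omega) Finset.univ_nonempty,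
    by have := NeZero.pos m; positivity, fun i => ?_, h.mr, fun j q h1 h2 => ?_, ?_⟩
  · have k := si_prod fun u : Fin m × Fin (n + ρ) =>
      hC (update (fun _ => (0 : Fin (v + 1))) 0 i u) u.2
    refine Eq.mp (congrArg (SI m _ · _) (funext fun l => ?_)) k
    simp only [Fintype.sum_prod_type, sum_push]
    rw [Finset.sum_add_distrib (f := push _ _)]
    simp only [push, Finset.sum_fiberwise]
    simp only [Finset.sum_const, Finset.card_univ, Fintype.card_fin, smul_eq_mul]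
  · rw [update_eq_self]
    exact prod_upd (fun (u : Fin m × Fin (n + ρ)) i => C i fun l => R.Jq q (l + u.2)) _ _ _
      ((congrArg (· * _) (h.rel j _ (nc_sel h1 fun l => Fin.castAdd ρ l + 0) h2)).trans
        (mul_assoc _ _ _))
  · obtain ⟨⟨y, x⟩, h1, h2⟩ := h.ne
    obtain ⟨x', h3, h4⟩ := hS p a m ρ M R hM _ y (R.fr_mem y) h1.2.1
    have h5 : (y, Fin.append x x') ∈ R.Nc (n + ρ) :=
      ⟨fun k => k.addCases (by simpa using h1.1 ·) (by simpa using h3.1 ·), h1.2.1,
        fun k => k.addCases (by simpa using h1.2.2 ·) (by simpa using h3.2.2 ·)⟩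
    obtain ⟨w, h6, -, h7⟩ := (hF p a m ρ M R hM _ _ y ∅ _ _ _ (R.fr_mem y) h1.2.1 isClosed_empty
      (fun _ k => subset_closure ⟨k, id⟩) (fun t => (hC 0 t).toSH) (fun t =>
        ⟨_, nc_sel h5 fun l => l - t, by
          simp only [C, JS.Ji, add_sub_cancel_right, Fin.append_left, Fin.append_right]
          exact mul_ne_zero h2 h4⟩) _ h5.1).exists
    exact ⟨_, h6, Finset.prod_ne_zero_iff.2 fun u _ => by rw [update_eq_self]; exact h7 u.2⟩

end Vale.Agent.P281Z.Ga
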