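import Vale.Agent.P281Z.Ga.Sk
import Vale.Agent.P281Z.Mf.An

/-!
# P281Z, block III, part A: the norms have maximal rank
-/

open scoped Manifold ContDiff Topology Matrix
open Set Filter
open Vale.Agent.P272.K
open Vale.Agent.P277Z (Hol at_chart hol_const)
open Vale.Agent.P277Z.Slc (dd)

noncomputable section

namespace Vale.Agent.P281Z.Ga

open Gt

namespace Wr

section alg

variable {ρ e : ℕ}

theorem orth {L : Type} [Finite L] (v₀ : Cm ρ) (w : L → Cm ρ) (h : ∀ l (μ : ℂ), w l ≠ μ • v₀) :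
    ∃ c : Cm ρ, c ⬝ᵥ v₀ = 0 ∧ ∀ l, c ⬝ᵥ w l ≠ 0 := by
  obtain ⟨f, hf⟩ := Module.exists_dual_forall_apply_ne_zero (K := ℂ)
    (fun l => (Submodule.span ℂ {v₀}).mkQ (w l)) fun l k => by
      obtain ⟨μ, hμ⟩ := Submodule.mem_span_singleton.1 ((Submodule.Quotient.mk_eq_zero _).1 k)
      exact h l μ hμ.symm
  obtain ⟨c, hc⟩ := (dotProductEquiv ℂ (Fin ρ)).surjective (f ∘ₗ (Submodule.span ℂ {v₀}).mkQ)
  have k : ∀ v, c ⬝ᵥ v = f ((Submodule.span ℂ {v₀}).mkQ v) := LinearMap.congr_fun hc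
  refine ⟨c, ?_, fun l => k _ ▸ hf l⟩
  rw [k, Submodule.mkQ_apply,
    (Submodule.Quotient.mk_eq_zero _).2 (Submodule.mem_span_singleton_self _), map_zero]

theorem nz {L : Type} [Finite L] (w : L → Cm ρ) (h : ∀ l, w l ≠ 0) :
    ∃ c : Cm ρ, ∀ l, c ⬝ᵥ w l ≠ 0 :=
  (orth 0 w fun l _ => by simpa using h l).imp fun _ => And.right

theorem par (v v' : Fin e → Cm ρ) (k₀ : Fin e) (κ : ℂ) (h0 : ∀ k, v k ≠ 0)
    (hA : ∀ k, (∃ l : ℂ, v k = l • v k₀ ∧ v' k = l • v' k₀) ∨ ∀ μ : ℂ, v k ≠ μ • v k₀)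
    (h : ∀ c, (∀ k, c ⬝ᵥ v k ≠ 0) → ∑ k, c ⬝ᵥ v' k / c ⬝ᵥ v k = κ) :
    ∃ μ : ℂ, v' k₀ = μ • v k₀ := by
  classical
  by_contra! hc
  let A : Fin e → Prop := fun k => ∀ μ : ℂ, v k ≠ μ • v k₀
  obtain ⟨c₁, h1, h2⟩ := orth (v k₀) (fun o : Option {k // A k} => o.elim (v' k₀) fun k => v k)
    fun o => o.rec hc fun k => k.2
  obtain ⟨c₂, h3⟩ := nz v h0
  have ct : ∀ w : Cm ρ, Tendsto (fun t : ℂ => (c₁ + t • c₂) ⬝ᵥ w) (𝓝[≠] 0) (𝓝 (c₁ ⬝ᵥ w)) :=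
    fun w => by
      have : Continuous fun t : ℂ => (c₁ + t • c₂) ⬝ᵥ w := by fun_prop
      simpa using (this.tendsto 0).mono_left nhdsWithin_le_nhds
  have t0 : Tendsto (fun t : ℂ => t) (𝓝[≠] 0) (𝓝 0) := nhdsWithin_le_nhds
  have lim : ∀ k, Tendsto (fun t : ℂ => t * ((c₁ + t • c₂) ⬝ᵥ v' k / (c₁ + t • c₂) ⬝ᵥ v k))
      (𝓝[≠] 0) (𝓝 (if A k then 0 else c₁ ⬝ᵥ v' k₀ / c₂ ⬝ᵥ v k₀)) ∧
      ∀ᶠ t in 𝓝[≠] (0 : ℂ), (c₁ + t • c₂) ⬝ᵥ v k ≠ 0 := fun k => by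
    by_cases hk : A k
    · rw [if_pos hk]
      exact ⟨by simpa using t0.mul ((ct (v' k)).div (ct (v k)) (h2 (some ⟨k, hk⟩))),
        (ct _).eventually_ne (h2 (some ⟨k, hk⟩))⟩
    obtain ⟨l, k1, k2⟩ := (hA k).resolve_right hk
    have k3 : l ≠ 0 := fun k4 => h0 k (by rw [k1, k4, zero_smul])
    have k4 : ∀ t : ℂ, (c₁ + t • c₂) ⬝ᵥ v k = l * (t * c₂ ⬝ᵥ v k₀) := fun t => by
      rw [k1, dotProduct_smul, add_dotProduct, h1, smul_dotProduct, zero_add, smul_eq_mul,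
        smul_eq_mul]
    rw [if_neg hk]
    refine ⟨((ct (v' k₀)).div_const _).congr' ?_, ?_⟩
    · filter_upwards [self_mem_nhdsWithin] with t ht
      have k5 : t ≠ 0 := ht
      have k6 := h3 k₀
      rw [k4, k2, dotProduct_smul, smul_eq_mul]
      field_simp
    · filter_upwards [self_mem_nhdsWithin] with t ht
      exact k4 t ▸ mul_ne_zero k3 (mul_ne_zero ht (h3 k₀))
  have l1 := tendsto_nhds_unique (tendsto_finsetSum Finset.univ fun k _ => (lim k).1)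
    ((t0.mul_const κ).congr' (by
      filter_upwards [eventually_all.2 fun k => (lim k).2] with t ht
      rw [← h _ ht, Finset.mul_sum]))
  rw [zero_mul, Finset.sum_ite, Finset.sum_const_zero, zero_add, Finset.sum_const, nsmul_eq_mul,
    mul_eq_zero, Nat.cast_eq_zero, Finset.card_eq_zero] at l1
  refine l1.elim (fun k => ?_) (div_ne_zero (h2 none) (h3 k₀))
  exact Finset.filter_eq_empty_iff.1 k (Finset.mem_univ k₀) fun k' => k' 1 (one_smul _ _).symm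

theorem inj {g : Mt ρ} (h : g.det ≠ 0) : Function.Injective g.mulVec :=
  Matrix.mulVec_injective_iff_isUnit.2 ((Matrix.isUnit_iff_isUnit_det g).2 h.isUnit)

theorem eig (g : Fin e → Mt ρ) {g₀ : Mt ρ} (h0 : g₀.det ≠ 0) :
    ∃ (L : Type) (_ : Finite L) (c : L → Cm ρ), (∀ l, c l ≠ 0) ∧ ∀ u : Cm ρ, u ≠ 0 →
      (∀ l, c l ⬝ᵥ u ≠ 0) → ∀ k, (∃ l : ℂ, g k = l • g₀) ∨ ∀ μ : ℂ, g k *ᵥ u ≠ μ • (g₀ *ᵥ u) := by
  let L := {q : Fin e × ℂ |
    Module.End.HasEigenvalue (Matrix.toLin' (g₀⁻¹ * g q.1)) q.2 ∧ g q.1 - q.2 • g₀ ≠ 0}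
  have h1 : L.Finite := (finite_iUnion fun k => (Module.End.finite_hasEigenvalue
    (Matrix.toLin' (g₀⁻¹ * g k))).image (Prod.mk k)).subset
      fun q hq => mem_iUnion.2 ⟨q.1, q.2, hq.1, rfl⟩
  choose α hα using fun q : L => Function.ne_iff.1 q.2.2
  refine ⟨L, h1, fun q => (g q.1.1 - q.1.2 • g₀) (α q), hα, fun u hu h k => ?_⟩
  by_contra! hc
  obtain ⟨h2, μ, h3⟩ := hc
  refine h ⟨(k, μ), Module.End.hasEigenvalue_of_hasEigenvector
    ⟨Module.End.mem_eigenspace_iff.2 ?_, hu⟩, sub_ne_zero.2 (h2 μ)⟩ ?_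
  · rw [Matrix.toLin'_apply, ← Matrix.mulVec_mulVec, h3, Matrix.mulVec_smul, Matrix.mulVec_mulVec,
      Matrix.nonsing_inv_mul _ h0.isUnit, Matrix.one_mulVec]
  · exact congrFun (show (g k - μ • g₀) *ᵥ u = 0 by
      rw [Matrix.sub_mulVec, h3, Matrix.smul_mulVec, sub_self]) _

theorem pick {ι : Type} (φ : ι → Cm e) (h : ∀ t, (∀ c, t ⬝ᵥ φ c = 0) → t = 0) :
    ∃ s : Fin e → ι, ∀ t, (∀ l, t ⬝ᵥ φ (s l) = 0) → t = 0 := by
  obtain ⟨κ, s, -, h1, h2⟩ := exists_linearIndependent' ℂ φ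
  have h3 : ⊤ ≤ Submodule.span ℂ (range (φ ∘ s)) := by
    by_contra hc
    obtain ⟨f, k1, k2⟩ := Submodule.exists_le_ker_of_lt_top _ (lt_top_iff_ne_top.2
      fun k => hc k.ge)
    obtain ⟨t, rfl⟩ := (dotProductEquiv ℂ (Fin e)).surjective f
    refine k1 ?_
    rw [h t fun c => k2 (h1 ▸ Submodule.subset_span (mem_range_self c)), map_zero]
  let b := Module.Basis.mk h2 h3
  let σ := b.indexEquiv (Pi.basisFun ℂ (Fin e))
  refine ⟨fun l => s (σ.symm l), fun t ht => h t fun c => ?_⟩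
  have : dotProductEquiv ℂ (Fin e) t = 0 := b.ext fun l => by
    have := ht (σ l)
    simp only [σ.symm_apply_apply] at this
    rw [Module.Basis.mk_apply]
    exact this
  exact LinearMap.congr_fun this (φ c)

end alg

theorem ln {n : ℕ} {X E : Type} [TopologicalSpace X] [ChartedSpace (Cm n) X] [NormedAddCommGroup E]
    [NormedSpace ℂ E] {F : X → E} {x : X} {e : Chart n X} (hF : AnV n F x) (he : At e x)
    (η : Cm n) : HasDerivAt (fun t : ℂ => F (e.symm (e x + t • η)))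
      (fderiv ℂ (fun z => F (e.symm z)) (e x) η) 0 := by
  have h1 : HasDerivAt (fun t : ℂ => e x + t • η) η 0 := by
    simpa using ((hasDerivAt_id (0 : ℂ)).smul_const η).const_add (e x)
  exact (hF e he).differentiableAt.hasFDerivAt.comp_hasDerivAt_of_eq 0 h1 (by simp)

theorem ld {n : ℕ} {X : Type} [TopologicalSpace X] [ChartedSpace (Cm n) X] {F : X → ℂ} {x : X}
    {e : Chart n X} (hF : Hol n F x) (he : At e x) (η : Cm n) :
    HasDerivAt (fun t : ℂ => F (e.symm (e x + t • η))) (dd F e x η) 0 := ln (F := F) hF he η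

theorem dd_cng {n : ℕ} {X : Type} [TopologicalSpace X] [ChartedSpace (Cm n) X] {F G : X → ℂ}
    {x : X} {e : Chart n X} (he : At e x) (h : ∀ᶠ y in 𝓝 x, F y = G y) : dd F e x = dd G e x :=
  have k : (fun z => F (e.symm z)) =ᶠ[𝓝 (e x)] fun z => G (e.symm z) := at_ev he h
  k.fderiv_eq

variable {p a m ρ : ℕ} {M : Fb (p + a) p} {R : JS M m ρ} {i : R.ι} {x : M.X.X} {y : M.Y.X}
  {e : Chart (p + a) M.X.X}

theorem ev_chg {i' : R.ι} {e₁ : Chart (p + a) M.X.X} (h : M.f x ∈ R.U i) (h' : M.f x ∈ R.U i')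
    (he : At e x) (he₁ : At e₁ x) (hx : x ∈ off M.G) :
    ∃ l : ℂ, l ≠ 0 ∧ (R.j i e x).1 = l • (R.T i i' (M.f x) *ᵥ (R.j i' e₁ x).1) :=
  ⟨_, pow_ne_zero m (div_ne_zero (jacM_det_ne_zero he he₁)
    (jacM_det_ne_zero (R.atc i _ h) (R.atc i' _ h'))),
    congrArg Prod.fst (R.law i i' e e₁ x h h' he he₁ hx)⟩

theorem nn_eq {J₀ : Fin (a + 1) → Fin ρ} {v : ℕ} {z : Fin v → M.Y.X → ℂ} (S : R.GS J₀ z)
    (h : M.f x ∈ R.U i) (hQ : M.f x ∉ S.Q) (he : At e x) (hx : x ∈ off M.G) : ∃ l : ℂ, l ≠ 0 ∧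
      ∀ c, ∏ k, c ⬝ᵥ (S.g i (M.f x) k *ᵥ (R.j i e x).1) = l * S.N c x := by
  obtain ⟨l, h1, h2⟩ := ev_chg h (R.fr_mem _) he (at_chart x) hx
  refine ⟨l ^ S.e, pow_ne_zero _ h1, fun c => ?_⟩
  simp only [h2, Matrix.mulVec_smul, Matrix.mulVec_mulVec, S.law _ _ _ h (R.fr_mem _) hQ,
    dotProduct_smul, smul_eq_mul, Finset.prod_mul_distrib, Finset.prod_const, Finset.card_univ,
    Fintype.card_fin]
  rfl

theorem gen (hF : FGEN) (hM : Std M m) (hy : y ∈ R.U i) (hQ : y ∉ R.Q) {L : Type} [Finite L]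
    {c : L → Cm ρ} (hc : ∀ l, c l ≠ 0) (h1 : M.f x = y) (h2 : x ∈ off M.G)
    (h3 : (R.j i (cx x) x).2 ≠ 0) : ∃ x, M.f x = y ∧ x ∈ off M.G ∧ (R.j i (cx x) x).2 ≠ 0 ∧
      ∀ l, c l ⬝ᵥ (R.j i (cx x) x).1 ≠ 0 := by
  obtain ⟨J, hJ⟩ := Function.ne_iff.1 h3
  obtain ⟨x', k1, -, k2⟩ := (hF p a m ρ M R hM 1 i y ∅ (Option L)
    (fun o _ => o.elim ((a + 1) * m + 1) fun _ => m)
    (fun o j => o.elim ((j 0).2 J) fun l => c l ⬝ᵥ (j 0).1) hy hQ isClosed_empty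
    (fun x hx => subset_closure ⟨hx, id⟩) (fun o => by
      cases o
      · exact ⟨fun j => ContDiffAt.analyticAt (by simp only [Option.elim_none]; fun_prop),
          fun l j => by simp [sc]⟩
      · exact ⟨fun j => ContDiffAt.analyticAt
          (by simp only [Option.elim_some, dotProduct]; fun_prop), fun l j => by simp [sc]⟩)
    (fun o => by
      rcases o with - | l
      · exact ⟨fun _ => x, ⟨fun _ => h1, hQ, fun _ => h2⟩, hJ⟩
      obtain ⟨e, x, k1, k2, k3, k4⟩ : ∃ e x, M.f x = y ∧ At e x ∧ x ∈ off M.G ∧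
          c l ⬝ᵥ (R.j i e x).1 ≠ 0 := by
        by_contra! k
        exact hc l (R.ind i y hy hQ _ k)
      refine ⟨fun _ => x, ⟨fun _ => k1, hQ, fun _ => k3⟩, fun k5 => k4 ?_⟩
      obtain ⟨r, -, k6⟩ := ev_chg (k1 ▸ hy) (k1 ▸ hy) k2 (at_chart x) k3
      rw [k6, R.self i _ (k1 ▸ hy), Matrix.one_mulVec, dotProduct_smul]
      exact smul_eq_zero_of_right r k5) (fun _ => x) fun _ => h1).exists
  exact ⟨x' 0, k1.1 0, k1.2.2 0, Function.ne_iff.2 ⟨J, k2 none⟩, fun l => k2 (some l)⟩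

end Wr

open Wr

theorem wr_of (hF : FGEN) (hD : DER) (_ : JDW) : WR := by
  intro p a m ρ M R hM J₀ v z S
  have hf := hM.ok.fibn.hol
  have := hM.ok.conn
  obtain ⟨y, hQ⟩ := ((S.thin.freq (M.f (Classical.arbitrary _))).exists)
  have hy := R.fr_mem y
  have hQ' : y ∉ R.Q := fun k => hQ (S.sub k)
  obtain ⟨h, h1, h2, -⟩ := S.loc _ y hy hQ
  obtain ⟨π, hπ⟩ := h2.self_of_nhds
  have h3 : ∀ k, (h k y).det ≠ 0 := fun k => by
    rw [← π.apply_symm_apply k, ← hπ]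
    exact S.det _ y hy hQ _
  let k₀ : Fin S.e := ⟨0, S.pos⟩
  obtain ⟨L, _, c, h4, h5⟩ := eig (fun k => h k y) (h3 k₀)
  obtain ⟨x₀, b1, b2, b3⟩ := S.ex _ y hy hQ k₀
  obtain ⟨x, rfl, hx, h6, h7⟩ := gen hF hM hy hQ'
    (c := fun o : Option L => o.elim (Pi.single (J₀ 0) 1) c) (fun o => o.rec (by simp) h4) b1 b2
    fun k => b3.2 (by simp [act, k])
  set i := R.fr (M.f x)
  have he : At (cx x) x := at_chart x
  set e := cx x
  have hu : (R.j i e x).1 ≠ 0 := fun k => h7 none (by rw [k, dotProduct_zero])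
  have hj := R.hol i e x hy he hx
  let V : Fin S.e → M.X.X → Cm ρ := fun k x' => h k (M.f x') *ᵥ (R.j i e x').1
  have hV : ∀ k, V k x ≠ 0 := fun k k1 => hu (inj (h3 k) (k1.trans (Matrix.mulVec_zero _).symm))
  have hN : ∀ᶠ x' in 𝓝 x, ∃ l : ℂ, l ≠ 0 ∧ ∀ c, ∏ k, c ⬝ᵥ V k x' = l * S.N c x' := by
    filter_upwards [hf.cont.continuousAt.eventually (h2.and (((R.opn i).eventually_mem hy).and
      (S.thin.closed.isOpen_compl.eventually_mem hQ))), at_near he,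
      (snc_open_off hM.ok.snc).mem_nhds hx] with x' ⟨⟨π, k1⟩, k2, k3⟩ k4 k5
    refine (nn_eq S k2 k3 k4 k5).imp fun l k => ⟨k.1, fun c => ?_⟩
    rw [← k.2, ← Equiv.prod_comp π]
    simp only [k1, V]
  obtain ⟨c₀, h8⟩ := nz (fun k => V k x) hV
  have hw : ∀ c, ∀ᶠ x' in 𝓝 x, (∏ k, c ⬝ᵥ V k x') / ∏ k, c₀ ⬝ᵥ V k x' = S.N c x' / S.N c₀ x' :=
    fun c => hN.mono fun x' ⟨l, k1, k2⟩ => by rw [k2, k2, mul_div_mul_left _ _ k1]
  have hP : ∀ c : Cm ρ, Hol (p + a) (fun x' => ∏ k, c ⬝ᵥ V k x') x := fun c => by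
    simp only [V, Matrix.mulVec, dotProduct]
    exact .prod _ fun k _ => .sum _ fun α _ => (hol_const _ _).mul (.sum _ fun β _ =>
      (hf.hol (h1 k α β)).mul ((hj.cmp analyticAt_fst).hol β))
  have h9 : ∏ k, c₀ ⬝ᵥ V k x ≠ 0 := Finset.prod_ne_zero_iff.2 fun k _ => h8 k
  have hW : ∀ c, Hol (p + a) (fun x' => S.N c x' / S.N c₀ x') x := fun c =>
    ((hP c).div (hP c₀) h9).congr (hw c)
  obtain ⟨d1, -, d3, -⟩ := hD p a m ρ M R hM i e x hy hQ' he hx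
  have key : ∀ η, df M.f e (R.ch i) x η = 0 →
      (∀ c, dd (fun x' => S.N c x' / S.N c₀ x') e x η = 0) → η = 0 := fun η k1 k2 => by
    have g0 : e.symm (e x + (0 : ℂ) • η) = x := by rw [zero_smul, add_zero, e.left_inv he.2]
    have dV : ∀ (c : Cm ρ) k, HasDerivAt (fun t : ℂ => c ⬝ᵥ V k (e.symm (e x + t • η)))
        (c ⬝ᵥ (h k (M.f x) *ᵥ (R.Dj i e x η).1)) 0 := fun c k => by
      simp only [V, Matrix.mulVec, dotProduct]
      refine .fun_sum fun α _ => .const_mul _ (.fun_sum fun β _ => ?_)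
      have a1 := ld (hf.hol (h1 k α β)) he η
      have a2 := hasDerivAt_pi.1 ((ContinuousLinearMap.fst ℂ _ _).hasFDerivAt.comp_hasDerivAt 0
        (ln hj he η)) β
      refine (a1.fun_mul a2).congr_deriv ?_
      rw [dd_comp (h1 k α β) (hf.at x) he (R.atc i _ hy), ContinuousLinearMap.comp_apply, k1,
        map_zero, zero_mul, zero_add, g0]
      rfl
    have lg : ∀ c : Cm ρ, (∀ k, c ⬝ᵥ V k x ≠ 0) →
        logDeriv (fun t : ℂ => ∏ k, c ⬝ᵥ V k (e.symm (e x + t • η))) 0 =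
          ∑ k, c ⬝ᵥ (h k (M.f x) *ᵥ (R.Dj i e x η).1) / c ⬝ᵥ V k x := fun c hc => by
      rw [logDeriv_prod (fun k _ => by rw [g0]; exact hc k) fun k _ => (dV c k).differentiableAt]
      exact Finset.sum_congr rfl fun k _ => by rw [logDeriv_apply, (dV c k).deriv, g0]
    obtain ⟨μ, hμ⟩ := par (fun k => V k x) (fun k => h k (M.f x) *ᵥ (R.Dj i e x η).1) k₀
      (logDeriv (fun t : ℂ => ∏ k, c₀ ⬝ᵥ V k (e.symm (e x + t • η))) 0) hV
      (fun k => (h5 _ hu (fun l => h7 (some l)) k).imp_left fun ⟨l, r⟩ =>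
        ⟨l, by simp only [V, r, Matrix.smul_mulVec], by simp only [r, Matrix.smul_mulVec]⟩)
      fun c hc => by
        rw [← lg c hc, ← sub_eq_zero, ← logDeriv_div _
          (by rw [g0]; exact Finset.prod_ne_zero_iff.2 fun k _ => hc k) (by rw [g0]; exact h9)
          (ld (hP c) he η).differentiableAt (ld (hP c₀) he η).differentiableAt, logDeriv_apply,
          (ld ((hP c).div (hP c₀) h9) he η).deriv, dd_cng he (hw c), k2 c, zero_div]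
    exact d1 η μ h6 k1 (inj (h3 k₀) (hμ.trans (Matrix.mulVec_smul _ _ _).symm))
  obtain ⟨ξ, _, -, r1, r2, -⟩ := R.der i e x hy hQ' he hx
  have r3 : ∀ (t : Cm a) (A : Cm (p + a) →L[ℂ] ℂ),
      t ⬝ᵥ (fun l => A (ξ l)) = A (∑ l, t l • ξ l) := fun t A => by simp [dotProduct]
  obtain ⟨s, hs⟩ := pick (fun c l => dd (fun x' => S.N c x' / S.N c₀ x') e x (ξ l)) fun t ht =>
    funext (Fintype.linearIndependent_iff.1 r1 t (key _ ((r2 _).2
      ((Submodule.mem_span_range_iff_exists_fun ℂ).2 ⟨t, rfl⟩)) fun c => r3 _ _ ▸ ht c))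
  obtain ⟨l, -, hl⟩ := hN.self_of_nhds
  refine ⟨Fin.cons c₀ s, x, hQ, hx, right_ne_zero_of_mul (hl c₀ ▸ h9),
    (d3 _ fun k => hW (s k)).2 fun η k1 k2 => ?_⟩
  obtain ⟨t, rfl⟩ := (Submodule.mem_span_range_iff_exists_fun ℂ).1 ((r2 η).1 k1)
  simp [hs t fun l => (r3 _ _).trans (k2 l)]

end Vale.Agent.P281Z.Ga
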