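import Vale.Agent.P281Z.Ga.Sk
import Vale.Agent.P277Z.Lo.Jac

/-!
# P281Z, block III, part A: the flat coordinates
-/

open scoped Manifold ContDiff Topology
open Set Filter
open Vale.Agent.P272.K Vale.Agent.P285.H281.FD
open Vale.Agent.P277Z (Hol Mer gen jd at_chart)
open Vale.Agent.P277Z.Lo

noncomputable section

namespace Vale.Agent.P281Z.Ga

open Gt

namespace Wx

theorem msum {n : ℕ} {W ι : Type} [TopologicalSpace W] [ChartedSpace (Cm n) W]
    [IsManifold 𝓘(ℂ, Cm n) ω W] {x : W} (s : Finset ι) {f : ι → W → ℂ}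
    (h : ∀ i, Mer n (f i) x) : Mer n (fun y => ∑ i ∈ s, f i y) x := by
  induction s using Finset.cons_induction with
  | empty => exact mer_of_hol (hol_const 0)
  | cons a s ha ih => simpa only [Finset.sum_cons] using mer_add (h a) ih

variable {p a m ρ v : ℕ} {M : Fb (p + a) p} {R : JS M m ρ} {J₀ : Fin (a + 1) → Fin ρ}
  {z : Fin v → M.Y.X → ℂ} (S : R.GS J₀ z) {x : M.X.X}

/-- the first exceptional set -/
def S0 : Set M.X.X := M.f ⁻¹' S.Q ∪ (off M.G)ᶜ

theorem thin0 (h : Std M m) : Thin (p + a) (S0 S) :=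
  have := h.ok.conn
  (S.thin.pre_surj h.ok.fibn.hol h.ok.fibn.surj).union (snc_thin_off h.ok.snc)

theorem loc (hP : PMT) (hT : TST) (hM : MERT) (hJ : JDW) (h : Std M m) (x : M.X.X) :
    ∃ (l : M.X.X → ℂ) (g : Cm ρ → M.X.X → ℂ), (∀ c, Mer (p + a) (g c) x) ∧ ∀ᶠ y in 𝓝 x,
      y ∉ S0 S → l y ≠ 0 ∧ ∀ c, Hol (p + a) (g c) y ∧ S.N c y = l y * g c y := by
  have hf := h.ok.fibn.hol
  have P := (hP p a m ρ M R h J₀ v z S).2
  have tm : ∀ y, Tm (p + a) (dg (M := M) 1) y := fun y =>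
    ⟨hf.at y, fun _ => holM_id.at y, .of_forall fun _ _ => rfl⟩
  have t0 := (thin0 S h).freq x
  refine ⟨fun y => (∏ _k : Fin 1, rj (cx y) (cx x) (R.ch (R.fr (M.f y))) (R.ch (R.fr (M.f x))) y) ^
    (m * S.e), fun c y => S.nn c (R.fr (M.f x)) (fun _ => cx x) (dg 1 y), fun c => ?_, ?_⟩
  · obtain ⟨L, b, Φ, h1, h2, h3⟩ := (P c).rep (R.fr (M.f x))
    simp only [h3]
    refine msum _ fun l => mer_mul (hM p _ _ _ S.Q (b l) M.f x (S.thin.an _) (h2 l _ (R.fr_mem _)).1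
      (((R.opn _).eventually_mem (R.fr_mem _)).mono fun y hy => (h2 l y hy).2) (hf.at x)
      (t0.mono fun y hy k => hy (.inl k))) (((hT p a m ρ M R h 1 _ _ _ x (tm x)).1 _ _ _ _ (h1 l)
        (R.fr_mem _) fun _ => at_chart x).2 (t0.mono fun y hy _ => of_not_not fun k => hy (.inr k)))
  filter_upwards [hf.cont.continuousAt.eventually ((R.opn _).eventually_mem (R.fr_mem (M.f x))),
    at_near (at_chart (n := p + a) x)] with y k1 k2 k3
  have k4 : y ∈ off M.G := of_not_not fun k => k3 (.inr k)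
  have k5 : M.f y ∉ S.Q := fun k => k3 (.inl k)
  refine ⟨pow_ne_zero _ (Finset.prod_ne_zero_iff.2 fun _ _ => (hJ p a M (fun _ _ => 0) y _ _ _ _ hf
    (fun _ => hol_const 0) (at_chart y) k2 (R.atc _ _ (R.fr_mem _)) (R.atc _ _ k1)).1), fun c =>
      ⟨?_, (P c).law _ _ _ _ (dg 1 y) (fun _ => rfl) (R.fr_mem _) k1 k5
        fun _ => ⟨at_chart y, k2, k4⟩⟩⟩
  obtain ⟨L, b, Φ, h1, h2, h3⟩ := (P c).rep (R.fr (M.f x))
  simp only [h3]
  exact hol_sum _ fun l _ => hol_mul (hf.hol ((h2 l _ k1).2 k5))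
    (((hT p a m ρ M R h 1 _ _ _ y (tm y)).1 _ _ _ _ (h1 l) k1 fun _ => k2).1 fun _ => k4)

theorem app {P : (M.X.X → ℂ) → Prop} {w : Fin a → M.X.X → ℂ} {e' : Chart p M.Y.X}
    (h : ∀ c, P fun x => e' (M.f x) c) (h' : ∀ i, P (w i)) (i : Fin (p + a)) :
    P (Fin.append (fun c x => e' (M.f x) c) w i) := by
  induction i using Fin.addCases with
  | left c => rw [Fin.append_left]; exact h c
  | right c => rw [Fin.append_right]; exact h' c

end Wx

open Wx in
/-- **WX** -/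
theorem wx_of (hW : WR) (hP : PMT) (hT : TST) (hZ : ZERO) (hV : VERT) (hM : MERT) (hJ : JDW) :
    WX := by
  intro p a m ρ M R h J₀ v z S
  have hf := h.ok.fibn.hol
  have := h.ok.conn
  obtain ⟨cc, x₀, a1, a2, a3, a4⟩ := hW p a m ρ M R h J₀ v z S
  choose l g h1 h2 using loc S hP hT hM hJ h
  have t0 := thin0 S h
  have x0 : x₀ ∉ S0 S := fun k => k.elim a1 fun k => k a2
  have t1 := hZ _ M.X _ {y | S.N (cc 0) y = 0} this t0 (fun x => ⟨_, h1 x (cc 0), (h2 x).mono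
    fun y hy k => ⟨((hy k).2 _).1, by
      rw [mem_ofPred_eq, ((hy k).2 _).2, mul_eq_zero_iff_left (hy k).1]⟩⟩) ⟨x₀, x0, a3⟩
  set w : Fin a → M.X.X → ℂ := fun i y => S.N (cc i.succ) y / S.N (cc 0) y
  have e1 : ∀ i x, ∀ᶠ y in 𝓝 x, y ∉ S0 S → g x (cc i.succ) y / g x (cc 0) y = w i y := fun i x =>
    (h2 x).mono fun y hy k => by
      simp only [w, ((hy k).2 _).2, mul_div_mul_left _ _ (hy k).1]
  have wm : ∀ i x, Mer (p + a) (w i) x := fun i x => mer_congr (mer_div (h1 x _) (h1 x _))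
    (by
      filter_upwards [gen_of_nhdsSet (nhdsSet_singleton (x := x) ▸ e1 i x), t0.gen x] with y k k'
        using k k')
  have wh : ∀ i, ∀ x ∉ S0 S ∪ {y | S.N (cc 0) y = 0}, Hol (p + a) (w i) x := fun i x hx => by
    have k := (h2 x).self_of_nhds fun k => hx (.inl k)
    exact (hol_div (k.2 _).1 (k.2 _).1 fun k' => hx (.inr (by
      rw [mem_ofPred_eq, (k.2 _).2, k', mul_zero]))).congr (((e1 i x).and
        (t0.closed.isOpen_compl.mem_nhds fun k => hx (.inl k))).mono fun y k => k.1 k.2)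
  have e2 : ∀ x ∉ S0 S ∪ {y | S.N (cc 0) y = 0}, ∀ e e', At e x → At e' (M.f x) →
      (jdw w (cx x) (chartAt _ (M.f x)) x = 0 ↔ jdw w e e' x = 0) := fun x hx e e' he he' => by
    have k := hJ p a M w x _ _ _ _ hf (wh · x hx) (at_chart x) he (at_chart _) he'
    rw [k.2, mul_eq_zero_iff_left k.1]
  have t2 := hZ _ M.X _ {y | jdw w (cx y) (chartAt _ (M.f y)) y = 0} this t1 (fun x =>
    ⟨jdw w (cx x) (chartAt _ (M.f x)), Jc.jd_mer (at_chart x) (app (P := (Mer _ · x))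
      (fun c => mer_of_hol (hf.hol (hol_chart (at_chart _) c))) (wm · x)), by
      filter_upwards [at_near (at_chart (n := p + a) x), hf.cont.continuousAt.eventually
        (at_near (at_chart (n := p) (M.f x)))] with y k1 k2 k3
      exact ⟨Jc.jd_hol k1 (app (P := (Hol _ · y)) (fun c => hf.hol (hol_chart k2 c)) (wh · y k3)),
        e2 y k3 _ _ k1 k2⟩⟩) ⟨x₀, fun k => k.elim x0 a3, fun k => a4 ((e2 x₀ (fun k => k.elim x0 a3)
          _ _ (at_chart _) (R.atc _ _ (R.fr_mem _))).1 k)⟩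
  obtain ⟨Q, t3, hQ⟩ := hV _ p M.X M.Y M.f _ hf t2
  have t4 := S.thin.union t3
  exact ⟨cc, ⟨S.Q ∪ Q, _, w, t4, (t4.pre_surj hf h.ok.fibn.surj).union t2,
    fun y hy => R.reg y fun k => hy (.inl (S.sub k)),
    fun y hy => R.conn y fun k => hy (.inl (S.sub k)), fun x hx => .inl hx,
    fun l hl x hx => .inl (S.sub (R.klt l hl x hx)),
    fun x hx => of_not_not fun k => hx (.inr (.inl (.inl (.inr k)))),
    fun i => ⟨fun x hx => wh i x fun k => hx (.inr (.inl k)), wm i⟩,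
    fun x hx e e' he he' k => hx (.inr (.inr ((e2 x (fun k => hx (.inr (.inl k))) e e' he he').2 k))),
    fun x hx => closure_mono (by exact fun y hy => ⟨hy.1, fun k => k.elim
      (fun k => hx (hy.1 ▸ k)) hy.2⟩) (hQ x fun k => hx (.inr k))⟩, subset_union_left,
    fun x hx k => hx (.inr (.inl (.inr k))), fun _ _ _ => rfl⟩

end Vale.Agent.P281Z.Ga
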