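import Vale.Agent.P281Z.Gl.All
import Vale.Agent.P281Z.Pb.Ps
import Vale.Agent.P281Z.Ga.Pa1
import Vale.Agent.P281Z.Ga.Pa2
import Vale.Agent.P281Z.Ga.Blk
import Vale.Agent.P281Z.Ga.Blka
import Vale.Agent.P281Z.Ga.Der
import Vale.Agent.P281Z.Ga.Eti
import Vale.Agent.P281Z.Ga.Fgen
import Vale.Agent.P281Z.Ga.Flat
import Vale.Agent.P281Z.Ga.Flj
import Vale.Agent.P281Z.Ga.Flp
import Vale.Agent.P281Z.Ga.Frm
import Vale.Agent.P281Z.Ga.Imm0
import Vale.Agent.P281Z.Ga.Immu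
import Vale.Agent.P281Z.Ga.Jsx
import Vale.Agent.P281Z.Ga.Lev
import Vale.Agent.P281Z.Ga.Lev1
import Vale.Agent.P281Z.Ga.Msx
import Vale.Agent.P281Z.Ga.Pj
import Vale.Agent.P281Z.Ga.Pmt
import Vale.Agent.P281Z.Ga.Rfl
import Vale.Agent.P281Z.Ga.Rkt
import Vale.Agent.P281Z.Ga.Sg
import Vale.Agent.P281Z.Ga.Spn
import Vale.Agent.P281Z.Ga.Sta
import Vale.Agent.P281Z.Ga.Stab
import Vale.Agent.P281Z.Ga.Stb
import Vale.Agent.P281Z.Ga.StbF
import Vale.Agent.P281Z.Ga.Thz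
import Vale.Agent.P281Z.Ga.Tst
import Vale.Agent.P281Z.Ga.Uni
import Vale.Agent.P281Z.Ga.Wr
import Vale.Agent.P281Z.Ga.Wx

/-!
# P281Z, block III, part A
-/

namespace Vale.Agent.P281Z.Ga

open Gt

theorem fgen : FGEN := fgen_of zero tst

theorem thz : THZ := thz_of zero tst

theorem vgen : VGEN := vgen_of pw vert thz

theorem stab : STAB := stab_of (sta_of der fgen) (stb_of merf cov (Stb.flow_of der))

theorem lev : LEV := lev_of (lev1_of (sg_of pw sieg thz tst fgen) vgen tst eti thz pw ldesc)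
  (zcb_of vgen) (rkt_of grow) flat dep eti thz tst pw

theorem pa1 : PA1 := pa1_of (immu_of imm0 stab frm fgen spb der) frm lev
  (msx_of pw merf cov vert norm mert Pb.psex thz tst eti) (uni_of fgen spb) tst der

/-- **PARTA** -/
theorem parta : PARTA := parta_of jsx pa1
  (wx_of (wr_of fgen der jdw_law) pmt tst zero vert mert jdw_law) pmt (rfl_of tst mert jdw_law) spn
  spb fgen vgen (blk_of (pj_of jdw_law) blka) (fl3_of (flj_of fgen der) jdw_law)
  (flp_of pw thn flat dep)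

end Vale.Agent.P281Z.Ga
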