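import Vale.Agent.P281Z.Gt.SkT

/-!
# P281Z, block III, part A: jets, invariants, frames (definitions)
-/

open scoped Manifold ContDiff Topology ENNReal Matrix
open Set Filter MeasureTheory
open Vale.Agent.P272.K Vale.Agent.P285.H281.FD
open Vale.Agent.P277Z (Hol Mer Nz gen jd)
open Vale.Agent.P277Z.Slc (Ind LEq Snc ForW dd)
open Vale.Agent.P277.HD (pull)

noncomputable section

namespace Vale.Agent.P281Z.Ga

open Gt

/-! ### algebra -/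

/-- values and Wronskians -/
abbrev Jt (ρ a : ℕ) : Type := Cm ρ × ((Fin (a + 1) → Fin ρ) → ℂ)

/-- square matrices -/
abbrev Mt (ρ : ℕ) : Type := Matrix (Fin ρ) (Fin ρ) ℂ

section alg

variable {ρ a n : ℕ}

/-- change of the frame -/
def act (g : Mt ρ) (j : Jt ρ a) : Jt ρ a :=
  (g *ᵥ j.1, fun J => ∑ J' : Fin (a + 1) → Fin ρ, (∏ k, g (J k) (J' k)) * j.2 J')

/-- change of the chart -/
def sc (m : ℕ) (l : ℂ) (j : Jt ρ a) : Jt ρ a := (l ^ m • j.1, l ^ ((a + 1) * m + 1) • j.2)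

/-- the derivative of `sc` -/
def eu (m : ℕ) (j : Jt ρ a) : Jt ρ a := ((m : ℂ) • j.1, (((a + 1) * m + 1 : ℕ) : ℂ) • j.2)

/-- the derivative of `act` -/
def inf (X : Mt ρ) (j : Jt ρ a) : Jt ρ a :=
  fderiv ℂ (fun g : Fin ρ → Fin ρ → ℂ => act (Matrix.of g) j) (Matrix.of.symm 1) (Matrix.of.symm X)

/-- the minors of size `a + 1` -/
def pl (v : Fin (a + 1) → Cm ρ) (J : Fin (a + 1) → Fin ρ) : ℂ :=
  (Matrix.of fun k l => v l (J k)).det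

/-- the jet of a map -/
def jet (v : Cm a → Cm ρ) (u : Cm a) : Jt ρ a :=
  (v u, pl (Fin.cons (v u) fun l => fderiv ℂ v u (Pi.single l 1)))

/-- the determinant of the values -/
def b0 (j : Fin ρ → Jt ρ a) : ℂ := (Matrix.of fun α β => (j β).1 α).det

/-- entire functions which are homogeneous for the changes of charts -/
structure SH (m : ℕ) (d : Fin n → ℕ) (Φ : (Fin n → Jt ρ a) → ℂ) : Prop where
  an : ∀ j, AnalyticAt ℂ Φ j
  sc : ∀ (l : Fin n → ℂ) j, Φ (fun k => sc m (l k) (j k)) = (∏ k, l k ^ d k) * Φ j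

/-- semi-invariants of weight `c` and degree `d` -/
structure SI (m c : ℕ) (d : Fin n → ℕ) (Φ : (Fin n → Jt ρ a) → ℂ) : Prop extends SH m d Φ where
  act : ∀ (g : Mt ρ) j, Φ (fun k => act g (j k)) = g.det ^ c * Φ j

/-- `O` is the set where a semi-invariant is not zero -/
def Op (m : ℕ) (O : Set (Fin n → Jt ρ a)) : Prop :=
  ∃ c d D, SI m c d D ∧ ∀ j, j ∈ O ↔ D j ≠ 0

/-- invariant rational functions, regular on `O` -/
def IV (m : ℕ) (O : Set (Fin n → Jt ρ a)) (U : (Fin n → Jt ρ a) → ℂ) : Prop :=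
  ∃ c d N E, SI m c d N ∧ SI m c d E ∧ ∀ j ∈ O, E j ≠ 0 ∧ U j = N j / E j

/-- rational functions of degree zero, regular on `O` -/
def HV (m : ℕ) (O : Set (Fin n → Jt ρ a)) (U : (Fin n → Jt ρ a) → ℂ) : Prop :=
  ∃ d N E, SH m d N ∧ SH m d E ∧ ∀ j ∈ O, E j ≠ 0 ∧ U j = N j / E j

variable (J₀ : Fin (a + 1) → Fin ρ)

/-- affine coordinates -/
def wc (j : Jt ρ a) : Cm a := fun i => j.1 (J₀ i.succ) / j.1 (J₀ 0)

/-- the Jacobian determinant of the affine coordinates -/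
def kap (j : Jt ρ a) : ℂ := j.2 J₀ / j.1 (J₀ 0) ^ (a + 1)

/-- the affine coordinates are coordinates -/
def gd (j : Jt ρ a) : Prop := j.1 (J₀ 0) ≠ 0 ∧ j.2 J₀ ≠ 0

/-- the jet in the affine coordinates -/
def nrm (m : ℕ) (j : Jt ρ a) : Jt ρ a := sc m (kap J₀ j)⁻¹ j

/-- the matrix of the values of the first `ρ` jets -/
def bm (b : Fin (ρ + 1) → Jt ρ a) : Mt ρ := Matrix.of fun α k => (b k.castSucc).1 α

/-- the projective frame -/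
def g1 (b : Fin (ρ + 1) → Jt ρ a) : Mt ρ :=
  (Matrix.diagonal fun k => (((bm b).adjugate *ᵥ (b (Fin.last ρ)).1) k)⁻¹ : Mt ρ) * (bm b).adjugate

/-- the frame defined by `ρ + 1` jets -/
def gm (m : ℕ) (b : Fin (ρ + 1) → Jt ρ a) : Mt ρ :=
  kap J₀ (act (g1 b) (b (Fin.last ρ))) ^ m • g1 b

/-- the jets which define a frame -/
def O1 : Set (Fin (ρ + 1) → Jt ρ a) :=
  {b | (bm b).det ≠ 0 ∧ (∀ k, ((bm b).adjugate *ᵥ (b (Fin.last ρ)).1) k ≠ 0) ∧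
    (act (bm b).adjugate (b (Fin.last ρ))).2 J₀ ≠ 0}

/-- the jet of the slot `k` in the frame of the slots `bs` -/
def fj (m : ℕ) (bs : Fin (ρ + 1) → Fin n) (k : Fin n) (j : Fin n → Jt ρ a) : Jt ρ a :=
  act (gm J₀ m fun l => j (bs l)) (j k)

/-- the coordinates of a jet -/
def crd (b : Fin ρ ⊕ (Fin (a + 1) → Fin ρ)) (j : Jt ρ a) : ℂ := b.elim j.1 j.2

end alg

/-! ### jets of the direct image -/

section js

variable {p a : ℕ}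

/-- the relative Jacobian determinant -/
def rj {M : Fb (p + a) p} (e e₁ : Chart (p + a) M.X.X) (e' e₁' : Chart p M.Y.X) (x : M.X.X) : ℂ :=
  (jacM e e₁ x).det / (jacM e' e₁' (M.f x)).det

/-- **jet systems**: the values and the relative Wronskians of local frames of the direct image -/
structure JS (M : Fb (p + a) p) (m ρ : ℕ) where
  ι : Type
  U : ι → Set M.Y.X
  ch : ι → Chart p M.Y.X
  T : ι → ι → M.Y.X → Mt ρ
  j : ι → Chart (p + a) M.X.X → M.X.X → Jt ρ a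
  Q : Set M.Y.X
  opn : ∀ i, IsOpen (U i)
  atc : ∀ i, ∀ y ∈ U i, At (ch i) y
  cov : ∀ y e', At e' y → ∃ i, y ∈ U i ∧ ch i = e'
  thin : Thin p Q
  reg : ∀ y ∉ Q, RegAt (p + a) p M.f M.G y
  conn : ∀ y ∉ Q, IsConnected (M.f ⁻¹' {y})
  klt : ∀ l, M.δ l = 1 → ∀ x ∈ M.G l, M.f x ∈ Q
  detT : ∀ i i', ∀ y ∈ U i, y ∈ U i' → (T i i' y).det ≠ 0
  law : ∀ i i' e e₁ x, M.f x ∈ U i → M.f x ∈ U i' → At e x → At e₁ x → x ∈ off M.G →
    j i e x = sc m (rj e e₁ (ch i) (ch i') x) (act (T i i' (M.f x)) (j i' e₁ x))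
  self : ∀ i, ∀ y ∈ U i, T i i y = 1
  hol : ∀ i e x, M.f x ∈ U i → At e x → x ∈ off M.G → AnV (p + a) (j i e) x
  mer : ∀ i e x (ζ : M.κ → M.X.X → ℂ), M.f x ∈ U i → At e x →
    (∀ l, LEq (p + a) (M.G l) x (ζ l)) → ∃ j', AnV (p + a) j' x ∧
      ∀ᶠ x' in 𝓝 x, x' ∈ off M.G → j' x' = sc m (∏ l, ζ l x') (j i e x')
  bd : ∀ i e x (ζ : M.κ → M.X.X → ℂ), M.f x ∈ U i → At e x →
    (∀ l, LEq (p + a) (M.G l) x (ζ l)) → ∃ K : ℝ, ∀ᶠ x' in 𝓝 x, x' ∈ off M.G →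
      ‖sc m ((∏ l, ‖ζ l x'‖ ^ (M.δ l : ℝ) : ℝ) : ℂ) (j i e x')‖ ≤ K
  der : ∀ i e x, M.f x ∈ U i → M.f x ∉ Q → At e x → x ∈ off M.G →
    ∃ (ξ : Fin a → Cm (p + a)) (c : ℂ), c ≠ 0 ∧ LinearIndependent ℂ ξ ∧
      (∀ v, df M.f e (ch i) x v = 0 ↔ v ∈ Submodule.span ℂ (range ξ)) ∧
      (∀ w : Fin a → M.X.X → ℂ, (∀ k, Hol (p + a) (w k) x) →
        jdw w e (ch i) x = c * (Matrix.of fun k l => dd (w k) e x (ξ l)).det) ∧
      (j i e x).2 = c • pl (Fin.cons (j i e x).1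
        fun l => (fderiv ℂ (fun z => j i e (e.symm z)) (e x) (ξ l)).1)
  ind : ∀ i, ∀ y ∈ U i, y ∉ Q → ∀ c : Cm ρ,
    (∀ e x, M.f x = y → At e x → x ∈ off M.G → c ⬝ᵥ (j i e x).1 = 0) → c = 0
  span : ∀ i, ∀ y ∈ U i, y ∉ Q → ∀ (d : ℕ) (F : Mf d) (u : F.X → M.X.X),
    Emb d (p + a) u (M.f ⁻¹' {y}) → ∀ t, SecP d (p + a) u univ
      (pull u ((Bd.can (p + a) M.X.X).pow m)) M.G (fun l => m * M.δ l) t →
      ∃ c : Cm ρ, ∀ x e, u x ∈ off M.G → At e (u x) → t e x = c ⬝ᵥ (j i e (u x)).1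

variable {M : Fb (p + a) p} {m ρ n : ℕ}

/-- the preferred chart -/
abbrev cx (x : M.X.X) : Chart (p + a) M.X.X := chartAt (Cm (p + a)) x

/-- `F` is, near `q`, an analytic function of `h` on the fibre power -/
def Rep {E E' : Type} [NormedAddCommGroup E] [NormedSpace ℂ E] [NormedAddCommGroup E']
    [NormedSpace ℂ E'] (h : Pt M n → E) (F : Pt M n → E') (q : Pt M n) : Prop :=
  ∃ F' : E → E', AnalyticAt ℂ F' (h q) ∧ ∀ᶠ q' in 𝓝[{q | Fp q}] q, F q' = F' (h q')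

namespace JS

variable (R : JS M m ρ)

/-- the preferred frame -/
def fr (y : M.Y.X) : R.ι := (R.cov y _ (P277Z.at_chart y)).choose

theorem fr_mem (y : M.Y.X) : y ∈ R.U (R.fr y) := (R.cov y _ (P277Z.at_chart y)).choose_spec.1

/-- the jets of a point of the fibre power in the frame `i` -/
def Ji (i : R.ι) (q : Pt M n) : Fin n → Jt ρ a := fun k => R.j i (cx (q.2 k)) (q.2 k)

/-- the jets of a point of the fibre power -/
def Jq (q : Pt M n) : Fin n → Jt ρ a := R.Ji (R.fr q.1) q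

/-- the jet of a point -/
def J (x : M.X.X) : Jt ρ a := R.j (R.fr (M.f x)) (cx x) x

/-- the derivative of the jets -/
def Dj (i : R.ι) (e : Chart (p + a) M.X.X) (x : M.X.X) : Cm (p + a) →L[ℂ] Jt ρ a :=
  fderiv ℂ (fun z => R.j i e (e.symm z)) (e x)

/-- vertical tangent vectors -/
def Vt (x : M.X.X) (ξ : Cm (p + a)) : Prop := df M.f (cx x) (R.ch (R.fr (M.f x))) x ξ = 0

/-- the points of the fibre power where the jets are holomorphic -/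
def Nc (n : ℕ) : Set (Pt M n) := {q | Fp q ∧ q.1 ∉ R.Q ∧ ∀ k, q.2 k ∈ off M.G}

/-- the functions `U` of the jets are an immersion along the fibre at `q` -/
def Et {ι : Type} (U : ι → (Fin n → Jt ρ a) → ℂ) (q : Pt M n) : Prop :=
  ∀ ξ : Fin n → Cm (p + a), (∀ k, R.Vt (q.2 k) (ξ k)) → (∀ b, fderiv ℂ (U b) (R.Jq q)
    (fun k => R.Dj (R.fr q.1) (cx (q.2 k)) (q.2 k) (ξ k)) = 0) → ξ = 0

/-- `X` is tangent to the cone over the fibre at `x` -/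
def CC (X : Mt ρ) (x : M.X.X) : Prop := ∃ (ξ : Cm (p + a)) (c : ℂ), R.Vt x ξ ∧
  R.Dj (R.fr (M.f x)) (cx x) x ξ + inf X (R.J x) = c • eu m (R.J x)

/-- the points of the fibre over `y` where the frame `g` gives coordinates -/
def Gd (J₀ : Fin (a + 1) → Fin ρ) (y : M.Y.X) (g : Mt ρ) : Set M.X.X :=
  {x | M.f x = y ∧ x ∈ off M.G ∧ gd J₀ (act g (R.J x))}

/-- the integral of a section over the fibre, in the coordinates given by `g` -/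
def In (J₀ : Fin (a + 1) → Fin ρ) (y : M.Y.X) (g : Mt ρ) (α : Fin ρ) : ℝ≥0∞ :=
  ∫⁻ o : Cm a, ∑' x : {x // x ∈ R.Gd J₀ y g ∧ wc J₀ (act g (R.J x)) = o},
    ‖(nrm J₀ m (act g (R.J x.1))).1 α‖ₑ ^ (2 / m : ℝ)

/-- invariants which are coordinates along the fibres at some point -/
structure Inv {ι : Type} [Fintype ι] (O : Set (Fin n → Jt ρ a))
    (U : ι → (Fin n → Jt ρ a) → ℂ) : Prop where
  card : Fintype.card ι = n * a
  op : Op m O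
  iv : ∀ b, IV m O (U b)
  ex : ∃ q ∈ R.Nc n, R.Jq q ∈ O ∧ R.Et U q

/-- the functions `z` of the base are quotients of semi-invariants -/
structure Zq (Q : Set M.Y.X) {v : ℕ} (z : Fin v → M.Y.X → ℂ) (c : ℕ) (d : Fin n → ℕ)
    (B : Fin (v + 1) → (Fin n → Jt ρ a) → ℂ) : Prop where
  si : ∀ j, SI m c d (B j)
  mr : ∀ j, Mr p Q (z j)
  rel : ∀ j, ∀ q ∈ R.Nc n, q.1 ∉ Q → B j.succ (R.Jq q) = z j q.1 * B 0 (R.Jq q)
  ne : ∃ q ∈ R.Nc n, B 0 (R.Jq q) ≠ 0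

/-- **multisections** -/
structure MS {ι : Type} (O : Set (Fin n → Jt ρ a)) (U : ι → (Fin n → Jt ρ a) → ℂ) where
  Q : Set M.Y.X
  e : ℕ
  c : ι → ℂ
  σ : M.Y.X → Fin e → Pt M n
  thin : Thin p Q
  sub : R.Q ⊆ Q
  pos : 0 < e
  mem : ∀ y ∉ Q, ∀ k, σ y k ∈ R.Nc n ∧ (σ y k).1 = y ∧ R.Jq (σ y k) ∈ O ∧ R.Et U (σ y k)
  loc : ∀ y ∉ Q, ∃ τ : Fin e → M.Y.X → Pt M n, (∀ k, Tm p (τ k) y) ∧ ∀ᶠ y' in 𝓝 y,
    (∀ k, (τ k y').1 = y' ∧ ∀ b, U b (R.Jq (τ k y')) = c b) ∧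
      ∃ π : Equiv.Perm (Fin e), ∀ k, σ y' k = τ (π k) y'
  mer : ∀ i, ∀ y ∈ R.U i, ∀ H, HV m O H → Mer p (fun y' => ∏ k, H (R.Ji i (σ y' k))) y

/-- **flat multiframes** -/
structure GS (J₀ : Fin (a + 1) → Fin ρ) {v : ℕ} (z : Fin v → M.Y.X → ℂ) where
  Q : Set M.Y.X
  e : ℕ
  g : R.ι → M.Y.X → Fin e → Mt ρ
  thin : Thin p Q
  sub : R.Q ⊆ Q
  pos : 0 < e
  det : ∀ i, ∀ y ∈ R.U i, y ∉ Q → ∀ k, (g i y k).det ≠ 0
  law : ∀ i i', ∀ y ∈ R.U i, y ∈ R.U i' → y ∉ Q → ∀ k, g i y k * R.T i i' y = g i' y k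
  ex : ∀ i, ∀ y ∈ R.U i, y ∉ Q → ∀ k, ∃ x, M.f x = y ∧ x ∈ off M.G ∧
    gd J₀ (act (g i y k) (R.j i (cx x) x))
  mer : ∀ i, ∀ y ∈ R.U i, ∀ Ψ : MvPolynomial (Fin ρ × Fin ρ) ℂ,
    Mer p (fun y' => ∏ k, MvPolynomial.eval (fun b => g i y' k b.1 b.2) Ψ) y
  loc : ∀ i, ∀ y ∈ R.U i, y ∉ Q → ∃ h : Fin e → M.Y.X → Mt ρ,
    (∀ k α β, Hol p (fun y' => h k y' α β) y) ∧
    (∀ᶠ y' in 𝓝 y, ∃ π : Equiv.Perm (Fin e), ∀ k, g i y' k = h (π k) y') ∧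
    ∀ x c, M.f x = y → x ∈ off M.G → At c x → (∀ k, gd J₀ (act (h k y) (R.j i c x))) →
      ∀ k k', ∃ F : Cm v × Cm a → Jt ρ a,
        AnalyticAt ℂ F (fun j => z j y, wc J₀ (act (h k y) (R.j i c x))) ∧ ∀ᶠ x' in 𝓝 x,
          nrm J₀ m (act (h k' (M.f x')) (R.j i c x')) =
            F (fun j => z j (M.f x'), wc J₀ (act (h k (M.f x')) (R.j i c x')))

/-- relative forms of degree `κ` with coefficients which are meromorphic on the base -/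
structure PM (Q : Set M.Y.X) (κ : ℕ)
    (A : R.ι → (Fin n → Chart (p + a) M.X.X) → Pt M n → ℂ) : Prop where
  law : ∀ i i' e e₁ q, Fp q → q.1 ∈ R.U i → q.1 ∈ R.U i' → q.1 ∉ Q →
    (∀ k, At (e k) (q.2 k) ∧ At (e₁ k) (q.2 k) ∧ q.2 k ∈ off M.G) →
    A i e q = (∏ k, rj (e k) (e₁ k) (R.ch i) (R.ch i') (q.2 k)) ^ κ * A i' e₁ q
  rep : ∀ i, ∃ (L : ℕ) (b : Fin L → M.Y.X → ℂ) (Φ : Fin L → (Fin n → Jt ρ a) → ℂ),
    (∀ l, SH m (fun _ => κ) (Φ l)) ∧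
    (∀ l, ∀ y ∈ R.U i, Mer p (b l) y ∧ (y ∉ Q → Hol p (b l) y)) ∧
    ∀ e q, A i e q = ∑ l, b l q.1 * Φ l fun k => R.j i (e k) (q.2 k)

/-- the product of the Jacobian determinants of `w` -/
def jq (w : Fin a → M.X.X → ℂ) (q : Pt M n) : ℂ :=
  ∏ k, jdw w (cx (q.2 k)) (R.ch (R.fr q.1)) (q.2 k)

/-- a relative form in the coordinates `w` -/
def gl (w : Fin a → M.X.X → ℂ) (κ : ℕ) (A : R.ι → (Fin n → Chart (p + a) M.X.X) → Pt M n → ℂ)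
    (q : Pt M n) : ℂ := A (R.fr q.1) (fun k => cx (q.2 k)) q / R.jq w q ^ κ

variable {R} {J₀ : Fin (a + 1) → Fin ρ} {v : ℕ} {z : Fin v → M.Y.X → ℂ} (S : R.GS J₀ z)

/-- the forms given by semi-invariants -/
def GS.tf (c : ℕ) (Φ : (Fin n → Jt ρ a) → ℂ) (i : R.ι) (e : Fin n → Chart (p + a) M.X.X)
    (q : Pt M n) : ℂ := (∏ k, (S.g i q.1 k).det) ^ c * Φ fun k => R.j i (e k) (q.2 k)

/-- the norms of sections -/
def GS.nn (c : Cm ρ) (i : R.ι) (e : Fin 1 → Chart (p + a) M.X.X) (q : Pt M 1) : ℂ :=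
  ∏ k, c ⬝ᵥ (S.g i q.1 k *ᵥ (R.j i (e 0) (q.2 0)).1)

/-- the norms of sections, in the preferred frames -/
def GS.N (c : Cm ρ) (x : M.X.X) : ℂ := S.nn c (R.fr (M.f x)) (fun _ => cx x) (dg 1 x)

/-- the coordinates of `C` are quotients of norms -/
structure GS.Wq (cc : Fin (a + 1) → Cm ρ) (C : NS M) : Prop where
  sub : S.Q ⊆ C.Q
  ne : ∀ x ∉ C.S, S.N (cc 0) x ≠ 0
  eq : ∀ x ∉ C.S, ∀ i, C.w i x = S.N (cc i.succ) x / S.N (cc 0) x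

end JS

/-- the product of the determinants of the groups -/
def bP {ρ a : ℕ} (e : ℕ) (j : Fin (e * ρ) → Jt ρ a) : ℂ :=
  ∏ g : Fin e, b0 fun β => j (finProdFinEquiv (g, β))

end js

end Vale.Agent.P281Z.Ga
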