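import Vale.Agent.P281Z.Ga.Sk

/-!
# P281Z, block III, part A: calculus on the space of jets
-/

open scoped Topology Matrix
open Set Filter
open Vale.Agent.P272.K

set_option linter.unusedSectionVars false

noncomputable section

namespace Vale.Agent.P281Z.Ga

namespace Im

/-- finitely many members of a family of subspaces have the same property -/
theorem pick {V ι : Type} [AddCommGroup V] [Module ℂ V] [FiniteDimensional ℂ V] [Nonempty ι]
    (A : ι → Submodule ℂ V) (N : ℕ) : ∀ W : Submodule ℂ V, Module.finrank ℂ W ≤ N →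
      (∀ v ∈ W, (∀ b, v ∈ A b) → v = 0) →
      ∃ s : Fin N → ι, ∀ v ∈ W, (∀ b, v ∈ A (s b)) → v = 0 := by
  induction N with
  | zero =>
    intro W h _
    refine ⟨Fin.elim0, fun v hv _ => ?_⟩
    rwa [Submodule.finrank_eq_zero.1 (Nat.le_zero.1 h)] at hv
  | succ N ih =>
    intro W h1 h2
    by_cases h3 : ∀ v ∈ W, ∀ b, v ∈ A b
    · exact ⟨fun _ => Classical.arbitrary ι, fun v hv _ => h2 v hv (h3 v hv)⟩
    push Not at h3
    obtain ⟨v, hv, b, hb⟩ := h3
    have h4 : W ⊓ A b < W := lt_of_le_of_ne inf_le_left fun e => hb (e.ge hv).2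
    obtain ⟨s, hs⟩ := ih (W ⊓ A b)
      (Nat.le_of_lt_succ ((Submodule.finrank_lt_finrank_of_lt h4).trans_le h1))
      fun v hv => h2 v hv.1
    exact ⟨Fin.cons b s, fun v hv h => hs v ⟨hv, h 0⟩ fun c => h c.succ⟩

variable {ρ a n m : ℕ} {g h : Mt ρ} {j j' : Jt ρ a} {J₀ : Fin (a + 1) → Fin ρ}

/-- `act g` as a linear map -/
def aL (g : Mt ρ) : Jt ρ a →L[ℂ] Jt ρ a := LinearMap.toContinuousLinearMap
  { toFun := act g
    map_add' := fun j j' => Prod.ext (Matrix.mulVec_add g j.1 j'.1)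
      (funext fun J => by simp [act, mul_add, Finset.sum_add_distrib])
    map_smul' := fun c j => Prod.ext (Matrix.mulVec_smul g c j.1)
      (funext fun J => by simp [act, Finset.mul_sum, mul_left_comm]) }

theorem aL_apply (g : Mt ρ) (j : Jt ρ a) : aL g j = act g j := rfl

theorem act_act (g h : Mt ρ) (j : Jt ρ a) : act g (act h j) = act (g * h) j := by
  refine Prod.ext (Matrix.mulVec_mulVec j.1 g h) (funext fun J => ?_)
  simp only [act, Matrix.mul_apply, Finset.prod_univ_sum, Fintype.piFinset_univ, Finset.mul_sum,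
    Finset.sum_mul, Finset.prod_mul_distrib, mul_assoc]
  exact Finset.sum_comm

theorem act_id (j : Jt ρ a) : act 1 j = j := by
  refine Prod.ext (Matrix.one_mulVec _) (funext fun J => ?_)
  have e : ∀ J' : Fin (a + 1) → Fin ρ, (∏ k, (1 : Mt ρ) (J k) (J' k)) = if J = J' then 1 else 0 :=
    fun J' => by simp [Matrix.one_apply, Finset.prod_ite_zero, funext_iff]
  simp [act, e]

theorem act_inv (hg : g.det ≠ 0) (j : Jt ρ a) : act g⁻¹ (act g j) = j := by
  rw [act_act, Matrix.nonsing_inv_mul _ hg.isUnit, act_id]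

theorem act_inj (hg : g.det ≠ 0) (e : act g j = act g j') : j = j' := by
  rw [← act_inv hg j, e, act_inv hg]

theorem snd_of (h : (act g j).2 ≠ 0) : j.2 ≠ 0 := fun e => h (funext fun J => by simp [act, e])

theorem snd_act (hg : g.det ≠ 0) (h : j.2 ≠ 0) : (act g j).2 ≠ 0 :=
  snd_of (g := g⁻¹) (by rwa [act_inv hg])

theorem act_two (g : Mt ρ) (c c' : ℂ) (j : Jt ρ a) :
    act g (c • j.1, c' • j.2) = (c • (act g j).1, c' • (act g j).2) :=
  Prod.ext (Matrix.mulVec_smul g c j.1)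
    (funext fun J => by simp [act, Finset.mul_sum, mul_left_comm])

theorem aL_cd : ContDiff ℂ 1 fun g : Fin ρ → Fin ρ → ℂ => aL (a := a) (Matrix.of g) :=
  contDiff_clm_apply_iff.2 fun j => by
    refine ContDiff.prodMk (contDiff_pi.2 fun α => ?_) (contDiff_pi.2 fun J => ?_)
    · show ContDiff ℂ 1 fun g : Fin ρ → Fin ρ → ℂ => ∑ β, g α β * j.1 β
      fun_prop
    · show ContDiff ℂ 1 fun g : Fin ρ → Fin ρ → ℂ =>
        ∑ J' : Fin (a + 1) → Fin ρ, (∏ k, g (J k) (J' k)) * j.2 J'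
      exact ContDiff.sum fun J' _ => ContDiff.mul (contDiff_prod fun k _ => by fun_prop)
        contDiff_const

/-- the derivative of `act` along curves -/
theorem act_der {G : ℂ → Fin ρ → Fin ρ → ℂ} {dg : Fin ρ → Fin ρ → ℂ} {u : ℂ → Jt ρ a}
    {du : Jt ρ a} (hG : HasDerivAt G dg 0) (h0 : Matrix.of (G 0) = g) (hg : g.det ≠ 0)
    (hu : HasDerivAt u du 0) : HasDerivAt (fun t => act (Matrix.of (G t)) (u t))
      (act g (du + inf (g⁻¹ * Matrix.of dg) (u 0))) 0 := by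
  have h1 : HasDerivAt (fun t => Matrix.of.symm (g⁻¹ * Matrix.of (G t)))
      (Matrix.of.symm (g⁻¹ * Matrix.of dg)) 0 :=
    hasDerivAt_pi.2 fun α => hasDerivAt_pi.2 fun β => HasDerivAt.fun_sum (u := Finset.univ)
      fun γ _ => (hasDerivAt_pi.1 (hasDerivAt_pi.1 hG γ) β).const_mul (g⁻¹ α γ)
  have h2 : g⁻¹ * Matrix.of (G 0) = 1 := by rw [h0, Matrix.nonsing_inv_mul _ hg.isUnit]
  have h3 := ((aL_cd (ρ := ρ) (a := a)).differentiable one_ne_zero
    (Matrix.of.symm 1)).hasFDerivAt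
  have h4 := (aL g).hasFDerivAt.comp_hasDerivAt (0 : ℂ)
    ((h3.comp_hasDerivAt_of_eq (0 : ℂ) h1 (by rw [h2])).clm_apply hu)
  have h5 : ∀ X, inf X (u 0) = fderiv ℂ (fun g : Fin ρ → Fin ρ → ℂ => aL (a := a) (Matrix.of g))
      (Matrix.of.symm 1) (Matrix.of.symm X) (u 0) := fun X => by
    have := (h3.clm_apply (hasFDerivAt_const (u 0) _)).fderiv
    simp only [aL_apply] at this
    rw [inf, this]
    simp
  rw [h5, add_comm du]
  refine (h4.congr_deriv ?_).congr_of_eventuallyEq (.of_forall fun t => ?_)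
  · simp only [Function.comp, Equiv.apply_symm_apply, h2, aL_apply, act_id]
  · simp only [Function.comp, Equiv.apply_symm_apply, aL_apply, act_act]
    rw [Matrix.mul_nonsing_inv_cancel_left _ _ hg.isUnit]

theorem pow_der {E : Type} [NormedAddCommGroup E] [NormedSpace ℂ E] {v : ℂ → E} {dv : E}
    {k : ℂ → ℂ} {k' : ℂ} {r : ℕ} (hv : HasDerivAt v dv 0) (hk : HasDerivAt k k' 0) (h0 : k 0 ≠ 0)
    (h : HasDerivAt (fun t => k t ^ r • v t) 0 0) : dv = (-(k' / k 0)) • (r : ℂ) • v 0 := by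
  have h1 := ((hk.fun_pow r).fun_smul hv).unique h
  refine smul_right_injective E (pow_ne_zero r h0) ?_
  simp only [eq_neg_of_add_eq_zero_left h1, smul_smul, ← neg_smul]
  refine congrArg (· • v 0) ?_
  cases r with
  | zero => simp
  | succ r =>
    simp only [Nat.add_sub_cancel, pow_succ]
    field_simp

/-- the kernel of the derivative of `nrm` -/
theorem nrm_der {u : ℂ → Jt ρ a} {du : Jt ρ a} (hu : HasDerivAt u du 0) (h0 : gd J₀ (u 0))
    (h : ∀ c, HasDerivAt (fun t => crd c (nrm J₀ m (u t))) 0 0) :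
    ∃ c : ℂ, du = c • eu m (u 0) := by
  have h1 : HasDerivAt (fun t => (u t).1) du.1 0 :=
    (ContinuousLinearMap.fst ℂ (Cm ρ) ((Fin (a + 1) → Fin ρ) → ℂ)).hasFDerivAt.comp_hasDerivAt
      (0 : ℂ) hu
  have h2 : HasDerivAt (fun t => (u t).2) du.2 0 :=
    (ContinuousLinearMap.snd ℂ (Cm ρ) ((Fin (a + 1) → Fin ρ) → ℂ)).hasFDerivAt.comp_hasDerivAt
      (0 : ℂ) hu
  have h3 : kap J₀ (u 0) ≠ 0 := div_ne_zero h0.2 (pow_ne_zero _ h0.1)
  obtain ⟨k', h4⟩ : ∃ k', HasDerivAt (fun t => (kap J₀ (u t))⁻¹) k' 0 :=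
    ⟨_, ((hasDerivAt_pi.1 h2 J₀).fun_div ((hasDerivAt_pi.1 h1 (J₀ 0)).fun_pow (a + 1))
      (pow_ne_zero _ h0.1)).fun_inv h3⟩
  have h5 : HasDerivAt (fun t => (kap J₀ (u t))⁻¹ ^ m • (u t).1) 0 0 :=
    hasDerivAt_pi.2 fun α => h (.inl α)
  have h6 : HasDerivAt (fun t => (kap J₀ (u t))⁻¹ ^ ((a + 1) * m + 1) • (u t).2) 0 0 :=
    hasDerivAt_pi.2 fun J => h (.inr J)
  have h7 := pow_der h1 h4 (inv_ne_zero h3) h5
  have h8 := pow_der h2 h4 (inv_ne_zero h3) h6
  refine ⟨-(k' / (kap J₀ (u 0))⁻¹), Prod.ext ?_ ?_⟩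
  · exact h7
  · exact h8

theorem an_crd (A : Mt ρ) (c : Fin ρ ⊕ (Fin (a + 1) → Fin ρ)) (k : Fin n) (j : Fin n → Jt ρ a) :
    AnalyticAt ℂ (fun j : Fin n → Jt ρ a => crd c (act A (j k))) j := by
  have h := ((aL (a := a) A).comp (ContinuousLinearMap.proj (φ := fun _ : Fin n => Jt ρ a) k)
    ).analyticAt j
  cases c with
  | inl α => exact analyticAt_pi_iff.1 (analyticAt_fst.comp h) α
  | inr J => exact analyticAt_pi_iff.1 (analyticAt_snd.comp h) J

theorem sh_crd (A : Mt ρ) (c : Fin ρ ⊕ (Fin (a + 1) → Fin ρ)) (k : Fin n) :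
    ∃ d, SH m d fun j : Fin n → Jt ρ a => crd c (act A (j k)) := by
  refine ⟨fun k' => if k' = k then c.elim (fun _ => m) fun _ => (a + 1) * m + 1 else 0,
    an_crd A c k, fun l j => ?_⟩
  simp only [sc, act_two]
  cases c <;> simp [crd, pow_ite]

theorem sh_b0 : SH m (fun _ => m) (b0 (ρ := ρ) (a := a)) := by
  refine ⟨fun j => ?_, fun l j => Matrix.det_mul_row _ (Matrix.of fun α β => (j β).1 α)⟩
  unfold b0
  simp only [Matrix.det_apply']
  refine Finset.analyticAt_fun_sum _ fun σ _ => analyticAt_const.mul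
    (Finset.analyticAt_fun_prod _ fun k _ => ?_)
  have h := an_crd 1 (.inl (σ k)) k j
  simp only [act_id] at h
  exact h

variable {O : Set (Fin n → Jt ρ a)}

theorem op_open (h : Op m O) : IsOpen O := by
  obtain ⟨c, d, D, h1, h2⟩ := h
  exact isOpen_iff_mem_nhds.2 fun j hj =>
    ((h1.an j).continuousAt.eventually_ne ((h2 j).1 hj)).mono fun j' => (h2 j').2

theorem op_all {K : Type} [Fintype K] {O : K → Set (Fin n → Jt ρ a)} (h : ∀ k, Op m (O k)) :
    Op m (⋂ k, O k) := by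
  choose c d D h1 h2 using h
  refine ⟨∑ k, c k, fun l => ∑ k, d k l, fun j => ∏ k, D k j,
    ⟨⟨fun j => Finset.analyticAt_fun_prod _ fun k _ => (h1 k).an j, fun l j => ?_⟩, fun g j => ?_⟩,
    fun j => by simp [h2, Finset.prod_ne_zero_iff]⟩
  · simp only [fun k => (h1 k).sc l j, Finset.prod_mul_distrib, ← Finset.prod_pow_eq_pow_sum]
    rw [Finset.prod_comm]
  · simp only [fun k => (h1 k).act g j, Finset.prod_mul_distrib, Finset.prod_pow_eq_pow_sum]

theorem dif_quo {N E U : (Fin n → Jt ρ a) → ℂ} (hO : Op m O) (hN : ∀ j, AnalyticAt ℂ N j)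
    (hE : ∀ j, AnalyticAt ℂ E j) (h : ∀ j ∈ O, E j ≠ 0 ∧ U j = N j / E j) {j : Fin n → Jt ρ a}
    (hj : j ∈ O) : DifferentiableAt ℂ U j :=
  ((hN j).fun_div (hE j) (h j hj).1).differentiableAt.congr_of_eventuallyEq
    (Eventually.mono ((op_open hO).mem_nhds hj) fun j' k => (h j' k).2)

end Im

end Vale.Agent.P281Z.Ga
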