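import Vale.Agent.P281Z.Ga.ImA

/-!
# P281Z, block III, part A: invariants which are coordinates along the fibres
-/

open scoped Topology Matrix
open Set Filter
open Vale.Agent.P272.K
open Vale.Agent.P277Z (at_chart)

set_option linter.unusedSectionVars false

noncomputable section

namespace Vale.Agent.P281Z.Ga

open Gt

namespace Im

section alg

variable {ρ a m : ℕ} {J₀ : Fin (a + 1) → Fin ρ} {b : Fin (ρ + 1) → Jt ρ a}

theorem inf_add (X Y : Mt ρ) (j : Jt ρ a) : inf (X + Y) j = inf X j + inf Y j :=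
  map_add (fderiv ℂ (fun g : Fin ρ → Fin ρ → ℂ => act (Matrix.of g) j) (Matrix.of.symm 1))
    (Matrix.of.symm X) (Matrix.of.symm Y)

theorem inf_smul (c : ℂ) (X : Mt ρ) (j : Jt ρ a) : inf (c • X) j = c • inf X j :=
  map_smul (fderiv ℂ (fun g : Fin ρ → Fin ρ → ℂ => act (Matrix.of g) j) (Matrix.of.symm 1)) c
    (Matrix.of.symm X)

theorem inf_zero (j : Jt ρ a) : inf 0 j = 0 :=
  map_zero (fderiv ℂ (fun g : Fin ρ → Fin ρ → ℂ => act (Matrix.of g) j) (Matrix.of.symm 1))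

variable (J₀ m b) in
/-- the logarithmic derivative of the frame -/
def XL : (Fin (ρ + 1) → Jt ρ a) →ₗ[ℂ] Mt ρ :=
  LinearMap.mulLeft ℂ (gm J₀ m b)⁻¹ ∘ₗ (Matrix.ofLinearEquiv ℂ).toLinearMap ∘ₗ
    (fderiv ℂ (fun b α β => gm J₀ m b α β) b).toLinearMap

theorem frm_der (hF : FRM) (hb : b ∈ O1 J₀) (db : Fin (ρ + 1) → Jt ρ a) (j dj : Jt ρ a) :
    HasDerivAt (fun t : ℂ => act (gm J₀ m (b + t • db)) (j + t • dj))
      (act (gm J₀ m b) (dj + inf (XL m J₀ b db) j)) 0 := by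
  obtain ⟨f1, f2, -, f4, -⟩ := hF ρ a m J₀
  have hg : DifferentiableAt ℂ (fun b α β => gm J₀ m b α β) b :=
    differentiableAt_pi.2 fun α => differentiableAt_pi.2 fun β =>
      let ⟨_, _, _, hN, hE, h⟩ := f2 α β
      dif_quo f1 hN.an hE.an h hb
  have h1 : HasDerivAt (fun t : ℂ => j + t • dj) dj 0 := by
    simpa using ((hasDerivAt_id' (0 : ℂ)).smul_const dj).const_add j
  have h2 := act_der (G := fun t α β => gm J₀ m (b + t • db) α β) (g := gm J₀ m b)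
    (hg.hasFDerivAt.hasLineDerivAt db) (by rw [zero_smul, add_zero]; rfl) (f4 b hb).1 h1
  rw [zero_smul, add_zero] at h2
  exact h2

theorem frm_line (hF : FRM) (l : Fin (ρ + 1)) : ∃ (w : Cm ρ) (α : Fin ρ), ∀ b ∈ O1 J₀,
    gm J₀ m b *ᵥ (b l).1 = (gm J₀ m b *ᵥ (b l).1) α • w ∧ (gm J₀ m b *ᵥ (b l).1) α ≠ 0 := by
  obtain ⟨-, -, -, f4, -⟩ := hF ρ a m J₀
  induction l using Fin.lastCases with
  | last => exact ⟨1, J₀ 0, fun b hb => ⟨funext fun α => by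
      simpa using (f4 b hb).2.2.2 α (J₀ 0), (f4 b hb).2.1.1⟩⟩
  | cast k =>
    refine ⟨Pi.single k 1, k, fun b hb => ?_⟩
    have h1 : gm J₀ m b *ᵥ (b k.castSucc).1 =
        (gm J₀ m b *ᵥ (b k.castSucc).1) k • (Pi.single k 1 : Cm ρ) := funext fun α => by
      by_cases e : α = k
      · simp [e]
      · simp [e, (f4 b hb).2.2.1 k α e]
    refine ⟨h1, fun h0 => hb.1 (Matrix.det_eq_zero_of_column_eq_zero k fun α => ?_)⟩
    rw [h0, zero_smul] at h1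
    exact congrFun (Matrix.eq_zero_of_mulVec_eq_zero (f4 b hb).1 h1) α

theorem par (hF : FRM) (hb : b ∈ O1 J₀) {db : Fin (ρ + 1) → Jt ρ a} (h : XL m J₀ b db = 0)
    (l : Fin (ρ + 1)) : ∃ κ : ℂ, (db l).1 = κ • (b l).1 := by
  obtain ⟨w, α, hw⟩ := frm_line (J₀ := J₀) (m := m) hF l
  obtain ⟨f1, -, -, f4, -⟩ := hF ρ a m J₀
  have h1 := frm_der (m := m) hF hb db (b l) (db l)
  rw [h, inf_zero, add_zero] at h1
  have h2 : HasDerivAt (fun t : ℂ => gm J₀ m (b + t • db) *ᵥ ((b + t • db) l).1)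
      (gm J₀ m b *ᵥ (db l).1) 0 :=
    (ContinuousLinearMap.fst ℂ (Cm ρ) ((Fin (a + 1) → Fin ρ) → ℂ)).hasFDerivAt.comp_hasDerivAt
      (0 : ℂ) h1
  have h3 : ∀ᶠ t : ℂ in 𝓝 0, b + t • db ∈ O1 J₀ :=
    (show ContinuousAt (fun t : ℂ => b + t • db) 0 by fun_prop).eventually
      ((op_open f1).mem_nhds (by simpa using hb))
  have h4 := h2.unique (((hasDerivAt_pi.1 h2 α).smul_const w).congr_of_eventuallyEq
    (h3.mono fun t k => (hw _ k).1))
  obtain ⟨h5, h6⟩ := hw b hb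
  refine ⟨(gm J₀ m b *ᵥ (db l).1) α / (gm J₀ m b *ᵥ (b l).1) α,
    sub_eq_zero.1 (Matrix.eq_zero_of_mulVec_eq_zero (f4 b hb).1 ?_)⟩
  rw [Matrix.mulVec_sub, Matrix.mulVec_smul, sub_eq_zero]
  refine h4.trans (Eq.trans ?_ (congrArg _ h5.symm))
  rw [smul_smul, div_mul_cancel₀ _ h6]

end alg

variable {p a m ρ n : ℕ} {M : Fb (p + a) p} {R : JS M m ρ} {J₀ : Fin (a + 1) → Fin ρ}
  {x : M.X.X} {y : M.Y.X} {xs : Fin n → M.X.X}

variable (R xs) in
/-- vertical tangent vectors -/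
def VW : Submodule ℂ (Fin n → Cm (p + a)) := Submodule.pi univ fun k =>
  LinearMap.ker (df M.f (cx (xs k)) (R.ch (R.fr (M.f (xs k)))) (xs k)).toLinearMap

theorem mem_VW {ξ : Fin n → Cm (p + a)} : ξ ∈ VW R xs ↔ ∀ k, R.Vt (xs k) (ξ k) :=
  ⟨fun h k => h k trivial, fun h k _ => h k⟩

variable (R xs) in
/-- the derivative of the jets -/
def DL : (Fin n → Cm (p + a)) →ₗ[ℂ] Fin n → Jt ρ a := LinearMap.pi fun k =>
  (R.Dj (R.fr (M.f (xs k))) (cx (xs k)) (xs k)).toLinearMap ∘ₗ LinearMap.proj k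

variable (R x) in
/-- the matrices which are tangent to the cone -/
def CS : Submodule ℂ (Mt ρ) where
  carrier := {X | R.CC X x}
  zero_mem' := ⟨0, 0, map_zero _, by rw [map_zero, inf_zero, zero_smul, add_zero]⟩
  add_mem' := fun ⟨ξ, c, h1, h2⟩ ⟨ξ', c', h3, h4⟩ => ⟨ξ + ξ', c + c',
    (map_add _ _ _).trans (by rw [h1, h3, add_zero]),
    by rw [map_add, inf_add, add_add_add_comm, h2, h4, add_smul]⟩
  smul_mem' := fun r _ ⟨ξ, c, h1, h2⟩ => ⟨r • ξ, r * c,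
    (map_smul _ _ _).trans (by rw [h1, smul_zero]),
    by rw [map_smul, inf_smul, ← smul_add, h2, mul_smul]⟩

theorem ji_eq (h : ∀ k, M.f (xs k) = y) : R.Ji (R.fr y) (y, xs) = fun k => R.J (xs k) :=
  funext fun k => by rw [← h k]; rfl

theorem der1 (hD : DER) (hS : Std M m) (hQ : M.f x ∉ R.Q) (hx : x ∈ off M.G) (h : (R.J x).2 ≠ 0)
    {ξ : Cm (p + a)} (hv : R.Vt x ξ) {κ : ℂ}
    (e : (R.Dj (R.fr (M.f x)) (cx x) x ξ).1 = κ • (R.J x).1) : ξ = 0 :=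
  (hD p a m ρ M R hS _ _ x (R.fr_mem _) hQ (at_chart x) hx).1 ξ κ h hv e

theorem rank_VW (hq : (y, xs) ∈ R.Nc n) : Module.finrank ℂ (VW R xs) ≤ n * a := by
  choose β c _ _ h _ using fun k => R.der _ (cx (xs k)) (xs k) (R.fr_mem _)
    (hq.1 k ▸ hq.2.1) (at_chart _) (hq.2.2 k)
  let L : (Fin n → Fin a → ℂ) →ₗ[ℂ] Fin n → Cm (p + a) :=
    LinearMap.pi fun k => Fintype.linearCombination ℂ (β k) ∘ₗ LinearMap.proj k
  have h1 : VW R xs ≤ LinearMap.range L := fun ξ hξ => by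
    choose r hr using fun k =>
      (Submodule.mem_span_range_iff_exists_fun ℂ).1 ((h k _).1 (mem_VW.1 hξ k))
    exact ⟨r, funext hr⟩
  refine (Submodule.finrank_mono h1).trans ((LinearMap.finrank_range_le L).trans ?_)
  simp [Module.finrank_pi_fintype]

/-- base points -/
theorem base (hG : FGEN) (hB : SPB) (hS : Std M m) (hQ : M.f x ∉ R.Q) (hx : x ∈ off M.G)
    (h : (R.J x).2 ≠ 0) : ∃ (J₀ : Fin (a + 1) → Fin ρ) (xb : Fin (ρ + 1) → M.X.X),
      (M.f x, xb) ∈ R.Nc (ρ + 1) ∧ (∀ l, (R.J (xb l)).2 ≠ 0) ∧ (fun l => R.J (xb l)) ∈ O1 J₀ := by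
  have hg : ∀ (n : ℕ) (Φ : Option (Fin ρ) → (Fin n → Jt ρ a) → ℂ), (∀ l, ∃ d, SH m d (Φ l)) →
      (∀ l, ∃ z, (M.f x, z) ∈ R.Nc n ∧ Φ l (fun k => R.J (z k)) ≠ 0) →
      ∃ z, (M.f x, z) ∈ R.Nc n ∧ ∀ l, Φ l (fun k => R.J (z k)) ≠ 0 := fun n Φ h1 h2 => by
    choose d hd using h1
    obtain ⟨z, k1, -, k2⟩ := (hG p a m ρ M R hS n _ _ ∅ _ d Φ (R.fr_mem _) hQ isClosed_empty
      (fun z hz => subset_closure ⟨hz, notMem_empty _⟩) hd
      (fun l => (h2 l).imp fun z k => ⟨k.1, by rw [ji_eq k.1.1]; exact k.2⟩) (fun _ => x)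
      fun _ => rfl).exists
    exact ⟨z, k1, fun l => by rw [← ji_eq k1.1]; exact k2 l⟩
  have hc : ∀ n z, M.f z = M.f x → z ∈ off M.G → (M.f x, fun _ => z) ∈ R.Nc n :=
    fun n z h1 h2 => ⟨fun _ => h1, hQ, fun _ => h2⟩
  obtain ⟨J₁, h1⟩ := Function.ne_iff.1 h
  obtain ⟨z, z1, z2⟩ := hg ρ (fun l => l.elim b0 fun k j => crd (.inr J₁) (act 1 (j k)))
    (fun l => l.rec ⟨_, sh_b0⟩ fun k => sh_crd _ _ k) fun l => l.rec
      ((hB p a m ρ M R hS _ _ (R.fr_mem _) hQ).imp fun z k =>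
        ⟨k.1, by rw [← ji_eq k.1.1]; exact k.2⟩)
      fun k => ⟨fun _ => x, hc _ x rfl hx, by simp only [Option.elim, act_id]; exact h1⟩
  set A : Mt ρ := Matrix.of fun α β => (R.J (z β)).1 α
  have hA : A.det ≠ 0 := z2 none
  obtain ⟨J₀, h2⟩ := Function.ne_iff.1 (snd_act (g := A.adjugate)
    (by rw [Matrix.det_adjugate]; exact pow_ne_zero _ hA) h)
  obtain ⟨u, u1, u2⟩ := hg 1 (fun l j => crd (l.elim (.inr J₀) .inl) (act A.adjugate (j 0)))
    (fun l => sh_crd _ _ 0) fun l => l.rec ⟨fun _ => x, hc _ x rfl hx, h2⟩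
      fun k => ⟨fun _ => z k, hc _ _ (z1.1 k) (z1.2.2 k), by
        change (A.adjugate * A) k k ≠ 0
        simpa [Matrix.adjugate_mul] using hA⟩
  have e : bm (fun l => R.J ((Fin.snoc z (u 0) : Fin (ρ + 1) → M.X.X) l)) = A := by
    simp only [bm, Fin.snoc_castSucc, A]
  refine ⟨J₀, Fin.snoc z (u 0), ⟨fun l => ?_, hQ, fun l => ?_⟩, fun l => ?_, ?_⟩
  · induction l using Fin.lastCases with
    | last => simpa using u1.1 0
    | cast k => simpa using z1.1 k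
  · induction l using Fin.lastCases with
    | last => simpa using u1.2.2 0
    | cast k => simpa using z1.2.2 k
  · induction l using Fin.lastCases with
    | last => simpa using snd_of (Function.ne_iff.2 ⟨J₀, u2 none⟩)
    | cast k => simpa using snd_of (Function.ne_iff.2 ⟨J₁, z2 (some k)⟩)
  · refine ⟨e ▸ hA, fun k => ?_, ?_⟩
    · simp only [e, Fin.snoc_last]
      exact u2 (some k)
    · simp only [e, Fin.snoc_last]
      exact u2 none

theorem final (hF : FRM) (hD : DER) (hS : Std M m) {bs : Fin (ρ + 1) → Fin n}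
    (hq : (y, xs) ∈ R.Nc n) {xb : Fin (ρ + 1) → M.X.X} (e : ∀ l, xs (bs l) = xb l)
    (hb : (fun l => R.J (xb l)) ∈ O1 J₀)
    (H : ∀ η ∈ VW R xb, (∀ k, gd J₀ (act (gm J₀ m fun l => R.J (xb l)) (R.J (xs k))) →
      R.CC (XL m J₀ (fun l => R.J (xb l)) (DL R xb η)) (xs k)) → η = 0)
    (H' : ∀ k, (∃ l, k = bs l) ∨ gd J₀ (act (gm J₀ m fun l => R.J (xb l)) (R.J (xs k)))) :
    ∃ (O : Set (Fin n → Jt ρ a)) (U : Fin (n * a) → (Fin n → Jt ρ a) → ℂ),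
      R.Inv O U ∧ ∀ j ∈ O, (fun l => j (bs l)) ∈ O1 J₀ := by
  classical
  obtain rfl : xb = fun l => xs (bs l) := funext fun l => (e l).symm
  obtain ⟨-, -, -, f4, f5⟩ := hF ρ a m J₀
  let K := {k : Fin n // gd J₀ (fj J₀ m bs k fun k => R.J (xs k))}
  let k₀ : K := ⟨bs (Fin.last ρ), (f4 _ hb).2.1⟩
  let U : K × (Fin ρ ⊕ (Fin (a + 1) → Fin ρ)) → (Fin n → Jt ρ a) → ℂ :=
    fun c j => crd c.2 (nrm J₀ m (fj J₀ m bs c.1 j))
  have hU : ∀ c, DifferentiableAt ℂ (U c) fun k => R.J (xs k) := fun c =>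
    let ⟨_, _, _, _, hN, hE, h⟩ := (f5 n bs c.1).2.1 c.2
    dif_quo (f5 n bs c.1).1 hN.an hE.an h ⟨hb, c.1.2⟩
  have : Nonempty (K × (Fin ρ ⊕ (Fin (a + 1) → Fin ρ))) := ⟨(k₀, .inr J₀)⟩
  obtain ⟨s, hs⟩ := pick (fun c => (LinearMap.ker
    (fderiv ℂ (U c) fun k => R.J (xs k)).toLinearMap).comap (DL R xs)) (n * a) (VW R xs)
    (rank_VW hq) fun ξ hξ h => by
      have key : ∀ k : K, ∃ c : ℂ, DL R xs ξ k + inf (XL m J₀ (fun l => R.J (xs (bs l)))
          (DL R (fun l => xs (bs l)) fun l => ξ (bs l))) (R.J (xs k)) = c • eu m (R.J (xs k)) :=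
        fun k => by
          obtain ⟨c, hc⟩ := nrm_der (m := m) (J₀ := J₀) (frm_der (m := m) hF hb
            (DL R (fun l => xs (bs l)) fun l => ξ (bs l)) (R.J (xs k)) (DL R xs ξ k))
            (by rw [zero_smul, zero_smul, add_zero, add_zero]; exact k.2) fun c =>
              HasDerivAt.congr_deriv ((hU (k, c)).hasFDerivAt.hasLineDerivAt (DL R xs ξ)) (h (k, c))
          rw [zero_smul, zero_smul, add_zero, add_zero] at hc
          refine ⟨c, act_inj (f4 _ hb).1 (hc.trans ?_)⟩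
          rw [← aL_apply _ (c • _), map_smul, aL_apply, eu, eu, act_two]
      have h0 := H (fun l => ξ (bs l)) (mem_VW.2 fun l => mem_VW.1 hξ (bs l)) fun k hk =>
        let ⟨c, hc⟩ := key ⟨k, hk⟩
        ⟨ξ k, c, mem_VW.1 hξ k, hc⟩
      funext k
      rcases H' k with ⟨l, rfl⟩ | hk
      · exact congrFun h0 l
      · obtain ⟨c, hc⟩ := key ⟨k, hk⟩
        rw [h0, map_zero, map_zero, inf_zero, add_zero] at hc
        exact der1 hD hS (hq.1 k ▸ hq.2.1) (hq.2.2 k) (snd_of (Function.ne_iff.2 ⟨J₀, hk.2⟩))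
          (mem_VW.1 hξ k) ((congrArg Prod.fst hc).trans (smul_smul c m _))
  have hj : R.Jq (y, xs) = fun k => R.J (xs k) := ji_eq hq.1
  refine ⟨⋂ k : K, {j | (fun l => j (bs l)) ∈ O1 J₀ ∧ gd J₀ (fj J₀ m bs k j)}, fun c => U (s c),
    ⟨Fintype.card_fin _, op_all fun k => (f5 n bs k).1, fun c => ?_, (y, xs), hq, ?_,
      fun ξ h1 h2 => hs ξ (mem_VW.2 h1) fun c => ?_⟩, fun j hj => (mem_iInter.1 hj k₀).1⟩
  · obtain ⟨c', d, N, E, hN, hE, h⟩ := (f5 n bs (s c).1).2.1 (s c).2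
    exact ⟨c', d, N, E, hN, hE, fun j hj => h j (mem_iInter.1 hj (s c).1)⟩
  · rw [hj]
    exact mem_iInter.2 fun k => ⟨hb, k.2⟩
  · have h3 := h2 c
    have h4 : (fun k => R.Dj (R.fr y) (cx (xs k)) (xs k) (ξ k)) = DL R xs ξ :=
      funext fun k => by rw [← show M.f (xs k) = y from hq.1 k]; rfl
    rw [hj] at h3
    exact (congrArg _ h4).symm.trans h3

end Im

open Im in
theorem immu_of (h0 : IMM0) (hT : STAB) (hF : FRM) (hG : FGEN) (hB : SPB) (hD : DER) : IMMU := by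
  intro p a m ρ M R hS hM
  obtain ⟨x, hQ, hx, h⟩ := h0 p a m ρ M R hS hM
  obtain ⟨J₀, xb, hq, h1, hb⟩ := base hG hB hS hQ hx h
  have hz : xb (Fin.last ρ) ∈ R.Gd J₀ (M.f x) (gm J₀ m fun l => R.J (xb l)) :=
    ⟨hq.1 _, hq.2.2 _, ((hF ρ a m J₀).2.2.2.1 _ hb).2.1⟩
  have : Nonempty (R.Gd J₀ (M.f x) (gm J₀ m fun l => R.J (xb l))) := ⟨⟨_, hz⟩⟩
  obtain ⟨s, hs⟩ := pick (fun z : R.Gd J₀ (M.f x) (gm J₀ m fun l => R.J (xb l)) =>
    (CS R z.1).comap (XL m J₀ (fun l => R.J (xb l)) ∘ₗ DL R xb)) _ (VW R xb) le_rfl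
    fun η hη k => funext fun l => by
      obtain ⟨κ, hκ⟩ := par hF hb
        (hT p a m ρ M R hS J₀ _ _ _ hQ ⟨_, hz⟩ fun z hz => k ⟨z, hz⟩) l
      exact der1 hD hS (hq.1 l ▸ hQ) (hq.2.2 l) (h1 l) (mem_VW.1 hη l) hκ
  refine ⟨J₀, _, Fin.castAdd _, final (y := M.f x) (xs := Fin.append xb fun j => (s j).1) hF hD hS
    ⟨fun k => ?_, hQ, fun k => ?_⟩ (Fin.append_left _ _) hb
    (fun η hη k => hs η hη fun j => ?_) fun k => ?_⟩
  · induction k using Fin.addCases with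
    | left l => simpa using hq.1 l
    | right j => simpa using (s j).2.1
  · induction k using Fin.addCases with
    | left l => simpa using hq.2.2 l
    | right j => simpa using (s j).2.2.1
  · have := k (Fin.natAdd _ j)
    rw [Fin.append_right] at this
    exact this (s j).2.2.2
  · induction k using Fin.addCases with
    | left l => exact .inl ⟨l, rfl⟩
    | right j => exact .inr (by rw [Fin.append_right]; exact (s j).2.2.2)

end Vale.Agent.P281Z.Ga
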