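import Vale.Agent.P281Z.Ga.Defs

/-!
# P281Z, block III, part A: the statements
-/

open scoped Manifold ContDiff Topology ENNReal Matrix
open Set Filter MeasureTheory
open Vale.Agent.P272.K Vale.Agent.P285.H281.FD
open Vale.Agent.P277Z (Hol Mer Nz gen jd)
open Vale.Agent.P277Z.Slc (Ind LEq Snc ForW dd)

noncomputable section

namespace Vale.Agent.P281Z.Ga

open Gt

/-- for all jet systems -/
def ForJ (P : ∀ (p a m ρ : ℕ) (M : Fb (p + a) p), JS M m ρ → Prop) : Prop :=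
  ∀ p a m ρ M R, Std M m → P p a m ρ M R

/-! ### jets and frames -/

/-- **JSX**: jet systems exist -/
def JSX : Prop := ∀ (p a m ρ : ℕ) (M : Fb (p + a) p), Std M m → SFR M m ρ → Nonempty (JS M m ρ)

/-- **FRM**: the frame defined by `ρ + 1` jets -/
def FRM : Prop := ∀ (ρ a m : ℕ) (J₀ : Fin (a + 1) → Fin ρ),
  Op m (O1 J₀) ∧ (∀ α β, HV m (O1 J₀) fun b => gm J₀ m b α β) ∧
  (∀ b ∈ O1 J₀, ∀ (T : Mt ρ) (l : Fin (ρ + 1) → ℂ), T.det ≠ 0 → (∀ k, l k ≠ 0) →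
    gm J₀ m (fun k => sc m (l k) (act T (b k))) * T = gm J₀ m b) ∧
  (∀ b ∈ O1 J₀, (gm J₀ m b).det ≠ 0 ∧ gd J₀ (act (gm J₀ m b) (b (Fin.last ρ))) ∧
    (∀ k α : Fin ρ, α ≠ k → (gm J₀ m b *ᵥ (b k.castSucc).1) α = 0) ∧
    ∀ α β, (gm J₀ m b *ᵥ (b (Fin.last ρ)).1) α = (gm J₀ m b *ᵥ (b (Fin.last ρ)).1) β) ∧
  ∀ (n : ℕ) (bs : Fin (ρ + 1) → Fin n) (k : Fin n),
    Op m {j | (fun l => j (bs l)) ∈ O1 J₀ ∧ gd J₀ (fj J₀ m bs k j)} ∧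
    (∀ b, IV m {j | (fun l => j (bs l)) ∈ O1 J₀ ∧ gd J₀ (fj J₀ m bs k j)}
      fun j => crd b (nrm J₀ m (fj J₀ m bs k j))) ∧
    ∀ i, IV m {j | (fun l => j (bs l)) ∈ O1 J₀ ∧ gd J₀ (fj J₀ m bs k j)}
      fun j => wc J₀ (fj J₀ m bs k j) i

/-- **TST**: functions of the jets along test maps -/
def TST : Prop := ForJ fun p a m ρ M R => ∀ n, ForW fun k T _ _ =>
  ∀ (γ : T → Pt M n) (t : T), Tm k γ t →
  (∀ i (e : Fin n → Chart (p + a) M.X.X) d (Φ : (Fin n → Jt ρ a) → ℂ), SH m d Φ →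
    (γ t).1 ∈ R.U i → (∀ l, At (e l) ((γ t).2 l)) →
    ((∀ l, (γ t).2 l ∈ off M.G) → Hol k (fun s => Φ fun l => R.j i (e l) ((γ s).2 l)) t) ∧
    ((∃ᶠ s in 𝓝 t, ∀ l, (γ s).2 l ∈ off M.G) →
      Mer k (fun s => Φ fun l => R.j i (e l) ((γ s).2 l)) t)) ∧
  (∀ i O H, Op m O → HV m O H → (γ t).1 ∈ R.U i →
    ((∀ l, (γ t).2 l ∈ off M.G) → R.Ji i (γ t) ∈ O → Hol k (fun s => H (R.Ji i (γ s))) t) ∧
    ((∃ᶠ s in 𝓝 t, (∀ l, (γ s).2 l ∈ off M.G) ∧ R.Ji i (γ s) ∈ O) →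
      Mer k (fun s => H (R.Ji i (γ s))) t)) ∧
  ∀ O U, Op m O → IV m O U →
    ((∀ l, (γ t).2 l ∈ off M.G) → R.Jq (γ t) ∈ O → Hol k (fun s => U (R.Jq (γ s))) t) ∧
    ((∃ᶠ s in 𝓝 t, (∀ l, (γ s).2 l ∈ off M.G) ∧ R.Jq (γ s) ∈ O) →
      Mer k (fun s => U (R.Jq (γ s))) t)

/-- **THZ**: the good points of a model -/
def THZ : Prop := ForJ fun p a m _ M R => ∀ n O (W : Pw M n (p + n * a) R.Q), Op m O →
  (∃ q ∈ R.Nc n, R.Jq q ∈ O) → Thin (p + n * a) {v | ¬ (W.γ v ∈ R.Nc n ∧ R.Jq (W.γ v) ∈ O)}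

/-- **VGEN**: good points exist on the general fibres -/
def VGEN : Prop := ForJ fun p _ m _ _ R => ∀ n O, Op m O → (∃ q ∈ R.Nc n, R.Jq q ∈ O) →
  ∃ Q, Thin p Q ∧ R.Q ⊆ Q ∧ ∀ y ∉ Q, ∃ x, (y, x) ∈ R.Nc n ∧ R.Jq (y, x) ∈ O

/-- **FGEN**: good points are dense in a fibre -/
def FGEN : Prop := ForJ fun _ a m ρ M R => ∀ n i y (S : Set M.X.X) (L : Type) [Finite L]
  (d : L → Fin n → ℕ) (Φ : L → (Fin n → Jt ρ a) → ℂ), y ∈ R.U i → y ∉ R.Q → IsClosed S →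
  (∀ x, M.f x = y → x ∈ closure {x' | M.f x' = y ∧ x' ∉ S}) → (∀ l, SH m (d l) (Φ l)) →
  (∀ l, ∃ x, (y, x) ∈ R.Nc n ∧ Φ l (R.Ji i (y, x)) ≠ 0) → ∀ x₀ : Fin n → M.X.X,
  (∀ k, M.f (x₀ k) = y) → ∃ᶠ x in 𝓝 x₀, (y, x) ∈ R.Nc n ∧ (∀ k, x k ∉ S) ∧
    ∀ l, Φ l (R.Ji i (y, x)) ≠ 0

/-- **SPB**: the values span -/
def SPB : Prop := ForJ fun _ _ _ ρ _ R => ∀ i, ∀ y ∈ R.U i, y ∉ R.Q →
  ∃ x, (y, x) ∈ R.Nc ρ ∧ b0 (R.Ji i (y, x)) ≠ 0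

/-- **ETI**: immersions along the fibres, on a model -/
def ETI : Prop := ForJ fun p a m ρ M R => ∀ n (ι : Type) [Fintype ι] O
  (U : ι → (Fin n → Jt ρ a) → ℂ) (W : Pw M n (p + n * a) R.Q) (v : W.V.X), Fintype.card ι = n * a →
  Op m O → (∀ b, IV m O (U b)) → W.γ v ∈ R.Nc n → R.Jq (W.γ v) ∈ O →
  (R.Et U (W.γ v) ↔ Ind (p + n * a) (Sum.elim
    (fun (c : Fin p) v' => R.ch (R.fr (W.γ v).1) (W.γ v').1 c) fun b v' => U b (R.Jq (W.γ v'))) v)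

/-- **JDW**: change of charts in the Jacobian determinant -/
def JDW : Prop := ∀ (p a : ℕ) (M : Fb (p + a) p) (w : Fin a → M.X.X → ℂ) x e e₁ e' e₁',
  HolM (p + a) p M.f → (∀ k, Hol (p + a) (w k) x) → At e x → At e₁ x → At e' (M.f x) →
  At e₁' (M.f x) → rj e e₁ e' e₁' x ≠ 0 ∧ jdw w e e' x = rj e e₁ e' e₁' x * jdw w e₁ e₁' x

/-- **DER**: vertical derivatives -/
def DER : Prop := ForJ fun p a _ ρ M R => ∀ i e x, M.f x ∈ R.U i → M.f x ∉ R.Q → At e x →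
  x ∈ off M.G →
  (∀ ξ (κ : ℂ), (R.j i e x).2 ≠ 0 → df M.f e (R.ch i) x ξ = 0 →
    (R.Dj i e x ξ).1 = κ • (R.j i e x).1 → ξ = 0) ∧
  (∀ (J₀ : Fin (a + 1) → Fin ρ) (h : M.Y.X → Mt ρ), (∀ α β, Hol p (fun y => h y α β) (M.f x)) →
    (act (h (M.f x)) (R.j i e x)).1 (J₀ 0) ≠ 0 →
    jdw (fun l x' => wc J₀ (act (h (M.f x')) (R.j i e x')) l) e (R.ch i) x =
      kap J₀ (act (h (M.f x)) (R.j i e x))) ∧
  (∀ w : Fin a → M.X.X → ℂ, (∀ k, Hol (p + a) (w k) x) → (jdw w e (R.ch i) x ≠ 0 ↔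
    ∀ ξ, df M.f e (R.ch i) x ξ = 0 → (∀ k, dd (w k) e x ξ = 0) → ξ = 0)) ∧
  ∀ (v : ℕ) (z : Fin v → M.Y.X → ℂ) (w w' : Fin a → M.X.X → ℂ) (F : Cm v × Cm a → Cm a),
    (∀ k, Hol p (z k) (M.f x)) → (∀ k, Hol (p + a) (w k) x) →
    AnalyticAt ℂ F (fun k => z k (M.f x), fun k => w k x) →
    (∀ᶠ x' in 𝓝 x, ∀ k, w' k x' = F (fun k => z k (M.f x'), fun k => w k x') k) →
    jdw w' e (R.ch i) x = LinearMap.det (fderiv ℂ (fun o => F (fun k => z k (M.f x), o))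
      (fun k => w k x) : Cm a →ₗ[ℂ] Cm a) * jdw w e (R.ch i) x

/-! ### the stabilizer is discrete -/

/-- **IMM0**: there is an immersive point -/
def IMM0 : Prop := ForJ fun _ a m _ M R => FibM M a m a →
  ∃ x, M.f x ∉ R.Q ∧ x ∈ off M.G ∧ (R.J x).2 ≠ 0

/-- **STA**: the integrals over a fibre -/
def STA : Prop := ForJ fun _ a _ ρ _ R => ∀ (J₀ : Fin (a + 1) → Fin ρ), ∀ y ∉ R.Q,
  ∃ ν : Cm ρ → ℝ≥0∞, (∀ c, ν c < ⊤) ∧ (∀ K < ⊤, Bornology.IsBounded {c | ν c ≤ K}) ∧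
    ∀ g, (R.Gd J₀ y g).Nonempty → ∀ α, R.In J₀ y g α = ν (g α)

/-- **STB**: the integrals are constant along a one parameter group -/
def STB : Prop := ForJ fun _ a _ ρ _ R => ∀ (J₀ : Fin (a + 1) → Fin ρ) (X g₁ : Mt ρ)
  (E : ℂ → Mt ρ), ∀ y ∉ R.Q, (R.Gd J₀ y g₁).Nonempty → (∀ x ∈ R.Gd J₀ y g₁, R.CC X x) → E 0 = 1 →
  (∀ t α β, HasDerivAt (fun s => E s α β) ((E t * X) α β) t) →
  ∃ (g₀ : Mt ρ) (T₀ : Set ℂ), g₀.det ≠ 0 ∧ T₀.Countable ∧ (R.Gd J₀ y g₀).Nonempty ∧ ∀ t ∉ T₀,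
    (R.Gd J₀ y (g₀ * E t)).Nonempty ∧ ∀ α, R.In J₀ y (g₀ * E t) α = R.In J₀ y g₀ α

/-- **STAB** -/
def STAB : Prop := ForJ fun _ a _ ρ _ R => ∀ (J₀ : Fin (a + 1) → Fin ρ) (X g₁ : Mt ρ),
  ∀ y ∉ R.Q, (R.Gd J₀ y g₁).Nonempty → (∀ x ∈ R.Gd J₀ y g₁, R.CC X x) → X = 0

/-- **IMMU**: invariants which are coordinates along the fibres -/
def IMMU : Prop := ForJ fun _ a m ρ M R => FibM M a m a →
  ∃ (J₀ : Fin (a + 1) → Fin ρ) (n : ℕ) (bs : Fin (ρ + 1) → Fin n) (O : Set (Fin n → Jt ρ a))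
    (U : Fin (n * a) → (Fin n → Jt ρ a) → ℂ), R.Inv O U ∧ ∀ j ∈ O, (fun l => j (bs l)) ∈ O1 J₀

/-! ### the moduli -/

/-- **FLAT**: functional dependence propagates -/
def FLAT : Prop := ForW fun n W _ _ => ∀ (α : Type) [Fintype α] (O : Set W) (h : α → W → ℂ)
  (F : W → ℂ), IsOpen O → IsPreconnected O → (∀ x ∈ O, (∀ b, Hol n (h b) x) ∧ Hol n F x) →
  (∃ x ∈ O, ∀ᶠ y in 𝓝 x, ¬ Ind n (fun o : Option α => o.elim F h) y) → ∀ x ∈ O, Ind n h x →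
  ∃ F' : (α → ℂ) → ℂ, AnalyticAt ℂ F' (fun b => h b x) ∧ ∀ᶠ y in 𝓝 x, F y = F' fun b => h b y

/-- **DEP**: a function of `h` is not independent of `h` -/
def DEP : Prop := ForW fun n W _ _ => ∀ (α : Type) [Fintype α] (h : α → W → ℂ) (F : W → ℂ) (x : W)
  (F' : (α → ℂ) → ℂ), (∀ b, Hol n (h b) x) → AnalyticAt ℂ F' (fun b => h b x) →
  (∀ᶠ y in 𝓝 x, F y = F' fun b => h b y) →
  ∀ᶠ y in 𝓝 x, ¬ Ind n (fun o : Option α => o.elim F h) y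

/-- **RKT**: meromorphic functions are independent off a thin set -/
def RKT : Prop := ∀ (n v : ℕ) (V : Mf n) (S : Set V.X) (z : Fin v → V.X → ℂ), ConnectedSpace V.X →
  Thin n S → (∀ j, Mr n S (z j)) → (∃ y ∉ S, Ind n z y) →
  ∃ Q, Thin n Q ∧ S ⊆ Q ∧ ∀ y ∉ Q, Ind n z y

/-- **SG**: algebraic relations on a fibre -/
def SG : Prop := ForJ fun _ a m ρ _ R => ∀ n (ι : Type) [Fintype ι] O
  (V : Option ι → (Fin n → Jt ρ a) → ℂ), Fintype.card ι = n * a → Op m O → (∀ b, IV m O (V b)) →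
  ∀ y ∉ R.Q, ∃ σ : MvPolynomial (Option ι) ℂ, σ ≠ 0 ∧ ∀ x, (y, x) ∈ R.Nc n → R.Jq (y, x) ∈ O →
    MvPolynomial.eval (fun b => V b (R.Jq (y, x))) σ = 0

/-- **LEV1**: one invariant is locally a function of the coordinates and of moduli -/
def LEV1 : Prop := ForJ fun p a m ρ M R => ∀ n (ι : Type) [Fintype ι] O
  (U : ι → (Fin n → Jt ρ a) → ℂ) (F : (Fin n → Jt ρ a) → ℂ), R.Inv O U → IV m O F →
  ∃ (Q : Set M.Y.X) (v : ℕ) (z : Fin v → M.Y.X → ℂ) (n₁ c : ℕ) (d : Fin n₁ → ℕ)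
    (B : Fin (v + 1) → (Fin n₁ → Jt ρ a) → ℂ), Thin p Q ∧ R.Q ⊆ Q ∧ R.Zq Q z c d B ∧
    ∃ q ∈ R.Nc n, q.1 ∉ Q ∧ R.Jq q ∈ O ∧
      Rep (fun q' => (fun j => z j q'.1, fun b => U b (R.Jq q'))) (fun q' => F (R.Jq q')) q

/-- **ZCB**: finitely many families of moduli have a common denominator -/
def ZCB : Prop := ForJ fun p a _ ρ M R => ∀ (β : Type) [Fintype β] (Q : Set M.Y.X) (v n c : β → ℕ)
  (z : ∀ b, Fin (v b) → M.Y.X → ℂ) (d : ∀ b, Fin (n b) → ℕ)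
  (B : ∀ b, Fin (v b + 1) → (Fin (n b) → Jt ρ a) → ℂ) (v' : ℕ) (s : Fin v' → Σ b, Fin (v b)),
  Thin p Q → R.Q ⊆ Q → (∀ b, R.Zq Q (z b) (c b) (d b) (B b)) →
  ∃ (n' c' : ℕ) (d' : Fin n' → ℕ) (B' : Fin (v' + 1) → (Fin n' → Jt ρ a) → ℂ),
    R.Zq Q (fun j => z (s j).1 (s j).2) c' d' B'

/-- **UNI**: uniform degrees -/
def UNI : Prop := ForJ fun _ a m ρ M R => ∀ (Q : Set M.Y.X) (v n c : ℕ) (z : Fin v → M.Y.X → ℂ)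
  (d : Fin n → ℕ) (B : Fin (v + 1) → (Fin n → Jt ρ a) → ℂ), 0 < ρ → R.Zq Q z c d B →
  ∃ (n' c' k : ℕ) (B' : Fin (v + 1) → (Fin n' → Jt ρ a) → ℂ), 0 < n' ∧ 0 < c' ∧ 0 < k ∧
    R.Zq Q z c' (fun _ => m * k) B'

/-- **LEV**: the moduli -/
def LEV : Prop := ForJ fun p a m ρ M R => ∀ n (ι β : Type) [Fintype ι] [Fintype β] O
  (U : ι → (Fin n → Jt ρ a) → ℂ) (F : β → (Fin n → Jt ρ a) → ℂ), R.Inv O U →
  (∀ b, IV m O (F b)) →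
  ∃ (Q : Set M.Y.X) (v : ℕ) (z : Fin v → M.Y.X → ℂ) (n₁ c : ℕ) (d : Fin n₁ → ℕ)
    (B : Fin (v + 1) → (Fin n₁ → Jt ρ a) → ℂ), Thin p Q ∧ R.Q ⊆ Q ∧ R.Zq Q z c d B ∧
    (∀ y ∉ Q, Ind p z y) ∧ ∀ q ∈ R.Nc n, q.1 ∉ Q → R.Jq q ∈ O → R.Et U q → ∀ b,
      Rep (fun q' => (fun j => z j q'.1, fun b => U b (R.Jq q'))) (fun q' => F b (R.Jq q')) q

/-- **MSX**: multisections exist -/
def MSX : Prop := ForJ fun _ a _ ρ _ R => ∀ n (ι : Type) [Fintype ι] O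
  (U : ι → (Fin n → Jt ρ a) → ℂ), R.Inv O U → Nonempty (R.MS O U)

/-- **PA1**: flat multiframes and moduli -/
def PA1 : Prop := ForJ fun p a m ρ M R => FibM M a m a →
  ∃ (J₀ : Fin (a + 1) → Fin ρ) (v : ℕ) (z : Fin v → M.Y.X → ℂ) (S : R.GS J₀ z) (n c k : ℕ)
    (B : Fin (v + 1) → (Fin n → Jt ρ a) → ℂ), 0 < n ∧ 0 < c ∧ 0 < k ∧
    R.Zq S.Q z c (fun _ => m * k) B ∧ ∀ y ∉ S.Q, Ind p z y

/-! ### the data -/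

/-- for all flat multiframes -/
def ForG (P : ∀ (p a m ρ : ℕ) (M : Fb (p + a) p) (R : JS M m ρ) (J₀ : Fin (a + 1) → Fin ρ) (v : ℕ)
    (z : Fin v → M.Y.X → ℂ), R.GS J₀ z → Prop) : Prop :=
  ForJ fun p a m ρ M R => ∀ J₀ v z S, P p a m ρ M R J₀ v z S

/-- **PMT**: semi-invariants and norms give relative forms -/
def PMT : Prop := ForG fun _ a m ρ _ R _ _ _ S =>
  (∀ n c κ (Φ : (Fin n → Jt ρ a) → ℂ), SI m (S.e * c) (fun _ => κ) Φ → R.PM S.Q κ (S.tf c Φ)) ∧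
    ∀ c, R.PM S.Q (m * S.e) (S.nn c)

/-- **RFL**: relative forms in the coordinates `w` -/
def RFL : Prop := ForJ fun p a _ _ M R => ∀ n κ Q (C : NS M)
  (A : R.ι → (Fin n → Chart (p + a) M.X.X) → Pt M n → ℂ), Thin p Q → Q ⊆ C.Q → R.PM Q κ A →
  C.RF κ (R.gl C.w κ A)

/-- **WR**: the norms have maximal rank -/
def WR : Prop := ForG fun _ a _ ρ M R _ _ _ S => ∃ (cc : Fin (a + 1) → Cm ρ) (x : M.X.X),
  M.f x ∉ S.Q ∧ x ∈ off M.G ∧ S.N (cc 0) x ≠ 0 ∧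
    jdw (fun i x' => S.N (cc i.succ) x' / S.N (cc 0) x') (cx x) (R.ch (R.fr (M.f x))) x ≠ 0

/-- **WX**: the flat coordinates -/
def WX : Prop := ForG fun _ a _ ρ M _ _ _ _ S =>
  ∃ (cc : Fin (a + 1) → Cm ρ) (C : NS M), S.Wq cc C

/-- **SPN**: the sections on a fibre, in the coordinates `w` -/
def SPN : Prop := ForJ fun _ _ m ρ M R => ∀ (C : NS M), R.Q ⊆ C.Q → ∀ y ∉ C.Q, ∀ g, C.FS m y g →
  ∃ c : Cm ρ, ∀ x ∉ C.S, M.f x = y →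
    g x = ∑ α, c α * ((R.J x).1 α / jdw C.w (cx x) (R.ch (R.fr y)) x ^ m)

/-- **PJ**: the jets on a piece of a fibre -/
def PJ : Prop := ForJ fun p a m ρ M R => ∀ i, ∀ y ∈ R.U i, y ∉ R.Q → ∀ r (ψ : Cm a → M.X.X),
  Pc y r ψ → ∃ (v : Cm a → Cm ρ) (l : Cm a → ℂ), ∀ u ∈ Metric.ball (0 : Cm a) r,
    AnalyticAt ℂ v u ∧ l u ≠ 0 ∧ sc m (l u) (R.j i (cx (ψ u)) (ψ u)) = jet v u ∧
    ∀ w : Fin a → M.X.X → ℂ, (∀ k, Hol (p + a) (w k) (ψ u)) →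
      jw w ψ u = l u * jdw w (cx (ψ u)) (R.ch i) (ψ u)

/-- **BLKA**: semi-invariants are bounded by the determinants -/
def BLKA : Prop := ∀ (ρ a m n c : ℕ) (d : Fin n → ℕ) (Φ : (Fin n → Jt ρ a) → ℂ) (r r' : ℝ),
  SI m c d Φ → 0 < c → 0 < r' → r' < r → ∃ A : ℝ, 0 ≤ A ∧ ∀ (v : Cm a → Cm ρ) (K : ℝ), 0 ≤ K →
    (∀ u ∈ Metric.ball (0 : Cm a) r, AnalyticAt ℂ v u) →
    (∀ u : Fin ρ → Cm a, (∀ β, u β ∈ Metric.ball (0 : Cm a) r) → ‖b0 fun β => jet v (u β)‖ ≤ K) →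
    ∀ u : Fin n → Cm a, (∀ k, u k ∈ Metric.ball (0 : Cm a) r') →
      ‖Φ fun k => jet v (u k)‖ ≤ A * K ^ c

/-- **BLK**: the forms given by semi-invariants are bounded by the determinants -/
def BLK : Prop := ForG fun _ a m ρ M R _ _ _ S => ∀ (C : NS M) n c κ
  (Φ : (Fin n → Jt ρ a) → ℂ) (r r' : ℝ), S.Q ⊆ C.Q → SI m (S.e * c) (fun _ => κ) Φ → 0 < c →
  0 < r' → r' < r → ∃ A : ℝ, 0 ≤ A ∧ ∀ y ∉ C.Q, ∀ ψ, Pc y r ψ → ∀ K, 0 ≤ K →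
    C.Le m (R.gl C.w m (S.tf 1 (bP S.e))) y ψ r K →
    C.Le κ (R.gl C.w κ (S.tf c Φ)) y ψ r' (A * K ^ c)

/-- **FLJ**: the jets are flat near some point -/
def FLJ : Prop := ForG fun p a m ρ M R _ v z S => ∀ cc (C : NS M), S.Wq cc C →
  (∀ y ∉ S.Q, ∀ j, Hol p (z j) y) → ∃ (x : M.X.X) (i : R.ι) (h : Fin S.e → M.Y.X → Mt ρ),
    x ∉ C.S ∧ M.f x ∈ R.U i ∧
    (∀ᶠ y' in 𝓝 (M.f x), ∃ π : Equiv.Perm (Fin S.e), ∀ k, S.g i y' k = h (π k) y') ∧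
    ∀ k, ∃ F : Cm v × Cm a → Jt ρ a, AnalyticAt ℂ F (fun j => z j (M.f x), fun l => C.w l x) ∧
      ∀ᶠ x' in 𝓝 x, sc m (jdw C.w (cx x) (R.ch i) x')⁻¹ (act (h k (M.f x')) (R.j i (cx x) x')) =
        F (fun j => z j (M.f x'), fun l => C.w l x')

/-- **FLP**: flatness propagates -/
def FLP : Prop := ∀ (p a m n : ℕ) (M : Fb (p + a) p) (D : AD M m) (F : Pt M n → ℂ), Std M m →
  (∀ y ∉ D.Q, Ind p D.z y) → (∀ q ∈ D.N n, HolT F q) →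
  (∃ q ∈ D.N n, Rep (fun q' => (fun j => D.z j q'.1, fun k l => D.w l (q'.2 k))) F q) → D.Fl F

/-- **FL3**: the forms are flat near some point -/
def FL3 : Prop := ForG fun p a m ρ M R _ _ z S => ∀ cc (C : NS M), S.Wq cc C →
  (∀ y ∉ S.Q, ∀ j, Hol p (z j) y) → ∃ x ∉ C.S,
    (∀ n c κ (d : Fin S.e → Fin n → ℕ) (Φ : Fin S.e → (Fin n → Jt ρ a) → ℂ),
      (∀ k, SI m c (d k) (Φ k)) → (∀ l, ∑ k, d k l = κ) →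
      Rep (fun q' => (fun j => z j q'.1, fun k l => C.w l (q'.2 k)))
        (R.gl C.w κ (S.tf c fun j => ∏ k, Φ k j)) (dg n x)) ∧
    ∀ c, Rep (fun q' => (fun j => z j q'.1, fun k l => C.w l (q'.2 k)))
      (R.gl C.w (m * S.e) (S.nn c)) (dg 1 x)

end Vale.Agent.P281Z.Ga
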