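import Vale.Agent.P281Z.Ga.Sk
import Vale.Agent.P281Z.Gi.Area
import Vale.Agent.P271.LOCE.Pos

/-!
# P281Z, block III, part A: integrals over a fibre which is covered by finitely many pieces
-/

open scoped Topology ENNReal Matrix
open Set Filter MeasureTheory
open Vale.Agent.P272.K
open Vale.Agent.P298.H707 (Fib measurable_fib)

noncomputable section

namespace Vale.Agent.P281Z.Ga

namespace Sa

variable {ρ a m : ℕ} {J₀ : Fin (a + 1) → Fin ρ}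

theorem act_sc (g : Mt ρ) (l : ℂ) (j : Jt ρ a) : act g (sc m l j) = sc m l (act g j) :=
  Prod.ext (Matrix.mulVec_smul g (l ^ m) j.1) (funext fun J => by
    simp [act, sc, Finset.mul_sum, mul_left_comm])

theorem wc_sc {l : ℂ} (hl : l ≠ 0) (j : Jt ρ a) : wc J₀ (sc m l j) = wc J₀ j :=
  funext fun _ => mul_div_mul_left _ _ (pow_ne_zero _ hl)

theorem kap_sc {l : ℂ} (hl : l ≠ 0) (j : Jt ρ a) : kap J₀ (sc m l j) = l * kap J₀ j := by
  change (l ^ _ * _) / (l ^ m * _) ^ (a + 1) = l * (_ / _)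
  rw [mul_pow, ← pow_mul, mul_comm m, pow_succ, mul_assoc, mul_div_mul_left _ _ (pow_ne_zero _ hl),
    mul_div_assoc]

theorem gd_sc {l : ℂ} (hl : l ≠ 0) (j : Jt ρ a) : gd J₀ (sc m l j) ↔ gd J₀ j := by
  simp [gd, sc, hl]

theorem nrm_sc {l : ℂ} (hl : l ≠ 0) (j : Jt ρ a) : (nrm J₀ m (sc m l j)).1 = (nrm J₀ m j).1 := by
  rw [nrm, kap_sc hl]
  change _ • l ^ m • j.1 = _ • j.1
  rw [smul_smul, ← mul_pow, mul_inv, mul_right_comm, inv_mul_cancel₀ hl, one_mul]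

theorem kap_ne {j : Jt ρ a} (h : gd J₀ j) : kap J₀ j ≠ 0 := div_ne_zero h.2 (pow_ne_zero _ h.1)

/-- the change of the frame is linear -/
def actL (g : Mt ρ) : Jt ρ a →L[ℂ] Jt ρ a := LinearMap.toContinuousLinearMap
  { toFun := act g
    map_add' := fun j j' => Prod.ext (Matrix.mulVec_add g j.1 j'.1) (funext fun J => by
      simp [act, mul_add, Finset.sum_add_distrib])
    map_smul' := fun l j => Prod.ext (Matrix.mulVec_smul g l j.1) (funext fun J => by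
      simp [act, Finset.mul_sum, mul_left_comm]) }

theorem an_act (g : Mt ρ) (j : Jt ρ a) : AnalyticAt ℂ (act g) j := (actL g).analyticAt j

theorem an_1 (g : Mt ρ) (α : Fin ρ) (j : Jt ρ a) : AnalyticAt ℂ (fun j => (act g j).1 α) j :=
  analyticAt_pi_iff.1 (analyticAt_fst.comp (an_act g j)) α

theorem an_2 (g : Mt ρ) (J : Fin (a + 1) → Fin ρ) (j : Jt ρ a) :
    AnalyticAt ℂ (fun j => (act g j).2 J) j :=
  analyticAt_pi_iff.1 (analyticAt_snd.comp (an_act g j)) J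

theorem an_wc {g : Mt ρ} {j : Jt ρ a} (h : (act g j).1 (J₀ 0) ≠ 0) :
    AnalyticAt ℂ (fun j => wc J₀ (act g j)) j :=
  AnalyticAt.pi fun _ => (an_1 g _ j).div (an_1 g _ j) h

theorem val (hm : 0 < m) {j : Jt ρ a} (h : gd J₀ j) (α : Fin ρ) :
    ‖(nrm J₀ m j).1 α‖ₑ ^ (2 / m : ℝ) * ‖kap J₀ j‖ₑ ^ 2 = ‖j.1 α‖ₑ ^ (2 / m : ℝ) := by
  have e : j.1 α = (nrm J₀ m j).1 α * kap J₀ j ^ m := by
    change _ = ((kap J₀ j)⁻¹ ^ m * j.1 α) * _
    rw [mul_right_comm, ← mul_pow, inv_mul_cancel₀ (kap_ne h), one_pow, one_mul]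
  have k : (m : ℝ) * (2 / m) = (2 : ℕ) := by
    push_cast
    field_simp
  rw [e, enorm_mul, enorm_pow, ENNReal.mul_rpow_of_nonneg _ _ (by positivity),
    ← ENNReal.rpow_natCast _ m, ← ENNReal.rpow_mul, k, ENNReal.rpow_natCast]

theorem bdd {E : Type} [NormedAddCommGroup E] [NormedSpace ℂ E] [ProperSpace E] {ν : E → ℝ≥0∞}
    {s : ℝ} (hs : 0 < s) (h1 : LowerSemicontinuous ν)
    (h2 : ∀ (t : ℂ) c, ν (t • c) = ‖t‖ₑ ^ s * ν c) (h3 : ∀ c ≠ 0, ν c ≠ 0) :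
    ∀ K < ⊤, Bornology.IsBounded {c | ν c ≤ K} := by
  intro K hK
  obtain ⟨ε, e0, e1⟩ : ∃ ε : ℝ≥0∞, ε ≠ 0 ∧ ∀ c ∈ Metric.sphere (0 : E) 1, ε ≤ ν c := by
    rcases (Metric.sphere (0 : E) 1).eq_empty_or_nonempty with h | h
    · exact ⟨1, one_ne_zero, by simp [h]⟩
    obtain ⟨c, c1, c2⟩ := (h1.lowerSemicontinuousOn _).exists_isMinOn h (isCompact_sphere _ _)
    exact ⟨ν c, h3 c (ne_zero_of_mem_unit_sphere ⟨c, c1⟩), c2⟩
  refine isBounded_iff_forall_norm_le.2 ⟨((K / ε) ^ s⁻¹).toReal, fun c hc => ?_⟩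
  rcases eq_or_ne c 0 with rfl | h
  · simp
  have k0 : (‖c‖ : ℂ) ≠ 0 := by simpa using h
  have k1 : ‖c‖ₑ ^ s * ε ≤ K := by
    refine le_trans ?_ hc
    have := h2 ‖c‖ ((‖c‖ : ℂ)⁻¹ • c)
    rw [smul_inv_smul₀ k0] at this
    rw [this, ← ofReal_norm (‖c‖ : ℂ), Complex.norm_real, norm_norm, ofReal_norm]
    refine mul_le_mul_right (e1 _ ?_) _
    simp [norm_smul, h]
  rw [← toReal_enorm]
  refine ENNReal.toReal_mono (ENNReal.rpow_ne_top_of_nonneg (by positivity)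
    (ENNReal.div_lt_top hK.ne e0).ne) ((ENNReal.le_rpow_inv_iff hs).2 ?_)
  exact (ENNReal.le_div_iff_mul_le (.inl e0) (.inr hK.ne)).2 k1

theorem areaM {U : Set (Cm a)} {W : Cm a → Cm a} {F : Cm a → ℝ≥0∞} (hU : IsOpen U)
    (hW : ∀ z ∈ U, AnalyticAt ℂ W z ∧ LinearMap.det (fderiv ℂ W z : Cm a →ₗ[ℂ] Cm a) ≠ 0)
    (hF : Measurable F) : Measurable fun o => ∑' z : {z // z ∈ U ∧ W z = o}, F z := by
  have h := measurable_fib (X := W) hU
    (fun z hz => ((hW z hz).1.contDiffAt.restrict_scalars ℝ).contDiffWithinAt) hF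
  have e : ∀ o, Fib U W o = {z | z ∈ U ∧ W z = o} := fun o => Set.ext fun q =>
    ⟨fun hq => ⟨hq.1, hq.2.1⟩, fun hq => ⟨hq.1, hq.2, by
      rw [Gi.detR_fderiv (hW q hq.1).1.differentiableAt]
      exact pow_ne_zero _ (norm_ne_zero_iff.2 (hW q hq.1).2)⟩⟩
  have e' : (fun o => ∑' z : {z // z ∈ U ∧ W z = o}, F z) = fun o => ∑' z : Fib U W o, F z :=
    funext fun o => by
      rw [e]
      rfl
  rwa [e']

variable {X : Type} [TopologicalSpace X]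

/-- a coordinate piece of `F` -/
structure Pe (m : ℕ) (F : Set X) (J : X → Jt ρ a) where
  O : Set X
  B : Set (Cm a)
  ψ : Cm a → X
  χ : X → Cm a
  j : Cm a → Jt ρ a
  oO : IsOpen O
  oB : IsOpen B
  cψ : ContinuousOn ψ B
  cχ : ContinuousOn χ O
  lft : ∀ u ∈ B, ψ u ∈ O ∧ ψ u ∈ F ∧ χ (ψ u) = u
  rgt : ∀ x ∈ O, x ∈ F → χ x ∈ B ∧ ψ (χ x) = x
  scl : ∀ u ∈ B, ∃ l, l ≠ 0 ∧ j u = sc m l (J (ψ u))
  an : ∀ u ∈ B, AnalyticAt ℂ j u
  det : ∀ u ∈ B, ∀ (J₀ : Fin (a + 1) → Fin ρ) (g : Mt ρ), (act g (j u)).1 (J₀ 0) ≠ 0 →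
    LinearMap.det (fderiv ℂ (fun u' => wc J₀ (act g (j u'))) u : Cm a →ₗ[ℂ] Cm a) =
      kap J₀ (act g (j u))
  fin : ∫⁻ u in B, ‖(j u).1‖ₑ ^ (2 / m : ℝ) < ⊤

variable {F : Set X} {J : X → Jt ρ a}

namespace Pe

variable (P : Pe m F J) {g : Mt ρ} {u : Cm a}

theorem gd_iff (hu : u ∈ P.B) : gd J₀ (act g (P.j u)) ↔ gd J₀ (act g (J (P.ψ u))) := by
  obtain ⟨l, l0, l1⟩ := P.scl u hu
  rw [l1, act_sc, gd_sc l0]

theorem wc_eq (hu : u ∈ P.B) : wc J₀ (act g (P.j u)) = wc J₀ (act g (J (P.ψ u))) := by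
  obtain ⟨l, l0, l1⟩ := P.scl u hu
  rw [l1, act_sc, wc_sc l0]

theorem nrm_eq (hu : u ∈ P.B) :
    (nrm J₀ m (act g (P.j u))).1 = (nrm J₀ m (act g (J (P.ψ u)))).1 := by
  obtain ⟨l, l0, l1⟩ := P.scl u hu
  rw [l1, act_sc, nrm_sc l0]

theorem dot_iff (hu : u ∈ P.B) (c : Cm ρ) : c ⬝ᵥ (P.j u).1 = 0 ↔ c ⬝ᵥ (J (P.ψ u)).1 = 0 := by
  obtain ⟨l, l0, l1⟩ := P.scl u hu
  simp [l1, sc, l0]

theorem cont (c : Cm ρ) : ContinuousOn (fun u => c ⬝ᵥ (P.j u).1) P.B := fun u hu =>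
  ((continuous_const.dotProduct continuous_fst).continuousAt.comp
    (P.an u hu).continuousAt).continuousWithinAt

variable (J₀ g) in
/-- the good part of the piece -/
def U : Set (Cm a) := {u | u ∈ P.B ∧ gd J₀ (act g (P.j u))}

theorem U_open : IsOpen (P.U J₀ g) := isOpen_iff_mem_nhds.2 fun u hu => by
  filter_upwards [P.oB.mem_nhds hu.1,
    ((an_1 g _ _).comp (P.an u hu.1)).continuousAt.eventually_ne hu.2.1,
    ((an_2 g _ _).comp (P.an u hu.1)).continuousAt.eventually_ne hu.2.2] with v v1 v2 v3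
    using ⟨v1, v2, v3⟩

theorem null (h : ∀ x ∈ F, ∃ᶠ x' in 𝓝 x, x' ∈ F ∧ gd J₀ (act g (J x'))) :
    ∀ᵐ u, u ∈ P.B → u ∈ P.U J₀ g := by
  have hd : DifferentiableOn ℂ (fun u => (act g (P.j u)).1 (J₀ 0) * (act g (P.j u)).2 J₀) P.B :=
    fun u hu => (((an_1 g _ _).comp (P.an u hu)).mul
      ((an_2 g _ _).comp (P.an u hu))).differentiableAt.differentiableWithinAt
  refine measure_null_of_locally_null _ fun u hu => ?_
  have h1 : u ∈ P.B := (Classical.not_imp.1 hu).1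
  obtain ⟨k1, k2, k3⟩ := P.lft u h1
  have h2 : Tendsto P.χ (𝓝 (P.ψ u)) (𝓝 u) := by
    simpa only [ContinuousAt, k3] using P.cχ.continuousAt (P.oO.mem_nhds k1)
  obtain ⟨δ, d0, -, d1⟩ := P271.LOCE.zero_null volume P.oB hd h1 (h2.frequently
    (((h _ k2).and_eventually (P.oO.mem_nhds k1)).mono fun x hx => by
      obtain ⟨r1, r2⟩ := P.rgt x hx.2 hx.1.1
      have := (P.gd_iff r1).2 (r2.symm ▸ hx.1.2)
      exact mul_ne_zero this.1 this.2))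
  refine ⟨_, ?_, d1⟩
  filter_upwards [mem_nhdsWithin_of_mem_nhds (Metric.ball_mem_nhds u d0), self_mem_nhdsWithin]
    with v v1 v2
  refine ⟨v1, by_contra fun k => v2 fun _ => ?_⟩
  exact ⟨by assumption, left_ne_zero_of_mul k, right_ne_zero_of_mul k⟩

theorem an_U (hu : u ∈ P.U J₀ g) : AnalyticAt ℂ (fun u => wc J₀ (act g (P.j u))) u ∧
    LinearMap.det (fderiv ℂ (fun u => wc J₀ (act g (P.j u))) u : Cm a →ₗ[ℂ] Cm a) ≠ 0 :=
  ⟨(an_wc hu.2.1).comp (P.an u hu.1), (P.det u hu.1 J₀ g hu.2.1).symm ▸ kap_ne hu.2⟩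

theorem mes {A : Set (Cm a)} (hA : MeasurableSet A) (α : Fin ρ) :
    Measurable ((A ∩ P.U J₀ g).indicator
      fun u => ‖(nrm J₀ m (act g (P.j u))).1 α‖ₑ ^ (2 / m : ℝ)) := by
  classical
  rw [← piecewise_eq_indicator]
  refine ContinuousOn.measurable_piecewise (ENNReal.continuous_rpow_const.comp_continuousOn
    (ContinuousOn.enorm fun u hu => ContinuousAt.continuousWithinAt ?_)) continuousOn_const
    (hA.inter P.U_open.measurableSet)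
  have k := fun α => ((an_1 g α _).comp (P.an u hu.2.1)).continuousAt
  exact ((((((an_2 g J₀ _).comp (P.an u hu.2.1)).continuousAt.div ((k _).pow _)
    (pow_ne_zero _ hu.2.2.1)).inv₀ (kap_ne hu.2.2)).pow m).mul (k α) :)

theorem int (hm : 0 < m) (h : ∀ x ∈ F, ∃ᶠ x' in 𝓝 x, x' ∈ F ∧ gd J₀ (act g (J x')))
    {A : Set (Cm a)} (hA : MeasurableSet A) (hB : A ⊆ P.B) (α : Fin ρ) :
    ∫⁻ o, ∑' z : {z // z ∈ P.U J₀ g ∧ wc J₀ (act g (P.j z)) = o}, (A ∩ P.U J₀ g).indicator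
      (fun u => ‖(nrm J₀ m (act g (P.j u))).1 α‖ₑ ^ (2 / m : ℝ)) z =
      ∫⁻ u in A, ‖g α ⬝ᵥ (P.j u).1‖ₑ ^ (2 / m : ℝ) := by
  rw [Gi.area a _ _ _ P.U_open (fun _ => P.an_U) (P.mes hA α),
    ← lintegral_indicator P.U_open.measurableSet, ← lintegral_indicator hA]
  refine lintegral_congr_ae ((P.null h).mono fun u hu => ?_)
  by_cases k : u ∈ A
  · have k' := hu (hB k)
    simp only [indicator_of_mem k, indicator_of_mem k', indicator_of_mem (mem_inter k k')]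
    rw [P.det u k'.1 J₀ g k'.2.1, val hm k'.2]
    rfl
  · simp only [indicator_of_notMem k]
    exact indicator_apply_eq_zero.2 fun _ => by
      rw [indicator_of_notMem fun b => k b.1, zero_mul]

end Pe

variable {N : ℕ} (P : Fin N → Pe m F J)

/-- the part of the piece `k` which is not in the earlier pieces -/
def A (k : Fin N) : Set (Cm a) := {u | u ∈ (P k).B ∧ ∀ k' < k, (P k).ψ u ∉ (P k').O}

theorem A_mes (k : Fin N) : MeasurableSet (A P k) := by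
  have : A P k = (P k).B \ ⋃ k' < k, (P k).B ∩ (P k).ψ ⁻¹' (P k').O := by
    ext u
    simp only [A, mem_ofPred_eq, Set.mem_sdiff, mem_iUnion, mem_inter_iff, mem_preimage,
      not_exists, not_and]
    exact and_congr_right fun b => by simp only [b, true_imp_iff]
  rw [this]
  exact (P k).oB.measurableSet.diff (isOpen_biUnion fun k' _ =>
    (P k).cψ.isOpen_inter_preimage (P k).oB (P k').oO).measurableSet

/-- the integral of a section -/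
def nu (c : Cm ρ) : ℝ≥0∞ := ∑ k, ∫⁻ u in A P k, ‖c ⬝ᵥ ((P k).j u).1‖ₑ ^ (2 / m : ℝ)

theorem nu_mes (c : Cm ρ) (k : Fin N) : AEMeasurable
    (fun u => ‖c ⬝ᵥ ((P k).j u).1‖ₑ ^ (2 / m : ℝ)) (volume.restrict (A P k)) :=
  ((((P k).cont c).mono fun _ h => h.1).aemeasurable (A_mes P k)).enorm.pow_const _

theorem nu_fin (c : Cm ρ) : nu P c < ⊤ := by
  have hs : (0 : ℝ) ≤ 2 / m := by positivity
  refine ENNReal.sum_lt_top.2 fun k _ => lt_of_le_of_lt (lintegral_mono (g := fun u =>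
    (∑ α, ‖c α‖ₑ) ^ (2 / m : ℝ) * ‖((P k).j u).1‖ₑ ^ (2 / m : ℝ)) fun u => ?_) ?_
  · beta_reduce
    rw [← ENNReal.mul_rpow_of_nonneg _ _ hs, Finset.sum_mul]
    refine ENNReal.rpow_le_rpow ((enorm_sum_le _ _).trans (Finset.sum_le_sum fun α _ => ?_)) hs
    rw [enorm_mul]
    exact mul_le_mul_right (enorm_le_iff_norm_le.2 (norm_le_pi_norm _ α)) _
  · have k1 : (∑ α, ‖c α‖ₑ) ^ (2 / m : ℝ) ≠ ⊤ := ENNReal.rpow_ne_top_of_nonneg hs
      (ENNReal.sum_ne_top.2 fun _ _ => enorm_ne_top)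
    rw [lintegral_const_mul' _ _ k1]
    exact ENNReal.mul_lt_top k1.lt_top ((lintegral_mono_set fun _ h => h.1).trans_lt (P k).fin)

theorem nu_smul (t : ℂ) (c : Cm ρ) : nu P (t • c) = ‖t‖ₑ ^ (2 / m : ℝ) * nu P c := by
  have hs : (0 : ℝ) ≤ 2 / m := by positivity
  simp only [nu, Finset.mul_sum, smul_dotProduct, smul_eq_mul, enorm_mul,
    ENNReal.mul_rpow_of_nonneg _ _ hs]
  exact Finset.sum_congr rfl fun k _ =>
    lintegral_const_mul' _ _ (ENNReal.rpow_ne_top_of_nonneg hs enorm_ne_top)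

theorem nu_lsc : LowerSemicontinuous (nu P) :=
  lowerSemicontinuous_sum fun k _ => lowerSemicontinuous_iff_le_liminf.2 fun c =>
    (lintegral_mono fun _ => (ENNReal.continuous_rpow_const.comp (continuous_id.dotProduct
      continuous_const).enorm).lowerSemicontinuous.le_liminf c).trans
      (lintegral_liminf_le' fun c => nu_mes P c k)

theorem nu_ne (hm : 0 < m) (cov : ∀ x ∈ F, ∃ k, x ∈ (P k).O) {c : Cm ρ}
    (h : ∃ x ∈ F, c ⬝ᵥ (J x).1 ≠ 0) : nu P c ≠ 0 := by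
  have hs : (0 : ℝ) < 2 / m := by positivity
  have h0 : ∀ x ∈ F, c ⬝ᵥ (J x).1 ≠ 0 → ∀ k, x ∈ (P k).O →
      ((P k).B ∩ (fun u => c ⬝ᵥ ((P k).j u).1) ⁻¹' {0}ᶜ).Nonempty := fun x hx h1 k hk => by
    obtain ⟨r1, r2⟩ := (P k).rgt x hk hx
    exact ⟨_, r1, fun b => h1 (r2 ▸ ((P k).dot_iff r1 c).1 b)⟩
  obtain ⟨x, hx, h1⟩ := h
  obtain ⟨k, k1, k2⟩ := wellFounded_lt.has_min
    {k | ((P k).B ∩ (fun u => c ⬝ᵥ ((P k).j u).1) ⁻¹' {0}ᶜ).Nonempty}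
    ((cov x hx).imp (h0 x hx h1))
  intro e
  have e1 := ae_iff.1 ((ae_restrict_iff' (A_mes P k)).1
    ((lintegral_eq_zero_iff' (nu_mes P c k)).1 (Finset.sum_eq_zero_iff.1 e k (Finset.mem_univ k))))
  refine ((((P k).cont c).isOpen_inter_preimage (P k).oB isOpen_compl_singleton).measure_pos
    volume k1).ne' (measure_mono_null ?_ e1)
  refine fun u hu b => hu.2 ?_
  have := b ⟨hu.1, fun k' b1 b2 => k2 k' (h0 _ ((P k).lft u hu.1).2.1
    (fun b3 => hu.2 (((P k).dot_iff hu.1 c).2 b3)) k' b2) b1⟩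
  simpa [hs, hs.not_gt] using this

theorem sum_eq (cov : ∀ x ∈ F, ∃ k, x ∈ (P k).O) {T : X → Prop} (hT : ∀ x, T x → x ∈ F)
    {T' : Fin N → Cm a → Prop} (h1 : ∀ k u, T' k u ↔ u ∈ (P k).B ∧ T ((P k).ψ u)) (φ : X → ℝ≥0∞) :
    ∑' x : {x // T x}, φ x =
      ∑ k, ∑' z : {z // T' k z}, (A P k).indicator (fun u => φ ((P k).ψ u)) z := by
  have e1 : ∀ x ∈ F, φ x = ∑ k, {x | x ∈ (P k).O ∧ ∀ k' < k, x ∉ (P k').O}.indicator φ x := by
    intro x hx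
    obtain ⟨k, k1, k2⟩ := wellFounded_lt.has_min {k | x ∈ (P k).O} (cov x hx)
    rw [Finset.sum_eq_single k (fun k' _ b => indicator_of_notMem (fun d => ?_) _) (by simp),
      indicator_of_mem (by exact ⟨k1, fun k' b d => k2 k' d b⟩)]
    exact b.lt_or_gt.elim (k2 k' d.1) fun b' => d.2 k b' k1
  refine (tsum_congr fun x : {x // T x} => e1 x.1 (hT _ x.2)).trans
    ((Summable.tsum_finsetSum fun _ _ => ENNReal.summable).trans
      (Finset.sum_congr rfl fun k _ => ?_))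
  refine ((Function.Injective.tsum_eq (g := fun z : {z // T' k z} =>
    (⟨(P k).ψ z, ((h1 k _).1 z.2).2⟩ : {x // T x})) (fun z z' b => Subtype.ext ?_)
    fun x hx => ?_).symm).trans (tsum_congr fun z => ?_)
  · rw [← ((P k).lft _ ((h1 k _).1 z.2).1).2.2, ← ((P k).lft _ ((h1 k _).1 z'.2).1).2.2]
    exact congrArg (fun x => (P k).χ x.1) b
  · obtain ⟨r1, r2⟩ := (P k).rgt x (mem_of_indicator_ne_zero hx).1 (hT _ x.2)
    exact ⟨⟨_, (h1 k _).2 ⟨r1, r2.symm ▸ x.2⟩⟩, Subtype.ext r2⟩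
  · by_cases b : z.1 ∈ A P k
    · rw [indicator_of_mem b]
      exact indicator_of_mem (by exact ⟨((P k).lft _ b.1).1, b.2⟩) _
    · rw [indicator_of_notMem b]
      exact indicator_of_notMem (fun d => b ⟨((h1 k _).1 z.2).1, d.2⟩) _

theorem nu_eq (hm : 0 < m) (cov : ∀ x ∈ F, ∃ k, x ∈ (P k).O) {g : Mt ρ} {S : Set X}
    (hS : ∀ x, x ∈ S ↔ x ∈ F ∧ gd J₀ (act g (J x))) (h : ∀ x ∈ F, ∃ᶠ x' in 𝓝 x, x' ∈ S)
    (α : Fin ρ) : ∫⁻ o : Cm a, ∑' x : {x // x ∈ S ∧ wc J₀ (act g (J x)) = o},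
      ‖(nrm J₀ m (act g (J x.1))).1 α‖ₑ ^ (2 / m : ℝ) = nu P (g α) := by
  simp only [hS] at h
  refine Eq.trans ?_ (Finset.sum_congr rfl fun k _ =>
    (P k).int hm h (A_mes P k) (fun _ b => b.1) α)
  refine (lintegral_congr fun o => ?_).trans (lintegral_finsetSum _ fun k _ =>
    areaM (P k).U_open (fun _ => (P k).an_U) ((P k).mes (A_mes P k) α))
  refine (sum_eq P cov (T := fun x => x ∈ S ∧ wc J₀ (act g (J x)) = o)
    (T' := fun k z => z ∈ (P k).U J₀ g ∧ wc J₀ (act g ((P k).j z)) = o)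
    (fun x b => ((hS x).1 b.1).1) (fun k u => ?_)
    fun x => ‖(nrm J₀ m (act g (J x))).1 α‖ₑ ^ (2 / m : ℝ)).trans
    (Finset.sum_congr rfl fun k _ => tsum_congr fun z => ?_)
  · exact ⟨fun b => ⟨b.1.1, (hS _).2 ⟨((P k).lft _ b.1.1).2.1, ((P k).gd_iff b.1.1).1 b.1.2⟩,
      ((P k).wc_eq b.1.1).symm.trans b.2⟩, fun b =>
        ⟨⟨b.1, ((P k).gd_iff b.1).2 ((hS _).1 b.2.1).2⟩, ((P k).wc_eq b.1).trans b.2.2⟩⟩
  · by_cases b : z.1 ∈ A P k
    · rw [indicator_of_mem b, indicator_of_mem (mem_inter b z.2.1), (P k).nrm_eq b.1]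
    · rw [indicator_of_notMem b, indicator_of_notMem fun d => b d.1]

end Sa

end Vale.Agent.P281Z.Ga
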