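import Vale.Agent.P281Z.Ga.Fgen
import Vale.Agent.P281Z.Gi.Covw
import Vale.Agent.P281Z.Bs.Tr
import Vale.Agent.P281Z.Mf.Prod
import Vale.Agent.P277Z.Lo.Base

/-!
# P281Z, block III, part A: the family of all coordinate systems on a fibre is a covering
-/

open scoped Manifold ContDiff Topology Matrix
open Set Filter Function
open Vale.Agent.P272.K
open Vale.Agent.P277Z (Hol Mer at_chart hol_const)
open Vale.Agent.P277Z.Lo (mer_div mer_of_hol mer_congr)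
open Vale.Agent.P281Z.Gi.Cw (io io_hol io_inj io_near)

noncomputable section

namespace Vale.Agent.P281Z.Ga.Stb

open Gt

/-! ### small tools -/

theorem hol_of {k : ℕ} {g : Cm k → ℂ} {t : Cm k} (h : AnalyticAt ℂ g t) : Hol k g t := by
  rintro e ⟨rfl, -⟩
  exact h

theorem an_c (t : ℂ) : AnalyticAt ℂ (fun s : ℂ => (fun _ => s : Cm 1)) t :=
  .pi fun _ => analyticAt_id

theorem cnt {B : Set (Cm 1)} (h : Thin 1 B) : {t : ℂ | (fun _ => t) ∈ B}.Countable := by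
  refine (HereditarilyLindelofSpace.isLindelof _).countable_of_isDiscrete
    (isDiscrete_iff_nhdsNE.2 fun t _ => ?_)
  obtain ⟨g, hg, h0, hB⟩ := h.nz fun _ => t
  have h1 : AnalyticAt ℂ g fun _ => t := hg _ (at_chart _)
  rcases (h1.comp_of_eq (an_c t) rfl).eventually_eq_zero_or_eventually_ne_zero with k | k
  · refine (h0 (((continuous_apply (0 : Fin 1)).tendsto fun _ => t).eventually k |>.mono
      fun z hz => ?_)).elim
    exact (congrArg g (funext fun i => congrArg z (Subsingleton.elim i 0))).trans hz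
  · rw [inf_principal_eq_bot]
    filter_upwards [k, nhdsWithin_le_nhds ((an_c t).continuousAt.eventually hB)] with s a b c
      using a (b c)

theorem freq_det {ρ : ℕ} (g : Mt ρ) : ∃ᶠ s in 𝓝 (0 : ℂ), (Matrix.scalar _ s - g).det ≠ 0 := by
  refine (mem_closure_iff_frequently.1 ((Polynomial.finite_setOfPred_isRoot
    g.charpoly_monic.ne_zero).countable.dense_compl ℂ 0)).mono fun s hs k => hs ?_
  exact (Matrix.eval_charpoly g s).trans k

/-! ### the abstract covering -/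

theorem core (hM : MERF) (hC : COV) {N a : ℕ} (P : PS N) (S : PS a) (F : Mf a)
    {S₀ S₁ : Set (P.P.prod F).X} {W : Fin a → (P.P.prod F).X → ℂ} (h0 : Thin (N + a) S₀)
    (h1 : Thin (N + a) S₁) (hW : ∀ l, Mr (N + a) S₀ (W l)) :
    ∃ B : Set (P.P.prod S.P).X, Thin (N + a) B ∧ ∀ (κ : Cm 1 → P.P.X) (t : Cm 1) (o : Cm a),
      HolA 1 N κ t → P.P.pair S.P (κ t) (io S o) ∉ B → ∃ (d : ℕ) (σ : Fin d → Cm 1 → F.X),
        (∀ k, HolA 1 a (σ k) t) ∧ ∀ᶠ s in 𝓝 t, Injective (fun k => σ k s) ∧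
          (∀ k, P.P.pair F (κ s) (σ k s) ∉ S₁) ∧ ∀ x, (P.P.pair F (κ s) x ∉ S₀ ∧
            (fun l => W l (P.P.pair F (κ s) x)) = o) ↔ ∃ k, σ k s = x := by
  obtain ⟨V, π, φ, hπ, hφ, -, e1⟩ := hM _ _ _ S₀ W S h0 hW
  have := P.conn
  have := S.conn
  obtain ⟨B, d, b1, b2, -, b3, -⟩ := hC _ V (P.P.prod S.P)
    (fun v => P.P.pair S.P (P.P.p1 F (π v)) (φ v)) (π ⁻¹' (S₀ ∪ S₁))
    ((hol_p1.comp hπ.hol).pair hφ) prod_conn (hπ.pre_thin (h0.union h1))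
  refine ⟨B, b1, fun κ t o hκ hB => ?_⟩
  obtain ⟨σ, s1, s2⟩ := b3 _ hB
  have hγ : HolA 1 (N + a) (fun s => P.P.pair S.P (κ s) (io S o)) t :=
    hκ.pair ((holM_const _).at t)
  refine ⟨d, fun k s => P.P.p2 F (π (σ k (P.P.pair S.P (κ s) (io S o)))), fun k =>
    ((hol_p2.comp hπ.hol).at _).cmp (HolA.cmp (f := fun s => P.P.pair S.P (κ s) (io S o))
      (s1 k) hγ), ?_⟩
  filter_upwards [hγ.cont.eventually s2, hγ.cont.eventually (b1.closed.isOpen_compl.mem_nhds hB)]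
    with s ⟨a1, a2⟩ a3
  have a4 : ∀ k, P.P.pair S.P (P.P.p1 F (π (σ k (P.P.pair S.P (κ s) (io S o)))))
      (φ (σ k (P.P.pair S.P (κ s) (io S o)))) = P.P.pair S.P (κ s) (io S o) := fun k =>
    a2.le (mem_range_self k)
  have a5 : ∀ k, P.P.pair F (κ s) (P.P.p2 F (π (σ k (P.P.pair S.P (κ s) (io S o))))) =
      π (σ k (P.P.pair S.P (κ s) (io S o))) := fun k => prod_ext (pair_inj.1 (a4 k)).1.symm rfl
  have a6 : ∀ k, π (σ k (P.P.pair S.P (κ s) (io S o))) ∉ S₀ ∪ S₁ := fun k m =>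
    a3 (a4 k ▸ b2 ⟨_, m, rfl⟩)
  refine ⟨fun k k' m => a1 (hπ.inj (fun c => a6 k' (.inl c))
    ((a5 k).symm.trans ((congrArg _ m).trans (a5 k')))), fun k c => a6 k (.inr (a5 k ▸ c)),
    fun x => ⟨fun ⟨m1, m2⟩ => ?_, ?_⟩⟩
  · obtain ⟨v, hv⟩ := hπ.ex m1
    obtain ⟨k, hk⟩ := a2.ge (show P.P.pair S.P (P.P.p1 F (π v)) (φ v) = _ by
      rw [e1 v (hv ▸ m1), hv, m2]; rfl)
    exact ⟨k, (congrArg (fun v => P.P.p2 F (π v)) hk).trans (congrArg _ hv)⟩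
  · rintro ⟨k, rfl⟩
    rw [a5 k]
    exact ⟨fun c => a6 k (.inl c), io_inj S
      ((e1 _ fun c => a6 k (.inl c)).symm.trans (pair_inj.1 (a4 k)).2)⟩

/-! ### scalings -/

section alg

variable {ρ a : ℕ} {J₀ : Fin (a + 1) → Fin ρ} {b c : ℂ}

/-- independent scalings of the two parts -/
def s2 (b c : ℂ) (j : Jt ρ a) : Jt ρ a := (b • j.1, c • j.2)

theorem act_s2 (g : Mt ρ) (j : Jt ρ a) : act g (s2 b c j) = s2 b c (act g j) :=
  Prod.ext (Matrix.mulVec_smul g b j.1) (funext fun J => by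
    simp only [act, s2, Pi.smul_apply, smul_eq_mul, Finset.mul_sum, mul_left_comm])

theorem act_smul (g : Mt ρ) (j : Jt ρ a) : act (b • g) j = s2 b (b ^ (a + 1)) (act g j) :=
  Prod.ext (Matrix.smul_mulVec b g j.1) (funext fun J => by
    simp only [act, s2, Pi.smul_apply, Matrix.smul_apply, smul_eq_mul, Finset.mul_sum,
      Finset.prod_mul_distrib, Finset.prod_const, Finset.card_univ, Fintype.card_fin, mul_assoc])

theorem gd_s2 (hb : b ≠ 0) (hc : c ≠ 0) (j : Jt ρ a) : gd J₀ (s2 b c j) ↔ gd J₀ j := by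
  simp [gd, s2, hb, hc]

theorem wc_s2 (hb : b ≠ 0) (j : Jt ρ a) : wc J₀ (s2 b c j) = wc J₀ j :=
  funext fun _ => mul_div_mul_left _ _ hb

theorem gd_sc {m : ℕ} (hb : b ≠ 0) (g : Mt ρ) (j : Jt ρ a) :
    (gd J₀ (act g (sc m b j)) ↔ gd J₀ (act g j)) ∧ wc J₀ (act g (sc m b j)) = wc J₀ (act g j) := by
  rw [show sc m b j = s2 _ _ j from rfl, act_s2]
  exact ⟨gd_s2 (pow_ne_zero _ hb) (pow_ne_zero _ hb) _, wc_s2 (pow_ne_zero _ hb) _⟩

/-- matrices from vectors -/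
def mat (v : Cm (ρ * ρ)) : Mt ρ := Matrix.of fun α β => v (finProdFinEquiv (α, β))

/-- vectors from matrices -/
def vec (g : Mt ρ) : Cm (ρ * ρ) := fun k => g (finProdFinEquiv.symm k).1 (finProdFinEquiv.symm k).2

theorem mat_vec (g : Mt ρ) : mat (vec g) = g := by
  ext α β
  simp only [mat, vec, Matrix.of_apply, Equiv.symm_apply_apply]

theorem vec_mat (v : Cm (ρ * ρ)) : vec (mat v) = v := funext fun k => by
  simp only [mat, vec, Matrix.of_apply, Prod.mk.eta, Equiv.apply_symm_apply]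

end alg

/-! ### the family of coordinates on a fibre -/

variable {p a m ρ : ℕ} {M : Fb (p + a) p} (R : JS M m ρ) (J₀ : Fin (a + 1) → Fin ρ) {y : M.Y.X}
  (P : PS (ρ * ρ)) {F : Mf a} (u : F.X → M.X.X)

variable (y) in
/-- the bad pairs -/
def S0 : Set (P.P.prod F).X := {z | ¬ (P.hx (P.P.p1 F z) 0 ≠ 0 ∧
  u (P.P.p2 F z) ∈ R.Gd J₀ y (mat (P.aff (P.P.p1 F z))))}

/-- the coordinates -/
def Wc (l : Fin a) (z : (P.P.prod F).X) : ℂ :=
  wc J₀ (act (mat (P.aff (P.P.p1 F z))) (R.J (u (P.P.p2 F z)))) l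

theorem s0_iff (g : Mt ρ) (x : F.X) :
    P.P.pair F (io P (vec g)) x ∉ S0 R J₀ y P u ↔ u x ∈ R.Gd J₀ y g := by
  have h := P.aff_pt (vec g)
  simp only [S0, mem_ofPred_eq, not_not, p1_pair, p2_pair, io, h.2, mat_vec]
  exact and_iff_right h.1

theorem wc_eq (g : Mt ρ) (x : F.X) :
    (fun l => Wc R J₀ P u l (P.P.pair F (io P (vec g)) x)) = wc J₀ (act g (R.J (u x))) := by
  simp only [Wc, p1_pair, p2_pair, io, (P.aff_pt (vec g)).2, mat_vec]

variable {u}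

theorem loc (hM : M.Ok) (hu : Emb a (p + a) u (M.f ⁻¹' {y})) (z : (P.P.prod F).X) :
    ∃ (D : (P.P.prod F).X → ℂ) (A : Fin ρ → (P.P.prod F).X → ℂ), Hol (ρ * ρ + a) D z ∧
      (∀ α, Hol (ρ * ρ + a) (A α) z) ∧ ∀ᶠ w in 𝓝 z, (w ∈ S0 R J₀ y P u ↔ D w = 0) ∧
        (w ∉ S0 R J₀ y P u → A (J₀ 0) w ≠ 0 ∧
          ∀ l, A (J₀ l.succ) w / A (J₀ 0) w = Wc R J₀ P u l w) := by
  obtain ⟨h, hh⟩ := P.lb.cover (P.P.p1 F z)
  obtain ⟨ζ, hζ, -⟩ := hM.snc (u (P.P.p2 F z))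
  have hi : ∀ x, M.f (u x) ∈ R.U (R.fr y) := fun x => (hu.fib x).symm ▸ R.fr_mem y
  obtain ⟨j', j1, j2⟩ := R.mer (R.fr y) (cx (u (P.P.p2 F z))) _ ζ (hi _) (at_chart _) hζ
  have hx : HolA (ρ * ρ + a) (p + a) (fun w => u (P.P.p2 F w)) z := (hu.hol.comp hol_p2).at z
  have k1 : ∀ b, Hol (ρ * ρ + a) (fun w => P.x h (P.P.p1 F w) b) z := fun b =>
    hol_p1.hol (P.xhol hh b)
  have k2 : ∀ α, Hol (ρ * ρ + a) (fun w => (j' (u (P.P.p2 F w))).1 α) z := fun α =>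
    hx.hol ((j1.cmp analyticAt_fst).hol α)
  have k3 : ∀ J, Hol (ρ * ρ + a) (fun w => (j' (u (P.P.p2 F w))).2 J) z := fun J =>
    hx.hol ((j1.cmp analyticAt_snd).hol J)
  let B : (P.P.prod F).X → Jt ρ a := fun w =>
    act (mat fun k => P.x h (P.P.p1 F w) k.succ) (j' (u (P.P.p2 F w)))
  have k4 : ∀ α, Hol (ρ * ρ + a) (fun w => (B w).1 α) z := fun α =>
    Hol.sum Finset.univ fun β _ => (k1 (finProdFinEquiv (α, β)).succ).mul (k2 β)
  have k5 : Hol (ρ * ρ + a) (fun w => (B w).2 J₀) z :=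
    Hol.sum _ fun J _ => (Hol.prod _ fun k _ => k1 _).mul (k3 J)
  refine ⟨fun w => P.x h (P.P.p1 F w) 0 * ((∏ l, ζ l (u (P.P.p2 F w))) *
    ((B w).1 (J₀ 0) * (B w).2 J₀)), fun α w => (B w).1 α, (k1 0).mul
      ((Hol.prod _ fun l _ => hx.hol (hζ l).hol).mul ((k4 _).mul k5)), k4, ?_⟩
  filter_upwards [cont_p1.continuousAt.eventually (lb_near P.lb hh), hx.cont.eventually j2,
    hx.cont.eventually (off_iff hζ), hx.cont.eventually (at_near (at_chart (n := p + a) _))]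
    with w a1 a2 a3 a4
  have key : P.x h (P.P.p1 F w) 0 ≠ 0 → u (P.P.p2 F w) ∈ off M.G →
      (gd J₀ (B w) ↔ gd J₀ (act (mat (P.aff (P.P.p1 F w))) (R.J (u (P.P.p2 F w))))) ∧
      wc J₀ (B w) = wc J₀ (act (mat (P.aff (P.P.p1 F w))) (R.J (u (P.P.p2 F w)))) := by
    intro c1 c2
    obtain ⟨l, hl, c3⟩ := FgenH.loc (R := R) (hi _) (at_chart _) a4 c2
    have c4 : R.J (u (P.P.p2 F w)) = _ := (by rw [JS.J, hu.fib] :
      R.J (u (P.P.p2 F w)) = R.j (R.fr y) _ _).trans c3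
    have c5 : (mat fun k => P.x h (P.P.p1 F w) k.succ) =
        P.x h (P.P.p1 F w) 0 • mat (P.aff (P.P.p1 F w)) := by
      ext α β
      simp only [mat, Matrix.of_apply, Matrix.smul_apply, smul_eq_mul, P.aff_eq a1,
        mul_div_cancel₀ _ c1]
    have c6 := Finset.prod_ne_zero_iff.2 fun l (_ : l ∈ Finset.univ) => a3.1 c2 l
    simp only [B, c5, act_smul, a2 c2, c4, gd_s2 c1 (pow_ne_zero _ c1), wc_s2 c1, gd_sc hl,
      gd_sc c6, and_self]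
  have e : w ∉ S0 R J₀ y P u ↔ P.x h (P.P.p1 F w) 0 ≠ 0 ∧ u (P.P.p2 F w) ∈ off M.G ∧
      gd J₀ (B w) := by
    rw [S0, mem_ofPred_eq, not_not, P.hx_ne a1]
    exact and_congr_right fun c1 => (and_iff_right (hu.fib _)).trans
      (and_congr_right fun c2 => (key c1 c2).1.symm)
  refine ⟨not_iff_not.1 (e.trans ?_), fun c => ?_⟩
  · simp only [a3, gd, mul_eq_zero, not_or, Finset.prod_eq_zero_iff, Finset.mem_univ, true_and,
      not_exists, ne_eq]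
  · obtain ⟨c1, c2, c3⟩ := e.1 c
    exact ⟨c3.1, fun l => congrFun (key c1 c2).2 l⟩

theorem s0_an (hM : M.Ok) (hu : Emb a (p + a) u (M.f ⁻¹' {y})) :
    An (ρ * ρ + a) (S0 R J₀ y P u) := .of_fin fun z =>
  let ⟨D, _, h1, _, h2⟩ := loc R J₀ P hM hu z
  ⟨Unit, inferInstance, fun _ => D, fun _ => h1, h2.mono fun _ k => k.1.trans (by simp)⟩

theorem wc_mr (hM : M.Ok) (hu : Emb a (p + a) u (M.f ⁻¹' {y}))
    (h : Thin (ρ * ρ + a) (S0 R J₀ y P u)) (l : Fin a) :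
    Mr (ρ * ρ + a) (S0 R J₀ y P u) (Wc R J₀ P u l) := by
  refine ⟨fun z hz => ?_, fun z => ?_⟩ <;> obtain ⟨D, A, -, h1, h2⟩ := loc R J₀ P hM hu z
  · refine ((h1 (J₀ l.succ)).div (h1 _) (h2.self_of_nhds.2 hz).1).congr ?_
    filter_upwards [h2, h.closed.isOpen_compl.mem_nhds hz] with w a b using (a.2 b).2 l
  · refine mer_congr (mer_div (mer_of_hol (h1 (J₀ l.succ))) (mer_of_hol (h1 (J₀ 0)))) ?_
    filter_upwards [h2.filter_mono (P277Z.gen_le_nhds z), h.gen z] with w a b using (a.2 b).2 l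

end Vale.Agent.P281Z.Ga.Stb
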