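import Vale.Agent.P281Z.Ga.Sk
import Vale.Agent.P281Z.Gl.Thn

/-!
# P281Z, block III, part A: the good points of a model, good points on the general fibres
-/

open scoped Manifold ContDiff Topology
open Set Filter
open Vale.Agent.P272.K
open Vale.Agent.P277Z (at_chart)

noncomputable section

namespace Vale.Agent.P281Z.Ga

open Gt

namespace Thz

variable {p a m ρ n K : ℕ} {M : Fb (p + a) p} {R : JS M m ρ}

theorem fib (hM : M.Ok) {x : M.X.X} (h : M.f x ∉ R.Q) :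
    x ∈ closure {x' | M.f x' = M.f x ∧ x' ∈ off M.G} := by
  obtain ⟨F, i, hi, hs⟩ := (R.reg _ h).fib rfl hM.fibn.hol hM.snc
  obtain ⟨z, hz⟩ := hi.ex (y := x) rfl
  have := map_mem_closure (t := {x' | M.f x' = M.f x ∧ x' ∈ off M.G}) hi.hol.cont
    (snc_dense_off hs z) fun z' k => ⟨hi.fib z', k⟩
  rwa [hz] at this

theorem clo (hM : M.Ok) (W : Pw M n K R.Q) {v : W.V.X} (h : (W.γ v).1 ∉ R.Q) :
    v ∈ closure {v' | W.γ v' ∈ R.Nc n} := by
  have k : (W.γ v).2 ∈ closure (pi univ fun _ => {x' | M.f x' = (W.γ v).1 ∧ x' ∈ off M.G}) := by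
    rw [closure_pi_set]
    exact fun j _ => Thn.fp W v j ▸ fib hM ((Thn.fp W v j).symm ▸ h)
  have k' : ((W.γ v).1, (W.γ v).2) ∈ closure {q : Pt M n | q ∈ R.Nc n ∧ Fp q} :=
    map_mem_closure (Continuous.prodMk_right (W.γ v).1) k fun x hx =>
      ⟨⟨fun j => (hx j trivial).1, h, fun j => (hx j trivial).2⟩, fun j => (hx j trivial).1⟩
  have : ∃ᶠ q in 𝓝[{q | Fp q}] (W.γ v), q ∈ R.Nc n :=
    frequently_nhdsWithin_iff.2 (mem_closure_iff_frequently.1 k')
  rw [← Thn.map_eq W R.thin.closed h, frequently_map] at this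
  exact mem_closure_iff_frequently.2 this

/-- the points of a model where the jets are not holomorphic -/
theorem thin (hM : M.Ok) (W : Pw M n K R.Q) : Thin K {v | W.γ v ∉ R.Nc n} := by
  refine ⟨?_, fun v => closure_minimal (fun v h => closure_mono (fun _ k => not_not.2 k)
    (clo hM W h)) isClosed_closure (W.dense v)⟩
  refine (congrArg (An _) (Set.ext fun v => ?_)).mp
    ((R.thin.an.pre (f := fun v => (W.γ v).1) fun v => (W.tm v).b).union (An.iUnion fun j =>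
      (snc_thin_off hM.snc).an.pre (f := fun v => (W.γ v).2 j) fun v => (W.tm v).x j))
  simp [JS.Nc, Thn.fp W v, or_iff_not_imp_left]

/-- the zeros of a semi-invariant do not depend on the frame and on the charts -/
theorem zero {c : ℕ} {d : Fin n → ℕ} {D : (Fin n → Jt ρ a) → ℂ} (hD : SI m c d D) {q : Pt M n}
    (hq : q ∈ R.Nc n) {i : R.ι} (hi : q.1 ∈ R.U i) {e : Fin n → Chart (p + a) M.X.X}
    (he : ∀ l, At (e l) (q.2 l)) : D (R.Jq q) = 0 ↔ D (fun l => R.j i (e l) (q.2 l)) = 0 := by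
  have h1 : R.Jq q = fun l => sc m (rj (cx (q.2 l)) (e l) (R.ch (R.fr q.1)) (R.ch i) (q.2 l))
      (act (R.T (R.fr q.1) i q.1) (R.j i (e l) (q.2 l))) := funext fun l => by
    have := R.law (R.fr q.1) i _ _ (q.2 l) ((hq.1 l).symm ▸ R.fr_mem _) ((hq.1 l).symm ▸ hi)
      (at_chart _) (he l) (hq.2.2 l)
    rwa [hq.1 l] at this
  rw [h1, hD.sc, hD.act, mul_eq_zero_iff_left, mul_eq_zero_iff_left]
  · exact pow_ne_zero _ (R.detT _ _ _ (R.fr_mem _) hi)
  · exact Finset.prod_ne_zero_iff.2 fun l _ => pow_ne_zero _ (div_ne_zero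
      (jacM_det_ne_zero (at_chart _) (he l)) (jacM_det_ne_zero
        (R.atc _ _ ((hq.1 l).symm ▸ R.fr_mem _)) (R.atc _ _ ((hq.1 l).symm ▸ hi))))

end Thz

open Thz in
/-- **THZ** -/
theorem thz_of (hZ : ZERO) (hT : TST) : THZ := by
  rintro p a m ρ M R hs n O W ⟨c, d, D, hD, hO⟩ ⟨q, hq, hq'⟩
  have h1 := thin hs.ok W
  refine (congrArg (Thin _) (Set.ext fun v => not_and_or.symm)).mp (hZ _ W.V _
    {v | R.Jq (W.γ v) ∉ O} W.conn h1 (fun x => ?_) ?_)
  · have k := fun y => (hT p a m ρ M R hs n _ W.V.X W.γ y (W.tm y)).1 (R.fr (W.γ x).1)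
      (fun l => cx ((W.γ x).2 l)) d D hD.toSH
    refine ⟨_, (k x (R.fr_mem _) fun _ => at_chart _).2
      ((h1.freq x).mono fun _ b => (not_not.1 b).2.2), ?_⟩
    filter_upwards [(W.tm x).b.cont.eventually ((R.opn _).mem_nhds (R.fr_mem _)),
      eventually_all.2 fun l => ((W.tm x).x l).cont.eventually
        (at_near (at_chart (n := p + a) _))] with y a b c
    exact ⟨(k y a b).1 (not_not.1 c).2.2,
      ((hO _).not.trans not_not).trans (zero hD (not_not.1 c) a b)⟩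
  · obtain ⟨v, rfl, -⟩ := W.bij q hq.1 hq.2.1
    exact ⟨v, not_not.2 hq, not_not.2 hq'⟩

/-- **VGEN** -/
theorem vgen_of (hP : PW) (hV : VERT) (hT : THZ) : VGEN := fun p a m ρ M R hs n O hO hq => by
  obtain ⟨W⟩ := hP p a n M R.Q hs.ok hs.kahX hs.kahY R.thin fun y hy => ⟨R.reg y hy, R.conn y hy⟩
  obtain ⟨Q, h1, h2⟩ := hV _ p W.V M.Y (fun v => (W.γ v).1) _ (fun v => (W.tm v).b)
    (hT p a m ρ M R hs n O W hO hq)
  refine ⟨R.Q ∪ Q, R.thin.union h1, subset_union_left, fun y hy => ?_⟩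
  obtain ⟨x, rfl⟩ := (R.conn y fun k => hy (.inl k)).nonempty
  obtain ⟨v, k, -⟩ := W.bij (dg n x) (fun _ => rfl) fun k => hy (.inl k)
  have e : (W.γ v).1 = M.f x := congrArg Prod.fst k
  obtain ⟨v', b, c⟩ := Set.Nonempty.of_closure ⟨v, h2 v fun k => hy (.inr (e ▸ k))⟩
  exact ⟨(W.γ v').2, (b.trans e) ▸ not_not.1 c⟩

end Vale.Agent.P281Z.Ga
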